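import Vale.Agent.P159.H767.Nr13
import Vale.Agent.P159.H145.Nu1

/-!
P159, module NEAR (helper767), part 15: the exponent of the cells of the charged sector is chosen
after `C0` (helper358, row 7073): `br_evC`, `Lv.sE`.
-/

set_option linter.unusedSectionVars false

namespace Vale.Agent.P159.H767

open Finset Matrix
open Vale.Agent.P159.TM.H764 (EE cN dt)
open Vale.Agent.P159.TM.H859 (dirE)
open Vale.Agent.P159.TM.Spec (V Rng)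
open Vale.Agent.P159.H972 (Par lg tn RNG Good FL)
open Vale.Agent.P159.H864 (TI sym yt)
open Vale.Agent.P159.H363 (acl rel Nf)
open Vale.Agent.P159.H462 (Dom)
open Vale.Agent.P159.H801 (Ev PS)
open Vale.Agent.P159.H733.Torg (pz ti_pz dom_pz Two)
open Vale.Agent.P159.H640

noncomputable section

/-- smaller exponents -/
lemma Sm1.mono {C1 C1' c1 thp e : ℝ} (h : Sm1 C1 c1 thp e) (hc : C1' ≤ C1) (hc1 : 0 < c1)
    (he : 0 < e) : Sm1 C1' c1 thp e := by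
  refine ⟨?_, h.a2, h.a3, h.a4, h.a5, h.a6⟩
  refine le_trans ?_ h.a1
  have hl2 : 0 < Real.log 2 := Real.log_pos one_lt_two
  gcongr

/-- the small numbers in the order of constants, exponents up to `K C0` -/
theorem sm1_ev {b1 b2 : ℝ} (K : ℝ) (Q : ℕ) :
    Ev b1 b2 (9 / 10) Q fun P c1 => 0 < c1 ∧ P.pf = 9 / 10 ∧ P.b1 = b1 ∧ P.b2 = b2 ∧
      ∀ C1, 1 ≤ C1 → C1 ≤ K * P.C0 → ∀ e, 0 < e → e ≤ P.es → Sm1 C1 c1 P.thp e := by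
  refine Ev.of ⟨0, fun W _ => ⟨1, one_pos, fun ys _ _ => ⟨0, fun X0 _ => ⟨1, one_pos,
    fun x1 _ _ => ⟨1 / 10, by norm_num, fun thp _ hthp => ⟨1, one_pos, fun th _ _ => ⟨0,
    fun C0 _ => ⟨1, one_pos, fun c1 hc1 _ => ?_⟩⟩⟩⟩⟩⟩⟩⟩
  obtain ⟨e0, he0, h⟩ := sm1_ex (C1 := max 1 (K * C0)) (le_max_left _ _) hc1 hthp
  refine ⟨e0, he0, fun P hP => ⟨hc1, hP.epf, hP.eb1, hP.eb2, fun C1 _ hC1 e he hle => ?_⟩⟩
  rw [hP.ethp]
  rw [hP.eC0] at hC1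
  exact (h e he (hle.trans hP.ees)).mono (hC1.trans (le_max_right _ _)) hc1 he

/-- the cells of the charged sector are inside the cells of `P_up` -/
lemma Lv.sE {P : Par} {C1 c1 e y : ℝ} {n s : ℕ} (h : Lv P C1 c1 n s e y)
    (hs : Sm1 C1 c1 P.thp e) (hC1 : 1 ≤ C1) (hC0 : P.C0 ≤ C1) (hC0p : 0 ≤ P.C0) :
    s ≤ P.sE n e := by
  have he := h.e0
  have hy := h.y0
  have h6 := hs.a6
  have hy2 : y ≤ 1 / 2 := by
    by_contra hc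
    have h1 : (1 / 2 : ℝ) ^ (39 / 20 : ℝ) < y ^ (39 / 20 : ℝ) :=
      Real.rpow_lt_rpow (by norm_num) (not_le.1 hc) (by norm_num)
    have h2 : (1 / 2 : ℝ) ^ (2 : ℝ) ≤ (1 / 2 : ℝ) ^ (39 / 20 : ℝ) :=
      Real.rpow_le_rpow_of_exponent_ge (by norm_num) (by norm_num) (by norm_num)
    have h3 : (1 / 2 : ℝ) ^ (2 : ℝ) = 1 / 4 := by norm_num
    have h4 := h.ye
    linarith
  have he1 : e ≤ 1 := by linarith
  have h1 : (e * y) ^ C1 ≤ e ^ P.C0 / 2 := by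
    rw [Real.mul_rpow he.le hy.le]
    have k1 : e ^ C1 ≤ e ^ P.C0 := Real.rpow_le_rpow_of_exponent_ge he he1 hC0
    have k2 : y ^ C1 ≤ 1 / 2 := by
      calc y ^ C1 ≤ y ^ (1 : ℝ) :=
            Real.rpow_le_rpow_of_exponent_ge hy (by linarith) hC1
        _ = y := Real.rpow_one _
        _ ≤ 1 / 2 := hy2
    have k3 : 0 ≤ y ^ C1 := Real.rpow_nonneg hy.le _
    have k4 : 0 ≤ e ^ P.C0 := Real.rpow_nonneg he.le _
    calc e ^ C1 * y ^ C1 ≤ e ^ P.C0 * (1 / 2) := mul_le_mul k1 k2 k3 k4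
      _ = _ := by ring
  have h2 := H145.two_lg_le (c := P.C0) hC0p he he1
  have hC : e ^ P.C0 * e ^ (-P.C0) = 1 := by
    rw [← Real.rpow_add he, add_neg_cancel, Real.rpow_zero]
  have h3 : (2 : ℝ) ^ s * 2 ^ lg P.C0 e ≤ 2 ^ n := by
    have k1 : (2 : ℝ) ^ s ≤ (e ^ P.C0 / 2) * 2 ^ n := by
      rw [← div_le_iff₀ (by positivity)]
      exact h.s2.trans h1
    calc (2 : ℝ) ^ s * 2 ^ lg P.C0 e ≤ ((e ^ P.C0 / 2) * 2 ^ n) * (2 * e ^ (-P.C0)) :=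
          mul_le_mul k1 h2 (by positivity) (le_trans (by positivity) k1)
      _ = (e ^ P.C0 * e ^ (-P.C0)) * 2 ^ n := by ring
      _ = 2 ^ n := by rw [hC, one_mul]
  rw [← pow_add] at h3
  have h4 : s + lg P.C0 e ≤ n := (pow_le_pow_iff_right₀ one_lt_two).1 h3
  unfold H972.Par.sE
  omega

/-- **the reference forms at the cells of the charged sector**, the exponent of the cells after
`C0` -/
theorem br_evC {b1 : ℝ} (hb1 : 0 < b1) {b2 : ℝ} (hb2 : 0 < b2) :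
    ∃ k0 c0 Cm : ℝ, 0 < k0 ∧ 0 < c0 ∧ 0 < Cm ∧ ∀ (K : ℝ) (Q : ℕ),
    Ev b1 b2 (9 / 10) Q fun P c1 => ∀ C1 : ℝ, 1 ≤ C1 → C1 ≤ K * P.C0 →
      ∀ (b : ℝ) (n s : ℕ) (e y : ℝ), Good P b n e → Lv P C1 c1 n s e y →
      (∀ r, P.TT n e r → yt (2 ^ r) b (4 * tn n) ≤ e ^ (-(P.thp / 20)) * y) →
      ∀ τ : ℝ, tn n ≤ τ → τ ≤ 4 * tn n →
      ∀ (r r' : ℕ) [NeZero (2 ^ r / 2 ^ s)] [NeZero (2 ^ r' / 2 ^ s)], P.TT n e r → P.TT n e r' →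
      ∀ h : 2 ^ r / 2 ^ s ∣ 2 ^ r' / 2 ^ s,
      Two h (pz h (A3 (2 ^ r') (2 ^ s) b τ)) (A3 (2 ^ r') (2 ^ s) b τ)
        (τ * ((2 ^ s : ℕ) : ℝ) ^ 2) c0 (k0 * (2 ^ s / 2 ^ n)) Cm ∧
      Nf (pz h (A3 (2 ^ r') (2 ^ s) b τ)) ∧
      (∀ (a t : ℝ), 1 ≤ a → a ≤ 8 / 5 → τ ≤ t → FL b t a (17 * e ^ P.pf) (2 ^ r) →
        ∀ u, (pz h (A3 (2 ^ r') (2 ^ s) b τ) *ᵥ u) ⬝ᵥ u ≤ (a + e ^ (1 / 2 : ℝ)) * dirE u) ∧
      ∑ k, rel (acl (2 ^ r) (2 ^ s) b τ τ) (pz h (A3 (2 ^ r') (2 ^ s) b τ)) k ^ 2 ≤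
        (e ^ (22 / 25 : ℝ)) ^ 2 ∧
      ∑ k, rel (pz h (A3 (2 ^ r') (2 ^ s) b τ)) (acl (2 ^ r) (2 ^ s) b τ τ) k ^ 2 ≤
        (e ^ (22 / 25 : ℝ)) ^ 2 ∧
      Dom (acl (2 ^ r) (2 ^ s) b τ τ) (τ * ((2 ^ s : ℕ) : ℝ) ^ 2) c0 := by
  obtain ⟨cm, Cm, hcm, hCm, h0⟩ := ref_ev hb1 hb2
  refine ⟨cm, 1 / (2 * b2), Cm, hcm, by positivity, hCm, ?_⟩
  intro K Q
  have hE1 := sm1_ev (b1 := b1) (b2 := b2) K Q
  refine ((h0 (22 / 25) (by norm_num) (by norm_num) (9 / 10) Q).and hE1).mono ?_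
  rintro P c1 hA ⟨⟨_, _, _, H⟩, hc1, hpf, hPb1, hPb2, hsm⟩
  intro C1 hC1 hC1K b n s e y hG hL hY τ hτ1 hτ2 r r' _ _ hT hT' h
  have hs := hsm C1 hC1 hC1K e hL.e0 hL.ees
  have he := hL.e0
  have he4 := hs.a6
  have hsn := hL.sn hs hC1
  have hns := hL.ns hs hC1 hc1
  have hyy := hL.yy hs
  obtain ⟨R, _⟩ := H b n s r r' e τ (e ^ (-(P.thp / 20)) * y) he hL.ees hG hT hT' hτ1 hτ2 hsn hns
    (hY r hT) (hY r' hT') hyy h dvd_rfl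
  have hsr : s ≤ r := hsn.trans ((Nat.le_add_right _ _).trans hT.1)
  refine ⟨R.two, Nf.of_dom R.two.dom, ?_, R.hs, R.hs', R.dom⟩
  intro a t ha1 ha2 hτt hF u
  have hτ : 0 < τ := (H972.tn_pos n).trans_le hτ1
  obtain ⟨τ0, a0, _, _, hGP⟩ := hG
  have hr := (hGP e le_rfl hL.ees).rng r (Or.inl hT)
  have hb : 0 < b := by
    have h2 := hr.1.hb1
    rw [hPb1] at h2
    linarith
  have hlam := hL.lam hs hC1
  have hlam2 : τ * ((2 ^ s : ℕ) : ℝ) ^ 2 ≤ 4 * e ^ 2 := by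
    have h1 : ((2 ^ s : ℕ) : ℝ) ^ 2 = 4 ^ s := by
      rw [four_sq]
      push_cast
      rfl
    have h2 : τ * (4 : ℝ) ^ s ≤ 4 * ((2 : ℝ) ^ s / 2 ^ n) ^ 2 := by
      calc τ * (4 : ℝ) ^ s ≤ 4 * tn n * 4 ^ s := mul_le_mul_of_nonneg_right hτ2 (by positivity)
        _ = _ := by
          unfold H972.tn
          rw [div_pow, ← four_sq, ← four_sq]
          field_simp
    rw [h1]
    refine h2.trans ?_
    gcongr
  have hη : 17 * e ^ P.pf ≤ 1 := by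
    have h1 : e ^ (9 / 10 : ℝ) = e ^ (9 / 10 - 1 / 2 : ℝ) * e ^ (1 / 2 : ℝ) := by
      rw [← Real.rpow_add he]
      norm_num
    have h2 : e ^ (1 / 2 : ℝ) ≤ 1 := Real.rpow_le_one he.le (by linarith) (by norm_num)
    have h3 := hs.a3
    have h4 : 0 ≤ e ^ (9 / 10 - 1 / 2 : ℝ) := Real.rpow_nonneg he.le _
    rw [hpf, h1]
    nlinarith
  have h1 := fun u => H375.acl_topT hb (pow_dvd_pow 2 hsr) hτ hτt ha1 (by linarith) hη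
    (by nlinarith) hF u
  refine (R.ha _ h1 u).trans (mul_le_mul_of_nonneg_right ?_ (H640.dirE_nonneg u))
  have e1 : e ^ (9 / 10 : ℝ) = e ^ (9 / 10 - 1 / 2 : ℝ) * e ^ (1 / 2 : ℝ) := by
    rw [← Real.rpow_add he]
    norm_num
  have e2 : e ^ 2 = e ^ (2 - 1 / 2 : ℝ) * e ^ (1 / 2 : ℝ) := by
    rw [← Real.rpow_add he, ← Real.rpow_natCast]
    norm_num
  have e3 : e ^ (22 / 25 : ℝ) = e ^ (22 / 25 - 1 / 2 : ℝ) * e ^ (1 / 2 : ℝ) := by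
    rw [← Real.rpow_add he]
    norm_num
  have hp : 0 ≤ e ^ (1 / 2 : ℝ) := Real.rpow_nonneg he.le _
  have k1 := mul_le_mul_of_nonneg_right hs.a3 hp
  have k2 := mul_le_mul_of_nonneg_right hs.a4 hp
  have k3 := mul_le_mul_of_nonneg_right hs.a5 hp
  have k4 : 20 * (τ * ((2 ^ s : ℕ) : ℝ) ^ 2) ≤ 20 * (4 * e ^ 2) :=
    mul_le_mul_of_nonneg_left hlam2 (by norm_num)
  rw [hpf]
  rw [mul_assoc, ← e1] at k1
  rw [mul_assoc, ← e2] at k2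
  rw [one_mul, ← e3] at k3
  linarith

end

end Vale.Agent.P159.H767
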