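import Vale.Agent.P159.H767.Nr2
import Vale.Agent.P159.H363.Acl
import Vale.Agent.P159.H612.Nker3
import Vale.Agent.P159.H159.Inst

/-!
P159, module NEAR (helper767), part 3: the step kernel `S = 1 - acl / (τ l²)` of the cells.

* `Sk_entry` : `S(x, y) = τ l² E[e_x e_y] + l²/N²`; `Sk_Gc` : cell average of helper612's `Sn`;
* `Sk_two` : pairs near the centre of the window, two tori; `Sk_far` : distant pairs; `Sk_sup`.
-/

set_option linter.unusedSectionVars false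

namespace Vale.Agent.P159.H767

open Finset Matrix
open Vale.Agent.P159.TM.H104 (EM Lg li Gr Ex Cv)
open Vale.Agent.P159.H37
open Vale.Agent.P159.H145 (OscZ mt)
open Vale.Agent.P159.H963 (nwt Pn ntr gw_wT mf_smul em_nwt ev_nwt Gnc GnC Gn Cn)
open Vale.Agent.P159.TM.Spec (V)
open Vale.Agent.P159.TM.SpecC (Tor wT)
open Vale.Agent.P159.TM.H459 (sn sd ball mem_ball card_ball_le sd_symm sd_tri)
open Vale.Agent.P159.TM.H705 (pt dB bx sn_pt_sub)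
open Vale.Agent.P159.H864 (cl cl1_val AM TI sym cobV Gc)
open Vale.Agent.P159.H363 (acl ti_acl)
open Vale.Agent.P159.H612 (Sn Jm)
open Vale.Agent.P159.H640

noncomputable section

section one

variable {N l : ℕ} [NeZero N] [NeZero (N / l)] {b τ : ℝ}

/-- the step kernel of the cells -/
def Sk (N l : ℕ) [NeZero N] [NeZero (N / l)] (b τ : ℝ) : Matrix (V (N / l)) (V (N / l)) ℝ :=
  1 - (τ * (l : ℝ) ^ 2)⁻¹ • acl N l b τ τ

theorem Sk_eq (hl : l ∣ N) (hτ : 0 < τ) :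
    Sk N l b τ = (1 - Pn) + τ • Gnc N l b τ τ := by
  have hlp : (0 : ℝ) < l := by exact_mod_cast H864.l_pos hl
  unfold Sk acl
  rw [smul_sub, smul_smul, smul_smul]
  have e1 : (τ * (l : ℝ) ^ 2)⁻¹ * ((l : ℝ) ^ 2 * τ) = 1 := by field_simp
  have e2 : (τ * (l : ℝ) ^ 2)⁻¹ * ((l : ℝ) ^ 2 * τ ^ 2) = τ := by field_simp
  rw [e1, e2, one_smul]
  abel

theorem ti_Sk (hb : 0 ≤ b) (hl : l ∣ N) (hτ : 0 < τ) : TI (Sk N l b τ) :=
  TI.one.sub ((ti_acl hb hl hτ le_rfl).smul _)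

/-- the cell covariance of the neutral model -/
theorem Gnc_entry (hb : 0 ≤ b) (hl : l ∣ N) (hτ : 0 < τ) (x y : V (N / l)) :
    Gnc N l b τ τ x y = (l : ℝ) ^ 2 * C2 (nwt N b τ 0) (ne N l x) (ne N l y) := by
  have hlp : (0 : ℝ) < l := by exact_mod_cast H864.l_pos hl
  have hE : EM (nwt N b τ 0) := em_nwt hb hτ 0
  have hv : Ev (nwt N b τ 0) := ev_nwt hb τ 0
  have h1 : Gnc N l b τ τ x y = bf (GnC N l b τ τ) (cobV N l x) (cobV N l y) := by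
    unfold Gnc Gc bf
    rw [Matrix.mul_apply]
    simp only [Matrix.mul_apply, Matrix.transpose_apply]
    rw [Finset.sum_comm]
    refine Finset.sum_congr rfl fun i _ => ?_
    rw [Finset.sum_mul]
  have h2 : GnC N l b τ τ = Cn (wM (wT b N) (ntr (τ • (1 : Matrix (V N) (V N) ℝ)) τ)) 0 0 := by
    unfold GnC
    rw [H864.MC_self]
  have h3 : ∀ c : V (N / l), cobV N l c = (l : ℝ) • ec N l c := by
    intro c
    funext x
    rw [H864.cobV_apply, Pi.smul_apply, smul_eq_mul]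
    unfold ec
    split_ifs
    · field_simp
    · rw [mul_zero]
  have h4 : H963.pin (wM (wT b N) (ntr (τ • (1 : Matrix (V N) (V N) ℝ)) τ)) 0 = nwt N b τ 0 := rfl
  rw [h1, h2, H963.bf_Cn, h3, h3, Matrix.mulVec_smul, Matrix.mulVec_smul, h4, ← H159.Cv_li hE]
  unfold Cv C2
  rw [H114.Ex_li_zero hv, zero_mul, sub_zero]
  have e2 : (fun h : V N → ℤ => li ((l : ℝ) • (Pn : Matrix (V N) (V N) ℝ).mulVec (ec N l x)) h *
      li ((l : ℝ) • (Pn : Matrix (V N) (V N) ℝ).mulVec (ec N l y)) h) =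
      fun h => (l : ℝ) ^ 2 * (li (ne N l x) h * li (ne N l y) h) := by
    funext h
    rw [TM.H104.li_smul, TM.H104.li_smul]
    unfold ne
    ring
  rw [e2, TM.H104.Ex_cmul]

/-- **the entries of the step kernel** -/
theorem Sk_entry (hb : 0 ≤ b) (hl : l ∣ N) (hτ : 0 < τ) (x y : V (N / l)) :
    Sk N l b τ x y = τ * (l : ℝ) ^ 2 * C2 (nwt N b τ 0) (ne N l x) (ne N l y) +
      (l : ℝ) ^ 2 / (N : ℝ) ^ 2 := by
  have hlp : (0 : ℝ) < l := by exact_mod_cast H864.l_pos hl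
  have hNp : (0 : ℝ) < N := by exact_mod_cast NeZero.pos N
  rw [Sk_eq hl hτ, Matrix.add_apply, Matrix.smul_apply, smul_eq_mul, Gnc_entry hb hl hτ]
  have e1 : (1 - Pn : Matrix (V (N / l)) (V (N / l)) ℝ) x y = (l : ℝ) ^ 2 / (N : ℝ) ^ 2 := by
    have h1 : (Pn : Matrix (V (N / l)) (V (N / l)) ℝ) =
      1 - Matrix.of fun _ _ => 1 / (Fintype.card (V (N / l)) : ℝ) := rfl
    rw [h1, sub_sub_cancel, Matrix.of_apply, H963.cardV, H963.N_eq hl]
    field_simp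
  rw [e1]
  ring

/-- the step kernel is the cell average of the neutral kernel of the sites -/
theorem Sk_Gc (hl : l ∣ N) (hτ : 0 < τ) : Sk N l b τ = Gc l (Sn N b τ) := by
  have hlp : (0 : ℝ) < l := by exact_mod_cast H864.l_pos hl
  have hNp : (0 : ℝ) < N := by exact_mod_cast NeZero.pos N
  rw [Sk_eq hl hτ, H963.Gnc_self]
  have e0 : Gc l (Sn N b τ) = τ • Gc l (Gn N b τ) + Gc l (Jm N) := by
    unfold Sn Gc
    rw [Matrix.mul_add, Matrix.add_mul, Matrix.mul_smul, Matrix.smul_mul]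
  rw [e0, add_comm]
  congr 1
  ext x y
  have h1 : (Pn : Matrix (V (N / l)) (V (N / l)) ℝ) =
    1 - Matrix.of fun _ _ => 1 / (Fintype.card (V (N / l)) : ℝ) := rfl
  rw [h1, sub_sub_cancel, Matrix.of_apply, H963.cardV, H864.Gc_apply]
  unfold Jm
  simp only [Matrix.of_apply, Finset.sum_const, nsmul_eq_mul, card_cl hl]
  rw [H963.N_eq hl]
  field_simp

/-- nonnegative entries -/
theorem Sk_nonneg (hb : 0 ≤ b) (hl : l ∣ N) (hτ : 0 < τ) (x y : V (N / l)) :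
    0 ≤ Sk N l b τ x y := by
  rw [Sk_Gc hl hτ, H864.Gc_apply]
  refine mul_nonneg (by positivity) (Finset.sum_nonneg fun u _ => Finset.sum_nonneg fun v _ => ?_)
  exact H612.Sn_nonneg hb hτ u v

end one

lemma inv_rr_sq {b : ℝ} (hb : 0 ≤ b) {k : ℕ} (hk : 1 ≤ k) : (1 / rr b k) ^ 2 = 256 * (Lb b k + 1) := by
  have hL := Lb_pos hb hk
  unfold rr
  rw [one_div_one_div, mul_pow, Real.sq_sqrt (by linarith)]
  norm_num

/-- the sup bound of the step kernel -/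
theorem Sk_sup : ∃ K : ℝ, 0 < K ∧ ∀ {N l ξ : ℕ} [NeZero N] [NeZero (N / l)] {b τ c C ω : ℝ},
    OT N b τ ξ c C ω → l ∣ ξ → ξ ∣ N → ∀ x y : V (N / l),
    Sk N l b τ x y ≤ K * (((l : ℝ) / ξ) ^ 2 * (Lb b (ξ / l) + 1)) + (l : ℝ) ^ 2 / (N : ℝ) ^ 2 := by
  obtain ⟨K0, hK0, H0⟩ := C2_le 3
  refine ⟨1024 * K0 + 1, by positivity, ?_⟩
  intro N l ξ _ _ b τ c C ω h hl hξN x y
  have hb := h.hb
  have hτ := h.τ0
  have hξR := h.ξ0
  have hξ := h.hξ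
  have hl0 : 0 < l := Nat.pos_of_dvd_of_pos hl hξ
  have hlR : (0 : ℝ) < l := by exact_mod_cast hl0
  have hlN : l ∣ N := hl.trans hξN
  have hk : 1 ≤ ξ / l := Nat.div_pos (Nat.le_of_dvd hξ hl) hl0
  have hrr := rr_pos hb hk
  have hL := Lb_pos hb hk
  have h1 := H0 (em_nwt hb hτ 0) (ev_nwt hb τ 0) (ne N l x) (ne N l y) (rr b (ξ / l)) hrr
    (h.cellN hl hξN x) (h.cellN hl hξN y)
  rw [inv_rr_sq hb hk] at h1
  rw [Sk_entry hb hlN hτ]
  refine add_le_add ?_ le_rfl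
  have h2 : C2 (nwt N b τ 0) (ne N l x) (ne N l y) ≤ K0 * (256 * (Lb b (ξ / l) + 1)) :=
    (le_abs_self _).trans h1
  have h3 : τ * (l : ℝ) ^ 2 ≤ 4 * ((l : ℝ) / ξ) ^ 2 := by
    calc τ * (l : ℝ) ^ 2 ≤ 4 / (ξ : ℝ) ^ 2 * (l : ℝ) ^ 2 :=
          mul_le_mul_of_nonneg_right h.h2 (by positivity)
      _ = _ := by
        rw [div_pow]
        ring
  have h4 : 0 ≤ K0 * (256 * (Lb b (ξ / l) + 1)) := by positivity
  calc τ * (l : ℝ) ^ 2 * C2 (nwt N b τ 0) (ne N l x) (ne N l y)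
      ≤ τ * (l : ℝ) ^ 2 * (K0 * (256 * (Lb b (ξ / l) + 1))) :=
        mul_le_mul_of_nonneg_left h2 (by positivity)
    _ ≤ 4 * ((l : ℝ) / ξ) ^ 2 * (K0 * (256 * (Lb b (ξ / l) + 1))) :=
        mul_le_mul_of_nonneg_right h3 h4
    _ = 1024 * K0 * (((l : ℝ) / ξ) ^ 2 * (Lb b (ξ / l) + 1)) := by ring
    _ ≤ _ := by
      refine mul_le_mul_of_nonneg_right (by linarith) (by positivity)

/-- **two tori, near pairs; distant pairs** -/
theorem Sk_core (n : ℕ) (hn3 : 3 ≤ n) : ∃ K : ℝ, 0 < K ∧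
    ∀ {N M l ξ ρ r : ℕ} [NeZero N] [NeZero M] [NeZero (N / l)] [NeZero (M / l)]
      {b τ c C c8 C8 ω X E : ℝ},
    OT N b τ ξ c C ω → OT M b τ ξ c C ω → L8 N M b τ ξ c8 C8 →
    l ∣ ξ → ξ ∣ N → ξ ∣ M → 8 ≤ ρ → ξ + 1 ≤ r → cn (ρ * ξ) r ≤ N → cn (ρ * ξ) r ≤ M →
    Rs (wt N b τ) ((4 * τ) • chT N (ρ * ξ) r) ≤ 8 * X →
    Rs (wt M b τ) ((4 * τ) • chT M (ρ * ξ) r) ≤ 8 * X →
    0 < E → E ≤ 1 →
    2 * (eC N ξ l ρ X c C + eC M ξ l ρ X c C + 2 * e8 ξ l ρ r c8 C8 + 8 * ω ^ 2) ≤ E →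
    2 * (Real.exp (17 / 2) * (ξ / l) * (ξ / l) * (C * Real.exp (-(c * (ρ / 8))))) +
      16 * ω ^ 2 ≤ E →
    (∀ d ∈ Sc l (ρ * ξ) r, |Sk N l b τ (pt (N / l) (q0 l (ρ * ξ) r)) (pt (N / l) d) -
      Sk M l b τ (pt (M / l) (q0 l (ρ * ξ) r)) (pt (M / l) d)| ≤
      K * (((l : ℝ) / ξ) ^ 2 * (Lb b (ξ / l) + 1) * E ^ (1 - 2 / (n : ℝ)))) ∧
    (∀ c' : V (N / l), c' ∉ (Sc l (ρ * ξ) r).image (pt (N / l)) →
      Sk N l b τ (pt (N / l) (q0 l (ρ * ξ) r)) c' ≤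
      K * (((l : ℝ) / ξ) ^ 2 * (Lb b (ξ / l) + 1) * E ^ (1 - 2 / (n : ℝ)))) ∧
    (∀ c' : V (M / l), c' ∉ (Sc l (ρ * ξ) r).image (pt (M / l)) →
      Sk M l b τ (pt (M / l) (q0 l (ρ * ξ) r)) c' ≤
      K * (((l : ℝ) / ξ) ^ 2 * (Lb b (ξ / l) + 1) * E ^ (1 - 2 / (n : ℝ)))) := by
  obtain ⟨K1, hK1, H1⟩ := C2_pair_two 3 n hn3
  refine ⟨2048 * K1, by positivity, ?_⟩
  intro N M l ξ ρ r _ _ _ _ b τ c C c8 C8 ω X E hN hM h8 hl hξN hξM hρ hr hn hn' hX hX' hE0 hE1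
    hnear hfar
  have hb := hN.hb
  have hτ := hN.τ0
  have hξR := hN.ξ0
  have hξ := hN.hξ
  have hl0 : 0 < l := Nat.pos_of_dvd_of_pos hl hξ
  have hlR : (0 : ℝ) < l := by exact_mod_cast hl0
  have hlN : l ∣ N := hl.trans hξN
  have hlM : l ∣ M := hl.trans hξM
  have hk : 1 ≤ ξ / l := Nat.div_pos (Nat.le_of_dvd hξ hl) hl0
  have hrr := rr_pos hb hk
  have hL := Lb_pos hb hk
  have hR8 : 8 * l ≤ ρ * ξ := Nat.mul_le_mul hρ (Nat.le_of_dvd hξ hl)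
  set R := ρ * ξ with hRdef
  have hNp : (0 : ℝ) < N := by exact_mod_cast NeZero.pos N
  have hMp : (0 : ℝ) < M := by exact_mod_cast NeZero.pos M
  have hE' : 0 < E ^ (1 - 2 / (n : ℝ)) := Real.rpow_pos_of_pos hE0 _
  have hτl : τ * (l : ℝ) ^ 2 ≤ 4 * ((l : ℝ) / ξ) ^ 2 := by
    calc τ * (l : ℝ) ^ 2 ≤ 4 / (ξ : ℝ) ^ 2 * (l : ℝ) ^ 2 :=
          mul_le_mul_of_nonneg_right hN.h2 (by positivity)
      _ = _ := by
        rw [div_pow]
        ring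
  have hfin : ∀ z : ℝ, |z| ≤ K1 * (2 * (1 / rr b (ξ / l)) ^ 2 * E ^ (1 - 2 / (n : ℝ))) →
      |τ * (l : ℝ) ^ 2 * z| ≤
        2048 * K1 * (((l : ℝ) / ξ) ^ 2 * (Lb b (ξ / l) + 1) * E ^ (1 - 2 / (n : ℝ))) := by
    intro z hz
    rw [inv_rr_sq hb hk] at hz
    rw [abs_mul, abs_of_pos (by positivity : 0 < τ * (l : ℝ) ^ 2)]
    calc τ * (l : ℝ) ^ 2 * |z| ≤ 4 * ((l : ℝ) / ξ) ^ 2 *
          (K1 * (2 * (256 * (Lb b (ξ / l) + 1)) * E ^ (1 - 2 / (n : ℝ)))) :=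
          mul_le_mul hτl hz (abs_nonneg _) (by positivity)
      _ = _ := by ring
  -- far cells
  have hF : ∀ (N : ℕ) [NeZero N] [NeZero (N / l)], OT N b τ ξ c C ω → ξ ∣ N → cn R r ≤ N →
      ∀ c' : V (N / l), c' ∉ (Sc l R r).image (pt (N / l)) →
      Sk N l b τ (pt (N / l) (q0 l R r)) c' ≤
        2048 * K1 * (((l : ℝ) / ξ) ^ 2 * (Lb b (ξ / l) + 1) * E ^ (1 - 2 / (n : ℝ))) := by
    intro N _ _ hN hξN hn c' hc'
    have hNp : (0 : ℝ) < N := by exact_mod_cast NeZero.pos N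
    have hne : (pt (N / l) (q0 l R r) : V (N / l)) ≠ c' := by
      rintro rfl
      exact hc' (Finset.mem_image.2 ⟨_, q0_mem, rfl⟩)
    obtain ⟨h, hh0, hh1, hh2⟩ := opt2 hn3 hrr hE0 hE1 hfar
    have hz : ∀ r : ℝ, Lg (nwt N b τ 0) (r • (0 : V N → ℝ)) - Lg (nwt N b τ 0) 0 ≤ 3 := by
      intro r
      rw [smul_zero, sub_self]
      norm_num
    have h3 := H1 (em_nwt hb hτ 0) (ev_nwt hb τ 0) (em_nwt hb hτ 0) (ev_nwt hb τ 0)
      (ne N l (pt (N / l) (q0 l R r))) (ne N l c') (0 : V N → ℝ) (0 : V N → ℝ) (rr b (ξ / l)) h _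
      (-(2 / τ * ((N : ℝ) ^ 2)⁻¹)) hrr hh0 hh1
      (hN.cellN hl hξN _) (hN.cellN hl hξN _) (hz _) (hz _)
      (fun s hs => by
        rw [Q2_cells hb hτ (hl.trans hξN), if_neg hne]
        have e0 : Q2 (nwt N b τ 0) (0 : V N → ℝ) 0 s = 0 := by
          unfold Q2
          rw [add_zero, sub_zero, sub_self]
        rw [e0]
        have h4 := Pfar2 hN hl hξN (pt (N / l) (q0 l R r)) c' (s := s) (D := (ρ : ℝ) / 8) hs.1
          (hs.2.trans hh1) (by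
            have : (0 : ℝ) < ρ := by
              have : 0 < ρ := by omega
              exact_mod_cast this
            positivity) (by
            intro x z hx hz
            have h4 := far_cells hl0 (hl.trans hξN) hR8 hn hc' hx hz
            have h5 : ((ρ * ξ : ℕ) : ℝ) ≤ ((8 * sd x z : ℕ) : ℝ) := by exact_mod_cast h4
            push_cast at h5
            linarith)
        refine le_trans (le_of_eq ?_) h4
        congr 1
        ring)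
    have e0 : C2 (nwt N b τ 0) (0 : V N → ℝ) 0 = 0 := by
      unfold C2
      have : (fun h : V N → ℤ => li (0 : V N → ℝ) h * li (0 : V N → ℝ) h) = fun _ => (0 : ℝ) := by
        funext h
        unfold TM.H104.li
        simp
      rw [this, TM.H104.Ex_const (em_nwt hb hτ 0)]
    rw [e0, sub_zero] at h3
    have h5 := hfin _ (h3.trans (mul_le_mul_of_nonneg_left hh2 hK1.le))
    refine le_trans (le_of_eq ?_) ((le_abs_self _).trans h5)
    rw [Sk_entry hb (hl.trans hξN) hτ]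
    field_simp
    ring
  refine ⟨?_, hF N hN hξN hn, hF M hM hξM hn'⟩
  intro d hd
  have hdel : (pt (N / l) (q0 l R r) : V (N / l)) = pt (N / l) d ↔
      (pt (M / l) (q0 l R r) : V (M / l)) = pt (M / l) d := by
    constructor
    · intro h
      rw [pt_inj hl0 hlN hR8 hn q0_mem hd h]
    · intro h
      rw [pt_inj hl0 hlM hR8 hn' q0_mem hd h]
  obtain ⟨h, hh0, hh1, hh2⟩ := opt2 hn3 hrr hE0 hE1 hnear
  have h3 := H1 (em_nwt hb hτ 0) (ev_nwt hb τ 0) (em_nwt hb hτ 0) (ev_nwt hb τ 0)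
    (ne N l (pt (N / l) (q0 l R r))) (ne N l (pt (N / l) d))
    (ne M l (pt (M / l) (q0 l R r))) (ne M l (pt (M / l) d)) (rr b (ξ / l)) h _
    (2 / τ * (((M : ℝ) ^ 2)⁻¹ - ((N : ℝ) ^ 2)⁻¹)) hrr hh0 hh1
    (hN.cellN hl hξN _) (hN.cellN hl hξN _) (hM.cellN hl hξM _) (hM.cellN hl hξM _)
    (fun s hs => by
      rw [Q2_cells hb hτ hlN, Q2_cells hb hτ hlM]
      have h4 := near_P2 hN hM h8 hl hξN hξM (by omega) hr hn hn' hX hX'
        (nw_of_mem hl0 hR8 q0_mem) (nw_of_mem hl0 hR8 hd) (s := s) (by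
          rw [abs_of_nonneg hs.1]
          exact hs.2.trans hh1)
      refine le_trans (le_of_eq ?_) h4
      congr 1
      by_cases hc : (pt (N / l) (q0 l R r) : V (N / l)) = pt (N / l) d
      · rw [if_pos hc, if_pos (hdel.1 hc)]
        ring
      · rw [if_neg hc, if_neg fun h => hc (hdel.2 h)]
        ring)
  have h5 := hfin _ (h3.trans (mul_le_mul_of_nonneg_left hh2 hK1.le))
  refine le_trans (le_of_eq ?_) h5
  congr 1
  rw [Sk_entry hb hlN hτ, Sk_entry hb hlM hτ]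
  field_simp
  ring

end

end Vale.Agent.P159.H767
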