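import Vale.Agent.P159.H767.Nr15
import Vale.Agent.P159.H889.Vpc

/-!
P159, module NEAR (helper767), part 16: (P1) of the V step in helper889's letters: `pcB_ev` (the
exponent of the cells after `C0`) and `pcB` (his `PcB`).
-/

set_option linter.unusedSectionVars false

namespace Vale.Agent.P159.H767

open Finset Matrix
open Vale.Agent.P159.H972 (Par lg tn RNG Good FL)
open Vale.Agent.P159.H864 (yt)
open Vale.Agent.P159.H801 (Ev PS)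
open Vale.Agent.P159.H889 (Cx CxF BR Bq PcB)

noncomputable section

lemma lv_of_cx {P : Par} {b C1 c1 e y : ℝ} {n s : ℕ} (h : Cx P b C1 c1 n s e y) :
    Lv P C1 c1 n s e y :=
  ⟨h.e0, h.es, h.y0, h.y1, h.yL, h.s1, h.s2⟩

lemma tt_top {P : Par} {n r : ℕ} {e : ℝ} (h : P.TT n e r) : P.TT n e (H889.top P n e) := by
  unfold H972.Par.TT at *
  unfold H889.top
  omega

/-- **(P1), the exponent of the cells after `C0`** -/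
theorem pcB_ev {b1 : ℝ} (hb1 : 0 < b1) {b2 : ℝ} (hb2 : 0 < b2) :
    ∃ k0 c0 Cm : ℝ, 0 < k0 ∧ 0 < c0 ∧ 0 < Cm ∧ ∀ (K : ℝ) (Q : ℕ),
    Ev b1 b2 (9 / 10) Q fun P c1 => ∀ C1 : ℝ, 1 ≤ C1 → C1 ≤ K * P.C0 →
      ∀ (b a : ℝ) (n s : ℕ) (e y : ℝ), CxF P b a C1 c1 n s e y → ∀ r, P.TT n e r →
      ∀ [NeZero (2 ^ r / 2 ^ s)] [NeZero (2 ^ (H889.top P n e) / 2 ^ s)]
        (h : 2 ^ r / 2 ^ s ∣ 2 ^ (H889.top P n e) / 2 ^ s),
        BR b n s r (H889.top P n e) e a k0 c0 Cm h := by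
  obtain ⟨k0, c0, Cm, hk, hc, hC, H⟩ := br_evC hb1 hb2
  refine ⟨k0, c0, Cm, hk, hc, hC, fun K Q => (H K Q).mono ?_⟩
  intro P c1 _ hF C1 hC1 hC1K b a n s e y hX r hT _ _ h
  have ht : tn n ≤ 4 * tn n := by
    have := H972.tn_pos n
    linarith
  obtain ⟨g1, g2, g3, g4, g5, _⟩ := hF C1 hC1 hC1K b n s e y hX.cx.G (lv_of_cx hX.cx) hX.cx.vy
    (tn n) le_rfl ht r (H889.top P n e) hT (tt_top hT) h
  exact ⟨g1, g2, g3 a (tn n) hX.a1 hX.a2 le_rfl (hX.fl r hT), g4, g5⟩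

/-- **(P1)** -/
theorem pcB {b1 : ℝ} (hb1 : 0 < b1) {b2 : ℝ} (hb2 : 0 < b2) :
    ∃ k0 c0 Cm : ℝ, 0 < k0 ∧ 0 < c0 ∧ 0 < Cm ∧ ∀ (C1 : ℝ) (Q : ℕ), 1 ≤ C1 →
      PcB b1 b2 (9 / 10) Q C1 k0 c0 Cm := by
  obtain ⟨k0, c0, Cm, hk, hc, hC, H⟩ := br_ev hb1 hb2
  refine ⟨k0, c0, Cm, hk, hc, hC, fun C1 Q hC1 => (H C1 Q hC1).mono ?_⟩
  intro P c1 _ hF b a n s e y hX r hT _ _ h
  have ht : tn n ≤ 4 * tn n := by
    have := H972.tn_pos n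
    linarith
  obtain ⟨g1, g2, g3, g4, g5, _⟩ := hF b n s e y hX.cx.G (lv_of_cx hX.cx) hX.cx.vy
    (tn n) le_rfl ht r (H889.top P n e) hT (tt_top hT) h
  exact ⟨g1, g2, g3 a (tn n) hX.a1 hX.a2 le_rfl (hX.fl r hT), g4, g5⟩

end

end Vale.Agent.P159.H767
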