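import Vale.Agent.P159.H767.Nr3
import Vale.Agent.P159.H733.TorgG
import Vale.Agent.P159.H462.In3Sum

/-!
P159, module NEAR (helper767), part 4: the normalised averaged kernel `Sg` of the cells and the
form `A3 = τ l² (1 - Sg)`: exponential moments, `Dom`, distance to `acl`.
-/

set_option linter.unusedSectionVars false

namespace Vale.Agent.P159.H767

open Finset Matrix
open Vale.Agent.P159.TM.H104 (EM Lg li Gr Ex Cv)
open Vale.Agent.P159.H37
open Vale.Agent.P159.H145 (OscZ mt)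
open Vale.Agent.P159.TM.H764 (EE cN sN dt)
open Vale.Agent.P159.TM.Spec (V)
open Vale.Agent.P159.TM.SpecC (Tor wT)
open Vale.Agent.P159.TM.H459 (sn sd)
open Vale.Agent.P159.H864 (cl cl1 cl1_val TI sym cobV Gc)
open Vale.Agent.P159.H363 (acl ti_acl)
open Vale.Agent.P159.H612 (Sn Jm GA ti_GA GA_nonneg ti_Jm)
open Vale.Agent.P159.H462 (Dom)
open Vale.Agent.P159.H733.Torg (av av_le_of_cast sn_eq prj prj_apply ip pz ti_pz Near Stb ti_step
  sn_prj sym_step step_row step_nonneg)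
open Vale.Agent.P159.H640

noncomputable section

section cellav

variable {N l : ℕ} [NeZero N] [NeZero (N / l)] {b τ : ℝ}

/-- sums over the cells -/
lemma sum_Gc (A : Matrix (V N) (V N) ℝ) (f : V (N / l) → ℝ) (x : V (N / l)) :
    ∑ y, Gc l A x y * f y = ((l : ℝ) ^ 2)⁻¹ * ∑ u ∈ univ.filter (fun u : V N => cl u = x),
      ∑ v, A u v * f (cl v) := by
  simp only [H864.Gc_apply]
  have e1 : ∀ y : V (N / l), (((l : ℝ) ^ 2)⁻¹ * ∑ u ∈ univ.filter (fun u : V N => cl u = x),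
      ∑ v ∈ univ.filter (fun v : V N => cl v = y), A u v) * f y =
      ((l : ℝ) ^ 2)⁻¹ * ∑ u ∈ univ.filter (fun u : V N => cl u = x),
      ∑ v ∈ univ.filter (fun v : V N => cl v = y), A u v * f (cl v) := by
    intro y
    rw [mul_assoc, Finset.sum_mul]
    congr 1
    refine Finset.sum_congr rfl fun u _ => ?_
    rw [Finset.sum_mul]
    refine Finset.sum_congr rfl fun v hv => ?_
    rw [(Finset.mem_filter.1 hv).2]
  simp only [e1]
  rw [← Finset.mul_sum, Finset.sum_comm]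
  congr 1
  refine Finset.sum_congr rfl fun u _ => ?_
  rw [Finset.sum_fiberwise]

/-- row sums of a cell average -/
lemma row_Gc (hl : l ∣ N) {A : Matrix (V N) (V N) ℝ} (hA : TI A) (x : V (N / l)) :
    ∑ y, Gc l A x y = ∑ z, A 0 z := by
  have hlp : (0 : ℝ) < l := by exact_mod_cast H864.l_pos hl
  have h1 := sum_Gc A (fun _ => 1) x
  simp only [mul_one] at h1
  rw [h1]
  have h2 : ∀ u : V N, ∑ v, A u v = ∑ z, A 0 z := by
    intro u
    rw [← Equiv.sum_comp (Equiv.subRight u) fun z => A 0 z]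
    refine Finset.sum_congr rfl fun v _ => ?_
    rw [hA.eq u v]
    rfl
  simp only [h2]
  rw [Finset.sum_const, nsmul_eq_mul, card_cl hl]
  field_simp

lemma cl_av (hl : l ∣ N) {u v : ZMod N} (hu : u.val < l) :
    l * av (cl1 v : ZMod (N / l)) ≤ av (v - u) + l := by
  have hl0 : 0 < l := H864.l_pos hl
  set y : ℤ := (v - u).valMinAbs with hy
  have h1 : ((y : ℤ) : ZMod N) = v - u := ZMod.coe_valMinAbs _
  have h2 : (((v.val : ℤ) - (u.val : ℤ) : ℤ) : ZMod N) = v - u := by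
    rw [Int.cast_sub, Int.cast_natCast, Int.cast_natCast, ZMod.natCast_zmod_val,
      ZMod.natCast_zmod_val]
  have h3 : (N : ℤ) ∣ y - ((v.val : ℤ) - (u.val : ℤ)) := by
    have : (((v.val : ℤ) - (u.val : ℤ) : ℤ) : ZMod N) = ((y : ℤ) : ZMod N) := h2.trans h1.symm
    exact (ZMod.intCast_eq_intCast_iff_dvd_sub _ _ _).1 this
  obtain ⟨k, hk⟩ := h3
  have hNl : (N : ℤ) = l * ((N / l : ℕ) : ℤ) := by
    exact_mod_cast (Nat.mul_div_cancel' hl).symm
  -- the representative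
  have h4 : av (cl1 v : ZMod (N / l)) ≤ (((v.val / l : ℕ) : ℤ) + ((N / l : ℕ) : ℤ) * k).natAbs := by
    refine av_le_of_cast ?_
    unfold cl1
    rw [Int.cast_add, Int.cast_mul, Int.cast_natCast, Int.cast_natCast, ZMod.natCast_self,
      zero_mul, add_zero]
  have h5 := Nat.div_add_mod v.val l
  have h6 := Nat.mod_lt v.val hl0
  have h7 : (l : ℤ) * (((v.val / l : ℕ) : ℤ) + ((N / l : ℕ) : ℤ) * k) =
      y + ((u.val : ℤ) - ((v.val % l : ℕ) : ℤ)) := by
    have e1 : (l : ℤ) * ((v.val / l : ℕ) : ℤ) = (v.val : ℤ) - ((v.val % l : ℕ) : ℤ) := by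
      have : ((l * (v.val / l) + v.val % l : ℕ) : ℤ) = (v.val : ℤ) := by exact_mod_cast h5
      push_cast at this
      push_cast
      linarith
    rw [mul_add, e1, ← mul_assoc, ← hNl, ← hk]
    ring
  have h8 : l * (((v.val / l : ℕ) : ℤ) + ((N / l : ℕ) : ℤ) * k).natAbs =
      (y + ((u.val : ℤ) - ((v.val % l : ℕ) : ℤ))).natAbs := by
    rw [← h7, Int.natAbs_mul, Int.natAbs_natCast]
  have h9 : (y + ((u.val : ℤ) - ((v.val % l : ℕ) : ℤ))).natAbs ≤ y.natAbs + l := by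
    have h10 : ((u.val : ℤ) - ((v.val % l : ℕ) : ℤ)).natAbs ≤ l := by
      set a := u.val
      set c := v.val % l
      omega
    exact (Int.natAbs_add_le _ _).trans (by omega)
  have h10 : av (v - u) = y.natAbs := rfl
  calc l * av (cl1 v : ZMod (N / l)) ≤ l * (((v.val / l : ℕ) : ℤ) + ((N / l : ℕ) : ℤ) * k).natAbs :=
        Nat.mul_le_mul_left _ h4
    _ = (y + ((u.val : ℤ) - ((v.val % l : ℕ) : ℤ))).natAbs := h8
    _ ≤ _ := h9

lemma sn_cl (hl : l ∣ N) {u v : V N} (hu : (cl u : V (N / l)) = 0) :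
    l * sn (cl v : V (N / l)) ≤ sn (v - u) + l := by
  have hl0 : 0 < l := H864.l_pos hl
  have key : ∀ z : ZMod N, (cl1 z : ZMod (N / l)) = 0 → z.val < l := by
    intro z hz
    have h1 := cl1_val hl z
    rw [hz, ZMod.val_zero] at h1
    exact (Nat.div_eq_zero_iff_lt hl0).1 h1.symm
  have hu1 : (cl1 u.1 : ZMod (N / l)) = 0 := congrArg Prod.fst hu
  have hu2 : (cl1 u.2 : ZMod (N / l)) = 0 := congrArg Prod.snd hu
  have k1 := cl_av hl (v := v.1) (key _ hu1)
  have k2 := cl_av hl (v := v.2) (key _ hu2)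
  rw [sn_eq, sn_eq]
  have e1 : (cl v : V (N / l)).1 = cl1 v.1 := rfl
  have e2 : (cl v : V (N / l)).2 = cl1 v.2 := rfl
  rw [e1, e2, Prod.fst_sub, Prod.snd_sub]
  rcases le_total (av (cl1 v.1 : ZMod (N / l))) (av (cl1 v.2 : ZMod (N / l))) with h | h
  · rw [max_eq_right h]
    exact k2.trans (Nat.add_le_add_right (le_max_right _ _) _)
  · rw [max_eq_left h]
    exact k1.trans (Nat.add_le_add_right (le_max_left _ _) _)

end cellav

section avk

variable {N l : ℕ} [NeZero N] [NeZero (N / l)] {b τ : ℝ}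

/-- the mass of the averaged kernel -/
def s0 (N : ℕ) [NeZero N] (b τ : ℝ) : ℝ := τ * ∑ z, GA N b τ 0 z

/-- the normalised averaged kernel of the cells -/
def Sg (N l : ℕ) [NeZero N] [NeZero (N / l)] (b τ : ℝ) : Matrix (V (N / l)) (V (N / l)) ℝ :=
  (τ / s0 N b τ) • Gc l (GA N b τ)

/-- the constant kernel of the cells -/
def Jc (N l : ℕ) [NeZero N] [NeZero (N / l)] : Matrix (V (N / l)) (V (N / l)) ℝ :=
  Matrix.of fun _ _ => (l : ℝ) ^ 2 / (N : ℝ) ^ 2

/-- the form of the normalised averaged kernel -/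
def A3 (N l : ℕ) [NeZero N] [NeZero (N / l)] (b τ : ℝ) : Matrix (V (N / l)) (V (N / l)) ℝ :=
  (τ * (l : ℝ) ^ 2) • (1 - Sg N l b τ)

lemma ti_Sg (hb : 0 ≤ b) (hl : l ∣ N) (hτ : 0 < τ) : TI (Sg N l b τ) :=
  (H864.ti_Gc hl (ti_GA hb hτ).ct).smul _

lemma ti_A3 (hb : 0 ≤ b) (hl : l ∣ N) (hτ : 0 < τ) : TI (A3 N l b τ) :=
  (TI.one.sub (ti_Sg hb hl hτ)).smul _

lemma step_A3 (hl : l ∣ N) (hτ : 0 < τ) :
    (1 : Matrix (V (N / l)) (V (N / l)) ℝ) - (τ * (l : ℝ) ^ 2)⁻¹ • A3 N l b τ = Sg N l b τ := by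
  have hlp : (0 : ℝ) < l := by exact_mod_cast H864.l_pos hl
  unfold A3
  rw [smul_smul, inv_mul_cancel₀ (by positivity), one_smul, sub_sub_cancel]

lemma Sg_nonneg (hb : 0 ≤ b) (hτ : 0 < τ) (hs : 0 ≤ s0 N b τ) (x y : V (N / l)) :
    0 ≤ Sg N l b τ x y := by
  unfold Sg
  rw [Matrix.smul_apply, smul_eq_mul, H864.Gc_apply]
  refine mul_nonneg (by positivity) (mul_nonneg (by positivity) ?_)
  exact Finset.sum_nonneg fun u _ => Finset.sum_nonneg fun v _ => GA_nonneg hb hτ u v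

lemma Sg_row (hb : 0 ≤ b) (hl : l ∣ N) (hτ : 0 < τ) (hs : 0 < s0 N b τ) (x : V (N / l)) :
    ∑ y, Sg N l b τ x y = 1 := by
  unfold Sg
  simp only [Matrix.smul_apply, smul_eq_mul]
  rw [← Finset.mul_sum, row_Gc hl (ti_GA hb hτ), div_mul_eq_mul_div]
  exact div_self hs.ne'

/-- **the step kernel is the averaged kernel plus a small constant** -/
theorem Sk_split (hb : 0 ≤ b) (hl : l ∣ N) (hτ : 0 < τ) (hs : 0 < s0 N b τ) :
    Sk N l b τ = s0 N b τ • Sg N l b τ + (1 - s0 N b τ) • Jc N l := by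
  have hlp : (0 : ℝ) < l := by exact_mod_cast H864.l_pos hl
  have hNp : (0 : ℝ) < N := by exact_mod_cast NeZero.pos N
  rw [Sk_Gc hl hτ, H612.Sn_eq hb hτ]
  have e0 : Gc l (τ • GA N b τ + (1 - τ * ∑ z, GA N b τ 0 z) • Jm N) =
      τ • Gc l (GA N b τ) + (1 - s0 N b τ) • Gc l (Jm N) := by
    unfold Gc s0
    rw [Matrix.mul_add, Matrix.add_mul, Matrix.mul_smul, Matrix.smul_mul, Matrix.mul_smul,
      Matrix.smul_mul]
  have e1 : Gc l (Jm N) = Jc N l := by
    ext x y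
    rw [H864.Gc_apply]
    unfold Jm Jc
    simp only [Matrix.of_apply, Finset.sum_const, nsmul_eq_mul, card_cl hl]
    field_simp
  rw [e0, e1]
  unfold Sg
  rw [smul_smul, mul_div_cancel₀ _ hs.ne']

lemma Jc_row (hl : l ∣ N) (x : V (N / l)) : ∑ y, Jc N l x y = 1 := by
  have hlp : (0 : ℝ) < l := by exact_mod_cast H864.l_pos hl
  have hn : (0 : ℝ) < ((N / l : ℕ) : ℝ) := by exact_mod_cast NeZero.pos (N / l)
  unfold Jc
  simp only [Matrix.of_apply, Finset.sum_const, Finset.card_univ, nsmul_eq_mul]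
  rw [H963.cardV, H963.N_eq hl]
  field_simp

lemma sym_Jc (hl : l ∣ N) {k : V (N / l)} (hk : k ≠ 0) : sym (Jc N l) k = 0 := by
  rw [H864.sym_def]
  unfold Jc
  simp only [Matrix.of_apply]
  rw [← Finset.mul_sum, H864.sum_cN, if_neg hk, mul_zero]

/-- pointwise distance of the two kernels -/
lemma Sk_sub_Sg (hb : 0 ≤ b) (hl : l ∣ N) (hτ : 0 < τ) (hs : 0 < s0 N b τ) (hs1 : s0 N b τ ≤ 1)
    (x y : V (N / l)) : |Sk N l b τ x y - Sg N l b τ x y| ≤
      (1 - s0 N b τ) * (Sg N l b τ x y + Jc N l x y) := by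
  have h1 := Sg_nonneg (l := l) hb hτ hs.le x y
  have h2 : 0 ≤ Jc N l x y := by
    unfold Jc
    rw [Matrix.of_apply]
    positivity
  have e : Sk N l b τ x y - Sg N l b τ x y =
      (1 - s0 N b τ) * (Jc N l x y - Sg N l b τ x y) := by
    rw [Sk_split hb hl hτ hs, Matrix.add_apply, Matrix.smul_apply, Matrix.smul_apply, smul_eq_mul,
      smul_eq_mul]
    ring
  rw [e, abs_mul, abs_of_nonneg (by linarith : 0 ≤ 1 - s0 N b τ)]
  refine mul_le_mul_of_nonneg_left ?_ (by linarith)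
  rw [abs_le]
  constructor <;> linarith

/-- the averaged kernel is at most twice the step kernel -/
lemma Sg_le (hb : 0 ≤ b) (hl : l ∣ N) (hτ : 0 < τ) (hs : 1 / 2 ≤ s0 N b τ) (hs1 : s0 N b τ ≤ 1)
    (x y : V (N / l)) : Sg N l b τ x y ≤ 2 * Sk N l b τ x y := by
  have hs0 : 0 < s0 N b τ := by linarith
  have h1 := Sg_nonneg (l := l) hb hτ hs0.le x y
  have h2 : 0 ≤ Jc N l x y := by
    unfold Jc
    rw [Matrix.of_apply]
    positivity
  rw [Sk_split hb hl hτ hs0, Matrix.add_apply, Matrix.smul_apply, Matrix.smul_apply, smul_eq_mul,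
    smul_eq_mul]
  nlinarith

/-- **the exponential moment** -/
theorem Sg_mom (hb : 0 ≤ b) (hl : l ∣ N) (hτ : 0 < τ) (hs : 1 / 2 ≤ s0 N b τ) {ξ : ℕ} (hξ : 0 < ξ)
    (hlξ : l ≤ ξ) {c C : ℝ} (hc : 0 < c)
    (hC : τ * ∑ z, GA N b τ 0 z * Real.exp (c * sn z / ξ) ≤ C) :
    ∑ z, Sg N l b τ 0 z * Real.exp (c * l / ξ * sn z) ≤ 2 * Real.exp c * C := by
  have hlp : (0 : ℝ) < l := by exact_mod_cast H864.l_pos hl
  have hξp : (0 : ℝ) < ξ := by exact_mod_cast hξ
  have hs0 : 0 < s0 N b τ := by linarith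
  unfold Sg
  simp only [Matrix.smul_apply, smul_eq_mul, mul_assoc]
  rw [← Finset.mul_sum]
  simp only [← mul_assoc]
  rw [sum_Gc (GA N b τ) (fun z => Real.exp (c * l / ξ * sn z)) 0]
  have key : ∀ u : V N, (cl u : V (N / l)) = 0 →
      ∑ v, GA N b τ u v * Real.exp (c * l / ξ * sn (cl v : V (N / l))) ≤
        Real.exp c * ∑ z, GA N b τ 0 z * Real.exp (c * sn z / ξ) := by
    intro u hu
    rw [Finset.mul_sum, ← Equiv.sum_comp (Equiv.subRight u)
      fun z => Real.exp c * (GA N b τ 0 z * Real.exp (c * sn z / ξ))]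
    refine Finset.sum_le_sum fun v _ => ?_
    have e1 : (Equiv.subRight u) v = v - u := rfl
    rw [e1, (ti_GA hb hτ).eq u v]
    have h1 := sn_cl hl (v := v) hu
    have h2 : (l : ℝ) * sn (cl v : V (N / l)) ≤ sn (v - u) + l := by exact_mod_cast h1
    have h3 : c * l / ξ * sn (cl v : V (N / l)) ≤ c + c * sn (v - u) / ξ := by
      have h4 : c * l / ξ * sn (cl v : V (N / l)) = c / ξ * (l * sn (cl v : V (N / l))) := by ring
      rw [h4]
      have h5 : c / ξ * (l * (sn (cl v : V (N / l)) : ℝ)) ≤ c / ξ * (sn (v - u) + l) :=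
        mul_le_mul_of_nonneg_left h2 (by positivity)
      have h6 : c / ξ * (l : ℝ) ≤ c := by
        rw [div_mul_eq_mul_div, div_le_iff₀ hξp]
        exact mul_le_mul_of_nonneg_left (by exact_mod_cast hlξ) hc.le
      have h7 : c / ξ * ((sn (v - u) : ℝ) + l) = c / ξ * l + c * sn (v - u) / ξ := by ring
      linarith
    have h4 := Real.exp_le_exp.2 h3
    rw [Real.exp_add] at h4
    calc GA N b τ 0 (v - u) * Real.exp (c * l / ξ * sn (cl v : V (N / l)))
        ≤ GA N b τ 0 (v - u) * (Real.exp c * Real.exp (c * sn (v - u) / ξ)) :=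
          mul_le_mul_of_nonneg_left h4 (GA_nonneg hb hτ _ _)
      _ = _ := by ring
  have h1 : ∑ u ∈ univ.filter (fun u : V N => (cl u : V (N / l)) = 0),
      ∑ v, GA N b τ u v * Real.exp (c * l / ξ * sn (cl v : V (N / l))) ≤
      (l : ℝ) ^ 2 * (Real.exp c * ∑ z, GA N b τ 0 z * Real.exp (c * sn z / ξ)) := by
    refine (Finset.sum_le_sum fun u hu => key u (Finset.mem_filter.1 hu).2).trans (le_of_eq ?_)
    rw [Finset.sum_const, nsmul_eq_mul, card_cl hl]
  have h2 : 0 ≤ ∑ z, GA N b τ 0 z * Real.exp (c * sn z / ξ) :=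
    Finset.sum_nonneg fun z _ => mul_nonneg (GA_nonneg hb hτ _ _) (Real.exp_pos _).le
  have hC0 : 0 ≤ C := le_trans (by positivity) hC
  calc τ / s0 N b τ * (((l : ℝ) ^ 2)⁻¹ * ∑ u ∈ univ.filter (fun u : V N => (cl u : V (N / l)) = 0),
        ∑ v, GA N b τ u v * Real.exp (c * l / ξ * sn (cl v : V (N / l))))
      ≤ τ / s0 N b τ * (((l : ℝ) ^ 2)⁻¹ * ((l : ℝ) ^ 2 *
        (Real.exp c * ∑ z, GA N b τ 0 z * Real.exp (c * sn z / ξ)))) := by
        refine mul_le_mul_of_nonneg_left (mul_le_mul_of_nonneg_left h1 (by positivity))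
          (by positivity)
    _ = Real.exp c * (τ * ∑ z, GA N b τ 0 z * Real.exp (c * sn z / ξ)) / s0 N b τ := by
        field_simp
    _ ≤ Real.exp c * C / s0 N b τ := by
        refine div_le_div_of_nonneg_right (mul_le_mul_of_nonneg_left hC (Real.exp_pos _).le) hs0.le
    _ ≤ Real.exp c * C / (1 / 2) :=
        div_le_div_of_nonneg_left (by positivity) (by norm_num) hs
    _ = _ := by ring

/-- **`Dom` for the averaged form** -/
theorem dom_A3 (hb : 0 ≤ b) (hl : l ∣ N) (hτ : 0 < τ) {c : ℝ}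
    (hD : Dom (acl N l b τ τ) (τ * (l : ℝ) ^ 2) c) (hs1 : s0 N b τ ≤ 1) (h4 : 3 / 4 ≤ s0 N b τ)
    (hω : 4 * (1 - s0 N b τ) * (τ * (N : ℝ) ^ 2) ≤ 16 * c) :
    Dom (A3 N l b τ) (τ * (l : ℝ) ^ 2) (c / 2) := by
  have hlp : (0 : ℝ) < l := by exact_mod_cast H864.l_pos hl
  have hn : (0 : ℝ) < ((N / l : ℕ) : ℝ) := by exact_mod_cast NeZero.pos (N / l)
  have hs0 : 0 < s0 N b τ := by linarith
  have hν := hD.hν
  have hc := hD.hc
  set ν : ℝ := τ * (l : ℝ) ^ 2 with hνd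
  have hS : Sk N l b τ = 1 - ν⁻¹ • acl N l b τ τ := rfl
  -- symbols
  have e1 : ∀ k, sym (A3 N l b τ) k = ν * (1 - sym (Sg N l b τ) k) := by
    intro k
    unfold A3
    rw [H864.sym_smul, H864.sym_sub, H864.sym_one]
  have e2 : ∀ k, sym (Sk N l b τ) k = 1 - ν⁻¹ * sym (acl N l b τ τ) k := by
    intro k
    rw [hS, H864.sym_sub, H864.sym_smul, H864.sym_one]
  have e3 : ∀ k, k ≠ 0 → sym (Sk N l b τ) k = s0 N b τ * sym (Sg N l b τ) k := by
    intro k hk
    rw [Sk_split hb hl hτ hs0, H864.sym_add, H864.sym_smul, H864.sym_smul, sym_Jc hl hk, mul_zero,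
      add_zero]
  have e4 : sym (Sg N l b τ) 0 = 1 := by
    rw [H612.sym_zero_arg]
    exact Sg_row hb hl hτ hs0 0
  -- the value for `k ≠ 0`
  have e5 : ∀ k, k ≠ 0 → sym (A3 N l b τ) k =
      (sym (acl N l b τ τ) k - ν * (1 - s0 N b τ)) / s0 N b τ := by
    intro k hk
    have h1 := e3 k hk
    rw [e2] at h1
    have h2 : sym (Sg N l b τ) k = (1 - ν⁻¹ * sym (acl N l b τ τ) k) / s0 N b τ := by
      rw [eq_div_iff hs0.ne']
      linarith
    rw [e1, h2]
    field_simp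
    ring
  -- the gap
  have hgap : ∀ k : V (N / l), k ≠ 0 → 4 * (1 - s0 N b τ) * ν ≤ c * EE k := by
    intro k hk
    have h1 := H462.EE_gap hk
    have h2 : c * (16 / ((N / l : ℕ) : ℝ) ^ 2) ≤ c * EE k := mul_le_mul_of_nonneg_left h1 hc.le
    refine le_trans ?_ h2
    rw [mul_div_assoc', le_div_iff₀ (by positivity)]
    have h3 : 4 * (1 - s0 N b τ) * ν * ((N / l : ℕ) : ℝ) ^ 2 =
        4 * (1 - s0 N b τ) * (τ * (N : ℝ) ^ 2) := by
      rw [H963.N_eq hl, hνd]
      ring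
    rw [h3]
    linarith
  have hlow : ∀ k : V (N / l), k ≠ 0 →
      ν * (c / 2 * EE k) / (ν + c / 2 * EE k) ≤ sym (A3 N l b τ) k := by
    intro k hk
    have h1 := hD.ge k
    have h2 := hgap k hk
    have hE : 0 < EE k := H462.EE_pos hk
    rw [e5 k hk, le_div_iff₀ hs0]
    have h3 : ν * (c * EE k) / (ν + c * EE k) - ν * (1 - s0 N b τ) ≤
        sym (acl N l b τ τ) k - ν * (1 - s0 N b τ) := by linarith
    refine le_trans ?_ h3
    set D : ℝ := 1 - s0 N b τ with hDd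
    have hD0 : 0 ≤ D := by linarith
    have hD1 : D ≤ 1 / 4 := by linarith
    have es : s0 N b τ = 1 - D := by rw [hDd]; ring
    rw [es]
    set y : ℝ := c * EE k with hy
    have hy0 : 0 < y := by positivity
    have ey : c / 2 * EE k = y / 2 := by rw [hy]; ring
    rw [ey]
    have h5 : ν * y / (ν + y) - ν * D - ν * (y / 2) / (ν + y / 2) * (1 - D) =
        ν * (ν * y - 2 * D * ν * (ν + y)) / ((ν + y) * (2 * ν + y)) := by
      field_simp
      ring
    have h6 : 0 ≤ ν * (ν * y - 2 * D * ν * (ν + y)) / ((ν + y) * (2 * ν + y)) := by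
      refine div_nonneg (mul_nonneg hν.le ?_) (by positivity)
      have h7 : 2 * D * ν ≤ y / 2 := by linarith
      have h8 : 2 * D * y ≤ y / 2 := by nlinarith
      nlinarith
    linarith
  refine ⟨ti_A3 hb hl hτ, hν, by positivity, fun k => ?_, fun k => ?_, ?_, fun k => ?_⟩
  · by_cases hk : k = 0
    · rw [hk, e1, e4, sub_self, mul_zero]
    · refine le_trans ?_ (hlow k hk)
      have hE : 0 < EE k := H462.EE_pos hk
      positivity
  · by_cases hk : k = 0
    · rw [hk, e1, e4, sub_self, mul_zero]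
      exact hν.le
    · rw [e1]
      have h1 : 0 ≤ sym (Sg N l b τ) k := by
        have h2 := e3 k hk
        rw [e2] at h2
        have h3 := hD.le k
        have h4 : ν⁻¹ * sym (acl N l b τ τ) k ≤ 1 := by
          rw [inv_mul_le_iff₀ hν, mul_one]
          exact h3
        have h5 : 0 ≤ s0 N b τ * sym (Sg N l b τ) k := by linarith
        exact nonneg_of_mul_nonneg_right h5 hs0
      nlinarith
  · rw [e1, e4, sub_self, mul_zero]
  · by_cases hk : k = 0
    · rw [hk, TM.H764.EE_zero, mul_zero, mul_zero, zero_div, e1, e4, sub_self, mul_zero]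
    · exact hlow k hk

end avk

end

end Vale.Agent.P159.H767
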