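import Vale.Agent.P159.H767.Pt1f
import Vale.Agent.P159.H197.Pf1

/-!
P159 (helper767), START, part 1 of V: the last window and the theorem `part1`.
-/

set_option linter.unusedSectionVars false

namespace Vale.Agent.P159.H767.Pt

open Filter Topology
open Vale.Agent.P159.TM.Spec (V)
open Vale.Agent.P159.H864 (yt yt_nonneg)
open Vale.Agent.P159.H972 (Par Good YBn lg tn)
open Vale.Agent.P159.H889 (Cx Cw SV TV VB lam nu Dc QP Mw hS CH2 lam_pos nu_pos SB)
open Vale.Agent.P159.H801 (Ev PS)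
open Vale.Agent.P159.H640 (sm_rpow)
open Vale.Agent.P159.H197 (F1)
open Vale.Agent.P159.H316

noncomputable section

variable {P : Par} {b : ℝ} {a : ℕ → ℝ} {C1 c1 A1 κ d : ℝ} {N0 n : ℕ} {e : ℝ}

/-- **the data of the last window** (helper197) -/
theorem Dt.last (D : Dt P b a C1 c1 A1 κ d N0 n e) :
    ∃ (s m s0 : ℕ) (y : ℝ) (z : ℂ) (Δ E : ℝ), n ≤ m ∧ F1 P b C1 c1 A1 n s m s0 e y z Δ E := by
  have he := D.nn.he
  have he1 := D.nn.e1
  have hbig := D.nn.big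
  have hd0 := D.nn.d0
  have htau := D.nn.tau
  have hte := D.nn.tau_eq
  have hth0 := P.thp0
  have hy0 := D.y00
  have hL := LL1 P e
  have hi := D.nn.ints
  obtain ⟨ζ, hζ, hS⟩ := D.two
  have hlo := D.low hζ hS
  obtain ⟨z, h1, h2, h3⟩ := D.iter hζ hlo hS 17 le_rfl
  have h17 : (7 : ℝ) * ((17 : ℕ) : ℝ) * d = 119 * d := by
    push_cast
    ring
  rw [h17] at h1 h2
  have a1 : e ^ (P.thp / 120) * y0 P b n e ≤ ‖z‖ := by
    refine le_trans ?_ h1
    calc e ^ (P.thp / 120) * y0 P b n e ≤ e ^ (119 * d + P.thp / 137) * y0 P b n e :=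
          mul_le_mul_of_nonneg_right (xm he he1 (by linarith)) hy0.le
      _ = e ^ (119 * d) * (e ^ (P.thp / 137) * y0 P b n e) := by
          rw [← xa he rfl]
          ring
      _ ≤ _ := mul_le_mul_of_nonneg_left hlo (xp he _).le
  have a2 : ‖z‖ ≤ e ^ (-(P.thp / 5)) * y0 P b n e := by
    refine h2.trans ?_
    calc e ^ (-(119 * d)) * ‖ζ‖ ≤ e ^ (-(119 * d)) * (e ^ (-(P.thp / 10)) * y0 P b n e) :=
          mul_le_mul_of_nonneg_left hζ (xp he _).le
      _ = e ^ (-(119 * d) + -(P.thp / 10)) * y0 P b n e := by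
          rw [← xa he rfl]
          ring
      _ ≤ _ := mul_le_mul_of_nonneg_right (xm he he1 (by linarith)) hy0.le
  obtain ⟨z', h4, h5, h6⟩ := D.win (j := 2 + 17) (by norm_num) a1 a2
    (p := P.thp / 100 + ((17 : ℕ) : ℝ) * (P.thp / 30)) (by
      push_cast
      linarith) (by
      push_cast
      linarith) le_rfl h3
  -- the sizes of the last activity
  have lo : e ^ (126 * d) * ‖ζ‖ ≤ ‖z'‖ := by
    refine le_trans ?_ h4
    rw [show 126 * d = 7 * d + 119 * d by ring, ← xa he rfl, mul_assoc]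
    exact mul_le_mul_of_nonneg_left h1 (xp he _).le
  have hi' : ‖z'‖ ≤ e ^ (-(126 * d)) * ‖ζ‖ := by
    refine h5.trans ?_
    rw [show -(126 * d) = -(7 * d) + -(119 * d) by ring, ← xa he rfl, mul_assoc]
    exact mul_le_mul_of_nonneg_left h2 (xp he _).le
  have hz0 : 0 < ‖z'‖ := by
    refine lt_of_lt_of_le ?_ lo
    exact mul_pos (xp he _) (lt_of_lt_of_le (mul_pos (xp he _) hy0) hlo)
  have lo2 : e ^ (P.thp / 130) * y0 P b n e ≤ ‖z'‖ := by
    refine le_trans ?_ lo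
    calc e ^ (P.thp / 130) * y0 P b n e ≤ e ^ (126 * d + P.thp / 137) * y0 P b n e :=
          mul_le_mul_of_nonneg_right (xm he he1 (by linarith)) hy0.le
      _ = e ^ (126 * d) * (e ^ (P.thp / 137) * y0 P b n e) := by
          rw [← xa he rfl]
          ring
      _ ≤ _ := mul_le_mul_of_nonneg_left hlo (xp he _).le
  have hi2 : ‖z'‖ ≤ e ^ (-(P.thp / 5)) * y0 P b n e := by
    refine hi'.trans ?_
    calc e ^ (-(126 * d)) * ‖ζ‖ ≤ e ^ (-(126 * d)) * (e ^ (-(P.thp / 10)) * y0 P b n e) :=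
          mul_le_mul_of_nonneg_left hζ (xp he _).le
      _ = e ^ (-(126 * d) + -(P.thp / 10)) * y0 P b n e := by
          rw [← xa he rfl]
          ring
      _ ≤ _ := mul_le_mul_of_nonneg_right (xm he he1 (by linarith)) hy0.le
  have hyz : y0 P b n e ≤ e ^ (-(P.thp / 130)) * ‖z'‖ := by
    have h7 := mul_le_mul_of_nonneg_left lo2 (xp he (-(P.thp / 130))).le
    rwa [← mul_assoc, xa he (show -(P.thp / 130) + P.thp / 130 = 0 by ring), Real.rpow_zero,
      one_mul] at h7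
  -- the base number
  have hbase : y0 P b (n + (2 + 17 + 1) * LL P e) e ≤ e ^ (-(P.thp / 200)) * ‖z'‖ := by
    have h7 := D.base hS (m := n + (2 + 17 + 1) * LL P e) (by omega) (by omega)
    refine h7.trans ?_
    unfold UU
    have h8 : ‖ζ‖ ≤ e ^ (-(126 * d)) * ‖z'‖ := by
      have h9 := mul_le_mul_of_nonneg_left lo (xp he (-(126 * d))).le
      rwa [← mul_assoc, xa he (show -(126 * d) + 126 * d = 0 by ring), Real.rpow_zero,
        one_mul] at h9
    have h9 : e ^ (P.thp / 50 - 6 * d) * y0 P b n e ≤ e ^ (P.thp / 50 - 6 * d - P.thp / 130) * ‖z'‖ := by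
      calc e ^ (P.thp / 50 - 6 * d) * y0 P b n e
          ≤ e ^ (P.thp / 50 - 6 * d) * (e ^ (-(P.thp / 130)) * ‖z'‖) :=
            mul_le_mul_of_nonneg_left hyz (xp he _).le
        _ = _ := by
            rw [← mul_assoc, xa he (show P.thp / 50 - 6 * d + -(P.thp / 130) =
              P.thp / 50 - 6 * d - P.thp / 130 by ring)]
    have h10 : e ^ (P.thp / 50 - 6 * d - P.thp / 130) ≤ e ^ (-(126 * d)) :=
      xm he he1 (by linarith)
    have h11 : ‖ζ‖ + e ^ (P.thp / 50 - 6 * d) * y0 P b n e ≤ 2 * (e ^ (-(126 * d)) * ‖z'‖) := by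
      have := mul_le_mul_of_nonneg_right h10 hz0.le
      linarith
    have h12 : 2 * e ^ (-(128 * d)) ≤ e ^ (-(P.thp / 200)) :=
      ab' he he1 hbig (by norm_num) (by linarith)
    calc e ^ (-(2 * d)) * (‖ζ‖ + e ^ (P.thp / 50 - 6 * d) * y0 P b n e)
        ≤ e ^ (-(2 * d)) * (2 * (e ^ (-(126 * d)) * ‖z'‖)) :=
          mul_le_mul_of_nonneg_left h11 (xp he _).le
      _ = 2 * e ^ (-(128 * d)) * ‖z'‖ := by
          rw [← xa he (show -(2 * d) + -(126 * d) = -(128 * d) by ring)]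
          ring
      _ ≤ _ := mul_le_mul_of_nonneg_right h12 hz0.le
  have hC := D.C24
  have hcells := D.cells (β := 71 / 64 * C1) (show n ≤ n + (2 + 17) * LL P e by omega)
    (D.yjlo' (2 + 17)) (by linarith) le_rfl
  refine ⟨n + (2 + 17) * LL P e, n + (2 + 17 + 1) * LL P e, sj P b C1 n e (2 + 17),
    yj P b n e (2 + 17), z',
    e ^ (P.thp / 100 + ((17 : ℕ) : ℝ) * (P.thp / 30) + P.thp / 30) * ‖z'‖,
    e ^ (49 / 100 : ℝ) * y0 P b n e, by omega, ?_⟩
  refine ⟨by omega, by omega, D.G _ (by omega) (by omega), D.h.b1, D.h.b2, he, D.nn.es, D.ye,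
    D.yl, ?_, ?_, hbase, D.yj0 _, ?_, ?_, hcells.1.2, h6, ?_, ?_, ?_, ?_⟩
  · refine le_trans ?_ lo2
    exact mul_le_mul_of_nonneg_right (xm he he1 (by linarith)) hy0.le
  · refine hi2.trans ?_
    exact mul_le_mul_of_nonneg_right (xm he he1 (by linarith)) hy0.le
  · calc e ^ (1 / 200 : ℝ) * yj P b n e (2 + 17)
        ≤ e ^ (1 / 200 : ℝ) * (e ^ (-(3 * P.thp)) * y0 P b n e) :=
          mul_le_mul_of_nonneg_left (D.yjhi (by norm_num)) (xp he _).le
      _ = e ^ (1 / 200 + -(3 * P.thp)) * y0 P b n e := by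
          rw [← mul_assoc, xa he rfl]
      _ ≤ e ^ (P.thp / 130) * y0 P b n e :=
          mul_le_mul_of_nonneg_right (xm he he1 (by linarith)) hy0.le
      _ ≤ _ := lo2
  · have h7 := D.yjlo (2 + 17)
    calc e ^ (1 / 200 : ℝ) * ‖z'‖ ≤ e ^ (1 / 200 : ℝ) * (e ^ (-(P.thp / 5)) * y0 P b n e) :=
          mul_le_mul_of_nonneg_left hi2 (xp he _).le
      _ = e ^ (1 / 200 + -(P.thp / 5)) * y0 P b n e := by
          rw [← mul_assoc, xa he rfl]
      _ ≤ e ^ (0 : ℝ) * y0 P b n e :=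
          mul_le_mul_of_nonneg_right (xm he he1 (by linarith)) hy0.le
      _ ≤ _ := by
          rw [Real.rpow_zero]
          linarith
  · exact mul_nonneg (xp he _).le hz0.le
  · exact mul_nonneg (xp he _).le hy0.le
  · rw [mul_comm ‖z'‖]
    apply mul_le_mul_of_nonneg_right _ hz0.le
    apply xm he he1
    push_cast
    linarith
  · rw [mul_comm ‖z'‖]
    calc e ^ (49 / 100 : ℝ) * y0 P b n e ≤ e ^ (49 / 100 : ℝ) * (e ^ (-(P.thp / 130)) * ‖z'‖) :=
          mul_le_mul_of_nonneg_left hyz (xp he _).le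
      _ = e ^ (49 / 100 + -(P.thp / 130)) * ‖z'‖ := by
          rw [← mul_assoc, xa he rfl]
      _ ≤ _ := mul_le_mul_of_nonneg_right (xm he he1 (by linarith)) hz0.le

/-- the numbers in the order of constants -/
theorem nn_ev (b1 b2 pf : ℝ) (Q : ℕ) (κ : ℝ) : Ev b1 b2 pf Q fun P c1 =>
    ∀ e, 0 < e → e ≤ P.es → NN P κ c1 (P.thp / 10 ^ 9) e := by
  have h1 : Ev b1 b2 pf Q fun P c1 => P.Adm ∧ 0 < c1 ∧ P.th ≤ P.thp / 10 ^ 9 ∧
      κ * P.th ≤ P.thp / 10 ^ 9 ∧ P.thp ≤ 1 / 1000 ∧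
      5 * (P.th + 4 * P.q0 * P.thp) ≤ 1 / 200 ∧ 3 ≤ P.q0 ∧
      ∀ e, 0 < e → e ≤ P.es → 2 ^ 100 * e ^ (P.thp / 10 ^ 9) ≤ 1 := by
    refine Ev.of ⟨0, fun W _ => ⟨1, one_pos, fun ys _ _ => ⟨0, fun X0 _ => ⟨1 / 16000,
      by norm_num, fun x1 hx1 hx1' => ⟨min (1 / 1000) (1 / (16000 * ((Q : ℝ) + 3))),
      by positivity, fun thp ht1 ht2 => ⟨thp / (10 ^ 9 * (1 + |κ|)), by positivity,
      fun th hs1 hs2 => ⟨0, fun C0 _ => ⟨1, one_pos, fun c1 hc1 _ => ?_⟩⟩⟩⟩⟩⟩⟩⟩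
    obtain ⟨E, hE, hsm⟩ := sm_rpow (s := thp / 10 ^ 9) (A := 2 ^ 100) (by positivity) one_pos
    refine ⟨E, hE, fun P hP => ?_⟩
    have t1 : thp ≤ 1 / 1000 := ht2.trans (min_le_left _ _)
    have t2 : ((Q : ℝ) + 3) * thp ≤ 1 / 16000 := by
      have h3 := ht2.trans (min_le_right _ _)
      have h4 : (0 : ℝ) < 16000 * ((Q : ℝ) + 3) := by positivity
      rw [le_div_iff₀ h4] at h3
      linarith
    have hk := abs_nonneg κ
    have t3 : th * (1 + |κ|) ≤ thp / 10 ^ 9 := by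
      have h4 : (0 : ℝ) < 10 ^ 9 * (1 + |κ|) := by positivity
      rw [le_div_iff₀ h4] at hs2
      rw [le_div_iff₀ (by norm_num)]
      linarith
    have t4 : 0 ≤ th * |κ| := by positivity
    have t5 : th ≤ thp / 10 ^ 9 := by linarith
    have t6 : κ * th ≤ thp / 10 ^ 9 := by
      have h5 : κ * th ≤ |κ| * th := mul_le_mul_of_nonneg_right (le_abs_self κ) hs1.le
      linarith
    have hrho := hP.rho hx1 ht1
    rw [hP.ethp] at hrho
    rw [hP.eth, hP.ethp]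
    refine ⟨hP.adm, hc1, t5, t6, t1, ?_, ?_, ?_⟩
    · have h6 : 4 * (P.q0 : ℝ) * thp = 4 * ((P.q0 : ℝ) * thp) := by ring
      rw [h6]
      have h7 : thp / 10 ^ 9 ≤ 1 / 10 ^ 9 := by
        apply div_le_div_of_nonneg_right _ (by norm_num)
        linarith
      linarith
    · rw [hP.eq0]
      have h6 : 1 ≤ ⌈x1 / thp⌉₊ := Nat.one_le_ceil_iff.2 (by positivity)
      omega
    · intro e he hes
      exact hsm e he (hes.trans hP.ees)
  refine (h1.and (H197.ev_n1 b1 b2 pf Q)).mono ?_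
  rintro P c1 - ⟨⟨hA, hc, k1, k2, k3, k4, k5, k6⟩, hN⟩ e he hes
  refine ⟨hA, rfl, he, hes, k6 e he hes, k1, k2, k3, k4, ?_, hc, k5⟩
  have := hN.s2 e he hes
  linarith

/-- **(P1)** the first part of the start -/
theorem part1 (b1 b2 pf : ℝ) (Q : ℕ) (K κ : ℝ) : Part1 b1 b2 pf Q K κ := by
  refine ((nn_ev b1 b2 pf Q κ).and (H197.fin1_ev b1 b2 pf Q)).mono ?_
  rintro P c1 - ⟨hnn, hfin⟩ C1 hC1 _ _ b a A1
  filter_upwards [eventually_ge_atTop 16] with N0 hN0 h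
  intro n e hn he hes hG hye hyl hnm
  have D : Dt P b a C1 c1 A1 κ (P.thp / 10 ^ 9) N0 n e :=
    ⟨h, hnn e he hes, hC1, hn, by omega, hG, hye, hyl, hnm⟩
  obtain ⟨s, m, s0, y, z, Δ, E, hm, hF⟩ := D.last
  obtain ⟨s', hS⟩ := hfin C1 hC1 b h.b0 A1 N0 hN0 h.cor h.chs h.cbs h.dx0 n s m s0 e y z Δ E hn hF
  exact ⟨m, s', z, Δ, E, hm, hS⟩

end

end Vale.Agent.P159.H767.Pt
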