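import Vale.Agent.P159.H767.Nr11
import Vale.Agent.P159.H801.ParEv

/-!
P159, module NEAR (helper767), part 12: the reference forms in the order of constants (`Ev`).
-/

set_option linter.unusedSectionVars false

namespace Vale.Agent.P159.H767

open Finset Matrix
open Vale.Agent.P159.TM.H764 (EE cN dt)
open Vale.Agent.P159.TM.H859 (dirE)
open Vale.Agent.P159.TM.Spec (V Rng)
open Vale.Agent.P159.H972 (Par lg tn RNG Good FL)
open Vale.Agent.P159.H864 (TI sym yt)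
open Vale.Agent.P159.H363 (acl rel)
open Vale.Agent.P159.H462 (Dom)
open Vale.Agent.P159.H801 (Ev PS)
open Vale.Agent.P159.H640

noncomputable section

/-- the activity at smaller masses -/
theorem yt_mass4 {N : ℕ} [NeZero N] {b t τ : ℝ} (hb : 0 < b) (hτ : 0 < τ) (h1 : τ ≤ t)
    (h4 : t ≤ 4 * τ) : yt N b τ ≤ 4 * yt N b t := by
  have ht : 0 < t := hτ.trans_le h1
  rw [H864.yt_eq hb hτ, H864.yt_eq hb ht]
  have h2 := H864.Pik_nonneg (N := N) hb hτ 0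
  have h3 := H864.Pik_mono (N := N) hb hτ h1 0
  set p := H37.Pik N b τ 0
  set q := H37.Pik N b t 0
  have hq : 0 ≤ q := h2.trans h3
  rw [mul_div_assoc', div_le_div_iff₀ (by linarith) (by linarith)]
  have e1 : p * t ≤ q * (4 * τ) := mul_le_mul h3 h4 ht.le hq
  nlinarith [mul_nonneg hq h2]

/-- **the reference forms, order of constants** -/
theorem ref_ev {b1 : ℝ} (hb1 : 0 < b1) {b2 : ℝ} (hb2 : 0 < b2) :
    ∃ cm Cm : ℝ, 0 < cm ∧ 0 < Cm ∧ ∀ v : ℝ, 0 < v → v < 1 → ∀ (pf : ℝ) (Q : ℕ),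
    Ev b1 b2 pf Q fun P c1 => 0 < c1 ∧ c1 ≤ P.th / 5 ∧ 10 * (P.th + 4 * P.q0 * P.thp) + 4 * c1 ≤ 1 - v ∧
      ∀ (b : ℝ) (n s r r' : ℕ) (e τ Y : ℝ) [NeZero (2 ^ r / 2 ^ s)] [NeZero (2 ^ r' / 2 ^ s)],
      0 < e → e ≤ P.es → Good P b n e → P.TT n e r → P.TT n e r' → tn n ≤ τ → τ ≤ 4 * tn n →
      s ≤ n → ((n - s : ℕ) : ℝ) ≤ e ^ (-(2 * c1)) →
      yt (2 ^ r) b (4 * tn n) ≤ Y → yt (2 ^ r') b (4 * tn n) ≤ Y → 16 * Y ^ 2 ≤ e →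
      ∀ (hd : 2 ^ r / 2 ^ s ∣ 2 ^ r' / 2 ^ s) (hd' : 2 ^ r' / 2 ^ s ∣ 2 ^ r' / 2 ^ s),
      Ref (2 ^ r) (2 ^ r') (2 ^ s) hd b τ (1 / (2 * b2)) (cm * (2 ^ s / 2 ^ n)) Cm (e ^ v) ∧
      Ref (2 ^ r') (2 ^ r') (2 ^ s) hd' b τ (1 / (2 * b2)) (cm * (2 ^ s / 2 ^ n)) Cm (e ^ v) := by
  obtain ⟨W₀, cm, Cm, hcm, hCm, h0⟩ := ref_par hb1 hb2
  refine ⟨cm, Cm, hcm, hCm, ?_⟩
  intro v hv hv1 pf Q
  have hQ3 : (0 : ℝ) < (Q : ℝ) + 3 := by positivity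
  have hg : 0 < 1 - v := by linarith
  refine Ev.of ⟨W₀, fun W hW => ?_⟩
  obtain ⟨ys, X, hys, hX, h1⟩ := h0 W hW
  refine ⟨ys, hys, fun ys' hys0 hys' => ⟨max X 2, fun X0 hX0 => ?_⟩⟩
  refine ⟨(1 - v) / 200, by positivity, fun x1 hx1 hx1' => ?_⟩
  refine ⟨(1 - v) / (200 * (Q + 3)), by positivity, fun thp hthp hthp' => ?_⟩
  refine ⟨(1 - v) / 200, by positivity, fun th hth hth' => ⟨0, fun C0 _ => ?_⟩⟩
  refine ⟨min (th / 5) ((1 - v) / 40), by positivity, fun c1 hc1 hc1' => ?_⟩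
  have hc1a : c1 ≤ th / 5 := hc1'.trans (min_le_left _ _)
  have hc1b : c1 ≤ (1 - v) / 40 := hc1'.trans (min_le_right _ _)
  have hthp2 : ((Q : ℝ) + 3) * thp ≤ (1 - v) / 200 := by
    rw [le_div_iff₀ (by positivity)] at hthp' ⊢
    linarith
  have hq0 : ((Q + ⌈x1 / thp⌉₊ + 2 : ℕ) : ℝ) * thp ≤ x1 + (Q + 3) * thp := by
    push_cast
    have h2 : (⌈x1 / thp⌉₊ : ℝ) ≤ x1 / thp + 1 := (Nat.ceil_lt_add_one (by positivity)).le
    have h3 : (⌈x1 / thp⌉₊ : ℝ) * thp ≤ x1 + thp := by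
      calc (⌈x1 / thp⌉₊ : ℝ) * thp ≤ (x1 / thp + 1) * thp := by gcongr
        _ = x1 + thp := by field_simp
    linarith
  have hsum : 10 * (th + 4 * ((Q + ⌈x1 / thp⌉₊ + 2 : ℕ) : ℝ) * thp) + 4 * c1 ≤ 1 - v := by
    nlinarith
  obtain ⟨E0, hE0, H⟩ := h1 v th thp (2 * c1) 1 (Q + ⌈x1 / thp⌉₊ + 2) hv hth hthp (by positivity)
    (by linarith) zero_le_one (by linarith)
  refine ⟨E0, hE0, fun P hP => ?_⟩
  refine ⟨hc1, by rw [hP.eth]; exact hc1a, by rw [hP.eth, hP.eq0, hP.ethp]; exact hsum, ?_⟩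
  intro b n s r r' e τ Y _ _ he heE hG hT hT' hτ1 hτ2 hsn hns hY hY' hYe hd hd'
  obtain ⟨τ0, a0, _, _, hGP⟩ := hG
  have hGe := hGP e le_rfl heE
  have hr := hGe.rng r (Or.inl hT)
  have hr' := hGe.rng r' (Or.inl hT')
  have hbb : 0 < b := by
    have h2 := hr.1.hb1
    rw [hP.eb1] at h2
    linarith
  have hn1 : 1 ≤ n := by
    have h2 := hr.1.hX
    have h3 : 2 ≤ P.X0 := by
      rw [hP.eX0]
      exact (le_max_right _ _).trans hX0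
    by_contra h4
    have h5 : n = 0 := by omega
    rw [h5] at h2
    simp only [pow_zero] at h2
    omega
  have hτ : 0 < τ := (H972.tn_pos n).trans_le hτ1
  have ym : ∀ r : ℕ, yt (2 ^ r) b (4 * tn n) ≤ Y → yt (2 ^ r) b τ ≤ 4 * Y := by
    intro r h
    have h2 := yt_mass4 (N := 2 ^ r) hbb hτ hτ2 (by linarith)
    linarith
  refine H P hP.eth hP.ethp hP.eq0 hP.eb1 hP.eb2 hP.eW (by rw [hP.eys]; exact hys')
    (by rw [hP.eX0]; exact (le_max_left _ _).trans hX0) b n s r r' e τ (4 * Y) he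
    (heE.trans hP.ees) hT hT' hr.1 hr.2 hr'.1 hr'.2 hτ1 hτ2 hsn hn1
    (by rw [one_mul]; exact hns) (ym r hY) (ym r' hY') ?_ hd hd'
  calc (4 * Y) ^ 2 = 16 * Y ^ 2 := by ring
    _ ≤ e := hYe

end

end Vale.Agent.P159.H767
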