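import Vale.Agent.P159.H363.Gain
import Vale.Agent.P159.H552.GauHS2

/-!
P159, module CVP (VB10 of list V, part B), abstract part: two Gaussian laws on the same window `W`,
each with an independent constant mode of variance `τ²`, the rests Hilbert-Schmidt close.

* `gain_const`: `E ψ(A g) = e^{-2π²τ²} E ψ(B g)`, `E |ψ(A g)|² = E |ψ(B g)|²` if
  `A Aᵀ = B Bᵀ + τ² 1 1ᵀ`, `ψ` of charge one.
* `hs_l2c`: complex form of `hs_l2` of `H552`.
* `cvp_abs`: comparison of the two charge one expectations.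
-/

namespace Vale.Agent.P159.H767

open MeasureTheory ProbabilityTheory Finset Matrix
open Vale.Agent.P159.H37 (gau)
open Vale.Agent.P159.H363 (Ch)
open scoped Real

noncomputable section

variable {W I J I' J' : Type*} [Fintype W] [Fintype I] [Fintype J] [Fintype I'] [Fintype J']

/-- the matrix with all entries equal to `a` -/
def cst (W : Type*) (a : ℝ) : Matrix W W ℝ := Matrix.of fun _ _ => a

/-- an independent constant mode -/
theorem gain_const {A : Matrix W I ℝ} {B : Matrix W J ℝ} {τ2 : ℝ} (hτ : 0 ≤ τ2)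
    (h : A * Aᵀ = B * Bᵀ + cst W τ2) {ψ : (W → ℝ) → ℂ} (hch : Ch ψ) (hm : StronglyMeasurable ψ)
    {C : ℝ} (hC : ∀ F, ‖ψ F‖ ≤ C) :
    ∫ g, ψ (A *ᵥ g) ∂(gau I) =
      ((Real.exp (-(2 * π ^ 2 * τ2)) : ℝ) : ℂ) * ∫ g, ψ (B *ᵥ g) ∂(gau J) ∧
    ∫ g, ‖ψ (A *ᵥ g)‖ ^ 2 ∂(gau I) = ∫ g, ‖ψ (B *ᵥ g)‖ ^ 2 ∂(gau J) := by
  set c : Matrix W Unit ℝ := Matrix.of fun _ _ => √τ2 with hc
  set D : Matrix W (J ⊕ Unit) ℝ := fromCols B c with hD
  have hcov : A * Aᵀ = D * Dᵀ := by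
    rw [h, hD, transpose_fromCols, fromCols_mul_fromRows]
    congr 1
    ext y z
    rw [Matrix.mul_apply]
    simp only [cst, hc, transpose_apply, of_apply, Finset.univ_unique, Finset.sum_singleton]
    exact (Real.mul_self_sqrt hτ).symm
  have hval : ∀ (g : J → ℝ) (η : Unit → ℝ), ψ (D *ᵥ Sum.elim g η) =
      Complex.exp (((∑ i : Unit, (2 * π * √τ2) * η i : ℝ) : ℂ) * Complex.I) * ψ (B *ᵥ g) := by
    intro g η
    have e1 : D *ᵥ Sum.elim g η = fun y => (B *ᵥ g) y + √τ2 * η () := by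
      funext y
      rw [hD, fromCols_mulVec]
      simp only [Pi.add_apply, mulVec, dotProduct, hc, of_apply, Finset.univ_unique,
        Finset.sum_singleton, Function.comp_apply, Sum.elim_inl, Sum.elim_inr]
    rw [e1, hch]
    congr 3
    simp only [Finset.univ_unique, Finset.sum_singleton]
    have : η default = η () := rfl
    rw [this]
    congr 1
    ring
  have hmD : ∀ {E : Type} [NormedAddCommGroup E] [NormedSpace ℝ E] (f : (W → ℝ) → E)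
      (_ : StronglyMeasurable f) {K : ℝ} (_ : ∀ F, ‖f F‖ ≤ K),
      Integrable (fun g : J ⊕ Unit → ℝ => f (D *ᵥ g)) (gau (J ⊕ Unit)) := by
    intro E _ _ f hf K hK
    exact Integrable.of_bound (C := K)
      (hf.comp_measurable (H363.measurable_mulVec D)).aestronglyMeasurable
      (Filter.Eventually.of_forall fun g => hK _)
  constructor
  · rw [H363.law_integral_eq A D hcov ψ hm, H363.integral_gau_sum _ (hmD ψ hm hC),
      ← integral_const_mul]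
    refine integral_congr_ae (Filter.Eventually.of_forall fun g => ?_)
    simp only [hval]
    rw [integral_mul_const, H363.gau_char]
    congr 1
    push_cast
    congr 1
    simp only [Finset.univ_unique, Finset.sum_singleton]
    have : ((√τ2 : ℝ) : ℂ) ^ 2 = (τ2 : ℂ) := by
      rw [← Complex.ofReal_pow, Real.sq_sqrt hτ]
    rw [mul_pow, this]
    ring
  · have hC2 : ∀ F, ‖(‖ψ F‖ ^ 2 : ℝ)‖ ≤ C ^ 2 := by
      intro F
      rw [norm_pow, norm_norm]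
      exact pow_le_pow_left₀ (norm_nonneg _) (hC F) 2
    rw [H363.law_integral_eq A D hcov (fun F => ‖ψ F‖ ^ 2) (hm.norm.pow 2),
      H363.integral_gau_sum _ (hmD (fun F => ‖ψ F‖ ^ 2) (hm.norm.pow 2) hC2)]
    refine integral_congr_ae (Filter.Eventually.of_forall fun g => ?_)
    simp only [hval, norm_mul, Complex.norm_exp_ofReal_mul_I, one_mul]
    rw [integral_const]
    simp

theorem int_re_im (B : Matrix W I ℝ) {ψ : (W → ℝ) → ℂ} (hm : Measurable ψ) {C : ℝ}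
    (hC : ∀ F, ‖ψ F‖ ≤ C) :
    (∫ g, ψ (B *ᵥ g) ∂(gau I)).re = ∫ g, (ψ (B *ᵥ g)).re ∂(gau I) ∧
    (∫ g, ψ (B *ᵥ g) ∂(gau I)).im = ∫ g, (ψ (B *ᵥ g)).im ∂(gau I) := by
  have hint : Integrable (fun g : I → ℝ => ψ (B *ᵥ g)) (gau I) :=
    Integrable.of_bound (C := C) (hm.comp (H363.measurable_mulVec B)).aestronglyMeasurable
      (Filter.Eventually.of_forall fun g => hC _)
  exact ⟨(integral_re hint).symm, (integral_im hint).symm⟩

/-- complex form of `hs_l2` -/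
theorem hs_l2c [DecidableEq I] {B₁ : Matrix W I ℝ} {B₂ : Matrix W I' ℝ} {H : Matrix I I ℝ}
    (hH : Hᵀ = H) (h : B₂ * B₂ᵀ = B₁ * (1 + H) * B₁ᵀ) {η : ℝ} (hη : 0 ≤ η) (hη2 : η ≤ 1 / 2)
    (hHS : ∑ x, ∑ y, H x y ^ 2 ≤ η ^ 2) {ψ : (W → ℝ) → ℂ} (hm : Measurable ψ)
    {C : ℝ} (hC : ∀ F, ‖ψ F‖ ≤ C) :
    ‖∫ g, ψ (B₂ *ᵥ g) ∂(gau I') - ∫ g, ψ (B₁ *ᵥ g) ∂(gau I)‖ ^ 2 ≤
      4 * η ^ 2 * ∫ g, ‖ψ (B₁ *ᵥ g)‖ ^ 2 ∂(gau I) := by
  have hC0 : 0 ≤ C := (norm_nonneg _).trans (hC 0)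
  have hsq : ∀ (f : (W → ℝ) → ℝ) (_ : Measurable f) (_ : ∀ F, |f F| ≤ ‖ψ F‖),
      Integrable (fun g : I → ℝ => f (B₁ *ᵥ g) ^ 2) (gau I) := by
    intro f hf hb
    refine Integrable.of_bound (C := C ^ 2)
      ((hf.comp (H363.measurable_mulVec B₁)).pow_const 2).aestronglyMeasurable
      (Filter.Eventually.of_forall fun g => ?_)
    rw [Real.norm_eq_abs, abs_pow]
    exact pow_le_pow_left₀ (abs_nonneg _) ((hb _).trans (hC _)) 2
  have hre := Complex.measurable_re.comp hm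
  have him := Complex.measurable_im.comp hm
  have r1 := (H552.hs_l2 hH h hη hη2 hHS hre (hsq _ hre fun F => Complex.abs_re_le_norm _)).2
  have r2 := (H552.hs_l2 hH h hη hη2 hHS him (hsq _ him fun F => Complex.abs_im_le_norm _)).2
  simp only [Function.comp_apply] at r1 r2
  obtain ⟨c1, d1⟩ := int_re_im B₁ hm hC
  obtain ⟨c2, d2⟩ := int_re_im B₂ hm hC
  rw [← Complex.normSq_eq_norm_sq, Complex.normSq_apply, Complex.sub_re, Complex.sub_im,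
    c1, d1, c2, d2]
  have hs : ∫ g, ‖ψ (B₁ *ᵥ g)‖ ^ 2 ∂(gau I) =
      (∫ g, (ψ (B₁ *ᵥ g)).re ^ 2 ∂(gau I)) + ∫ g, (ψ (B₁ *ᵥ g)).im ^ 2 ∂(gau I) := by
    have h1 := integral_add (hsq _ hre fun F => Complex.abs_re_le_norm _)
      (hsq _ him fun F => Complex.abs_im_le_norm _)
    simp only [Function.comp_apply] at h1
    rw [← h1]
    refine integral_congr_ae (Filter.Eventually.of_forall fun g => ?_)
    simp only
    rw [← Complex.normSq_eq_norm_sq, Complex.normSq_apply]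
    ring
  rw [hs]
  nlinarith [r1, r2]

/-- **(CVP, abstract)** -/
theorem cvp_abs [DecidableEq J] {A₁ : Matrix W I ℝ} {B₁ : Matrix W J ℝ} {A₂ : Matrix W I' ℝ}
    {B₂ : Matrix W J' ℝ} {t1 t2 : ℝ} (ht1 : 0 ≤ t1) (ht2 : 0 ≤ t2)
    (h1 : A₁ * A₁ᵀ = B₁ * B₁ᵀ + cst W t1) (h2 : A₂ * A₂ᵀ = B₂ * B₂ᵀ + cst W t2)
    {H : Matrix J J ℝ} (hH : Hᵀ = H) (h : B₂ * B₂ᵀ = B₁ * (1 + H) * B₁ᵀ) {η : ℝ} (hη : 0 ≤ η)
    (hη2 : η ≤ 1 / 2) (hHS : ∑ x, ∑ y, H x y ^ 2 ≤ η ^ 2) {ψ : (W → ℝ) → ℂ} (hch : Ch ψ)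
    (hm : StronglyMeasurable ψ) {C : ℝ} (hC : ∀ F, ‖ψ F‖ ≤ C) :
    ‖∫ g, ψ (A₂ *ᵥ g) ∂(gau I')‖ ≤ Real.exp (-(2 * π ^ 2 * t2)) *
      (Real.exp (2 * π ^ 2 * t1) * ‖∫ g, ψ (A₁ *ᵥ g) ∂(gau I)‖ +
        2 * η * √(∫ g, ‖ψ (A₁ *ᵥ g)‖ ^ 2 ∂(gau I))) := by
  obtain ⟨g1, s1⟩ := gain_const ht1 h1 hch hm hC
  obtain ⟨g2, -⟩ := gain_const ht2 h2 hch hm hC
  have hd := hs_l2c hH h hη hη2 hHS hm.measurable hC
  rw [g1, g2, s1, norm_mul, norm_mul, Complex.norm_real, Complex.norm_real, Real.norm_eq_abs,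
    Real.norm_eq_abs, abs_of_pos (Real.exp_pos _), abs_of_pos (Real.exp_pos _), ← mul_assoc,
    ← Real.exp_add]
  have e0 : 2 * π ^ 2 * t1 + -(2 * π ^ 2 * t1) = 0 := by ring
  rw [e0, Real.exp_zero, one_mul]
  refine mul_le_mul_of_nonneg_left ?_ (Real.exp_pos _).le
  set X := ∫ g, ψ (B₂ *ᵥ g) ∂(gau J')
  set Y := ∫ g, ψ (B₁ *ᵥ g) ∂(gau J)
  set S := ∫ g, ‖ψ (B₁ *ᵥ g)‖ ^ 2 ∂(gau J)
  have hS : 0 ≤ S := integral_nonneg fun g => sq_nonneg _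
  have h3 : ‖X - Y‖ ≤ 2 * η * √S := by
    refine abs_le_of_sq_le_sq' ?_ (by positivity) |>.2
    rw [mul_pow, Real.sq_sqrt hS]
    refine hd.trans (le_of_eq ?_)
    ring
  calc ‖X‖ = ‖Y + (X - Y)‖ := by rw [add_sub_cancel]
    _ ≤ ‖Y‖ + ‖X - Y‖ := norm_add_le _ _
    _ ≤ _ := by linarith

end

end Vale.Agent.P159.H767
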