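import Vale.Agent.P159.H767.Cvp6
import Vale.Agent.P159.H363.Cvf1

/-!
P159, module CVP (VB10 of list V, part B): the factorization of the two window laws in the letters
of helper363's `cvf` (noise without the constant mode): `M1 M1ᵀ = D1 D1ᵀ + cst v1`,
`M2 M2ᵀ = D2 D2ᵀ + cst v2`, `D2 D2ᵀ = D1 (1 + H) D1ᵀ`, `H` small in the Hilbert-Schmidt norm.
-/

set_option linter.unusedSectionVars false

namespace Vale.Agent.P159.H767

open MeasureTheory Finset Matrix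
open Vale.Agent.P159.TM.H764 (EE cN sN dt)
open Vale.Agent.P159.TM.Spec (V)
open Vale.Agent.P159.H37 (qf bf gau)
open Vale.Agent.P159.H864 (TI sym fc mlt)
open Vale.Agent.P159.H462 (Dom Gam ti_Gam sym_Gam avgM ti_avgM sym_avgM)
open Vale.Agent.P159.H363 (gm gm0 ti_gm gm_mul row_sum Ch)
open scoped Real

noncomputable section

section win

variable {W I J : Type*} [Fintype W] [Fintype I] [Fintype J] [DecidableEq W]

/-- factorization of two window laws -/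
theorem fac_win {A₁ : Matrix W I ℝ} {A₂ : Matrix W J ℝ} {t1 t2 κ ε η : ℝ} (hκ : 0 < κ)
    (hε : 0 ≤ ε)
    (hfl : ∀ u : W → ℝ, κ * ∑ x, u x ^ 2 + t1 * (∑ x, u x) ^ 2 ≤ qf (A₁ * A₁ᵀ) u)
    (hE : ∀ x y, |(A₂ * A₂ᵀ) x y - (A₁ * A₁ᵀ) x y - (t2 - t1)| ≤ ε)
    (hη : Fintype.card W * ε ≤ κ * η) (hη2 : η ≤ 1 / 2) :
    ∃ B B₂ H : Matrix W W ℝ, A₁ * A₁ᵀ = B * Bᵀ + cst W t1 ∧ A₂ * A₂ᵀ = B₂ * B₂ᵀ + cst W t2 ∧
      Hᵀ = H ∧ B₂ * B₂ᵀ = B * (1 + H) * Bᵀ ∧ ∑ x, ∑ y, H x y ^ 2 ≤ η ^ 2 := by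
  have hη0 : 0 ≤ η := by
    have h1 : (0 : ℝ) ≤ Fintype.card W * ε := by positivity
    have h2 : 0 ≤ κ * η := h1.trans hη
    exact nonneg_of_mul_nonneg_right h2 hκ
  set P : Matrix W W ℝ := A₁ * A₁ᵀ - cst W t1 with hPd
  set E : Matrix W W ℝ := A₂ * A₂ᵀ - A₁ * A₁ᵀ - cst W (t2 - t1) with hEd
  have hct : ∀ a : ℝ, (cst W a)ᵀ = cst W a := fun a => by
    ext x y
    rfl
  have hP : Pᵀ = P := by
    rw [hPd, transpose_sub, transpose_mul, transpose_transpose, hct]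
  have hEt : Eᵀ = E := by
    rw [hEd, transpose_sub, transpose_sub, transpose_mul, transpose_transpose, transpose_mul,
      transpose_transpose, hct]
  have hfl' : ∀ u : W → ℝ, κ * ∑ x, u x ^ 2 ≤ qf P u := by
    intro u
    have h1 := hfl u
    have h2 : qf P u = qf (A₁ * A₁ᵀ) u - t1 * (∑ x, u x) ^ 2 := by
      rw [hPd]
      simp only [qf, Matrix.sub_apply, cst, of_apply]
      rw [pow_two, Finset.sum_mul_sum, Finset.mul_sum, ← Finset.sum_sub_distrib]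
      refine Finset.sum_congr rfl fun x _ => ?_
      rw [Finset.mul_sum, ← Finset.sum_sub_distrib]
      refine Finset.sum_congr rfl fun y _ => ?_
      ring
    rw [h2]
    linarith
  obtain ⟨B, H, hB, hHt, hEB, hHS⟩ := exists_rel hP hEt hκ hfl'
  have hHS2 : ∑ x, ∑ y, H x y ^ 2 ≤ η ^ 2 := by
    have h1 : ∑ x, ∑ y, E x y ^ 2 ≤ (Fintype.card W * ε) ^ 2 := by
      have h2 : ∀ x y, E x y ^ 2 ≤ ε ^ 2 := by
        intro x y
        have h3 := hE x y
        have h4 : E x y = (A₂ * A₂ᵀ) x y - (A₁ * A₁ᵀ) x y - (t2 - t1) := rfl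
        rw [h4]
        exact sq_le_sq' (by linarith [(abs_le.1 h3).1]) (abs_le.1 h3).2
      calc ∑ x, ∑ y, E x y ^ 2 ≤ ∑ _x : W, ∑ _y : W, ε ^ 2 :=
            Finset.sum_le_sum fun x _ => Finset.sum_le_sum fun y _ => h2 x y
        _ = _ := by
          rw [Finset.sum_const, Finset.sum_const, Finset.card_univ, nsmul_eq_mul, nsmul_eq_mul]
          ring
    have h5 : (Fintype.card W * ε) ^ 2 ≤ (κ * η) ^ 2 :=
      pow_le_pow_left₀ (by positivity) hη 2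
    have h6 : κ ^ 2 * ∑ x, ∑ y, H x y ^ 2 ≤ κ ^ 2 * η ^ 2 := by
      rw [← mul_pow]
      exact hHS.trans (h1.trans h5)
    exact le_of_mul_le_mul_left h6 (by positivity)
  obtain ⟨B₂, hB₂⟩ := exists_root_one_add (B := B) hHt hη0 hη2 hHS2
  refine ⟨B, B₂, H, ?_, ?_, hHt, hB₂, hHS2⟩
  · rw [← hB, hPd, sub_add_cancel]
  · rw [hB₂, Matrix.mul_add, Matrix.mul_one, Matrix.add_mul, ← hB, ← hEB, hPd, hEd]
    have : cst W t2 = cst W t1 + cst W (t2 - t1) := by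
      ext x y
      simp only [cst, Matrix.add_apply, of_apply]
      ring
    rw [this]
    abel

end win

section tor

variable {n1 n2 : ℕ} [NeZero n1] [NeZero n2] {A1 : Matrix (V n1) (V n1) ℝ}
  {A2 : Matrix (V n2) (V n2) ℝ} {ν c s : ℝ} {T : ℕ}

/-- entries of the noise covariance without the constant mode -/
lemma gm0_entry {n : ℕ} [NeZero n] {A : Matrix (V n) (V n) ℝ} (h : Dom A ν c) (hs : 0 < s)
    {W : Type*} [Fintype W] (i : W → V n) (x y : W) :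
    ((gm0 s A).submatrix i id * ((gm0 s A).submatrix i id)ᵀ) x y =
      Gam s A (i x) (i y) - s / (n : ℝ) ^ 2 := by
  have e : ((gm0 s A).submatrix i id * ((gm0 s A).submatrix i id)ᵀ) x y =
      (gm0 s A * (gm0 s A)ᵀ) (i x) (i y) := by
    simp [mul_apply]
  have h1 := H363.gm_split (A := A) h.zero hs.le
  rw [gm_mul h hs] at h1
  rw [e, h1, Matrix.add_apply]
  simp [cst]

/-- the value `v1` of the capacity floor -/
def v1c (a s D L θ μ : ℝ) : ℝ := θ * (1 - μ) ^ 2 / cen a s D L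

/-- **factorization of the window laws of the noise without the constant mode** -/
theorem cvp_fac (h1 : Dom A1 ν c) (h2 : Dom A2 ν c) (hs : 0 < s) (hT : 1 ≤ T) {a : ℝ}
    (ha0 : 0 ≤ a) (ha : ∀ k, sym A1 k ≤ a * EE k) {D : ℕ} (hD : 5 ≤ D) {L : ℝ} (hL : 2 ≤ L)
    (hN : 2 * (L * (2 * D) + 1) ≤ n1) {W : Type*} [Fintype W] [DecidableEq W] {w : W → ℤ × ℤ}
    (hinj : Function.Injective w) (hw : ∀ x, |(w x).1| ≤ D ∧ |(w x).2| ≤ D) {e1 : ℝ}
    (hlow : ∀ z : ℤ × ℤ, |z.1| ≤ 2 * D → |z.2| ≤ 2 * D →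
      |fc (lT s ν T) A2 0 (pt n2 z) - fc (lT s ν T) A1 0 (pt n1 z)| ≤ e1)
    {θ μ η : ℝ} (hθ : 0 ≤ θ) (hθ1 : θ < 1) (hμ : (2 * (L * (2 * D)) + 1) ^ 2 ≤ μ * (n1 : ℝ) ^ 2)
    (hμ1 : μ ≤ 1 / 2) (hη : 2 * Fintype.card W * (ν + s⁻¹) * eps s ν c T D e1 ≤ (1 - θ) * η)
    (hη2 : η ≤ 1 / 2) :
    ∃ D1 D2 H : Matrix W W ℝ,
      (gm0 s A1).submatrix (fun x => pt n1 (w x)) id *
          ((gm0 s A1).submatrix (fun x => pt n1 (w x)) id)ᵀ =
        D1 * D1ᵀ + cst W (v1c a s D L θ μ) ∧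
      (gm0 s A2).submatrix (fun x => pt n2 (w x)) id *
          ((gm0 s A2).submatrix (fun x => pt n2 (w x)) id)ᵀ =
        D2 * D2ᵀ + cst W (v1c a s D L θ μ + ((Gam s A2 0 0 - s / (n2 : ℝ) ^ 2) -
          (Gam s A1 0 0 - s / (n1 : ℝ) ^ 2))) ∧
      Hᵀ = H ∧ D2 * D2ᵀ = D1 * (1 + H) * D1ᵀ ∧ ∑ x, ∑ y, H x y ^ 2 ≤ η ^ 2 ∧
      Function.Injective (fun x => pt n1 (w x)) := by
  classical
  have hν := h1.hν
  have hc := h1.hc
  have hNp := H864.N_pos (N := n1)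
  have hD' : (5 : ℝ) ≤ D := by exact_mod_cast hD
  have hn1 : (0 : ℝ) < n1 := by exact_mod_cast NeZero.pos n1
  -- the window is injective in the small torus
  have h2D : 2 * D < n1 := by
    have : (2 : ℝ) * D < n1 := by nlinarith
    exact_mod_cast this
  have hpt : ∀ z z' : ℤ × ℤ, (|z.1| ≤ D ∧ |z.2| ≤ D) → (|z'.1| ≤ D ∧ |z'.2| ≤ D) →
      pt n1 z = pt n1 z' → z = z' := by
    intro z z' hz hz' he
    unfold pt at he
    rw [Prod.mk.injEq, ZMod.intCast_eq_intCast_iff_dvd_sub, ZMod.intCast_eq_intCast_iff_dvd_sub]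
      at he
    have key : ∀ x y : ℤ, |x| ≤ D → |y| ≤ D → (n1 : ℤ) ∣ y - x → x = y := by
      intro x y hx hy hxy
      rw [abs_le] at hx hy
      have h3 : y - x = 0 := by
        apply Int.eq_zero_of_abs_lt_dvd hxy
        rw [abs_lt]
        constructor <;> omega
      omega
    exact Prod.ext (key _ _ hz.1 hz'.1 he.1) (key _ _ hz.2 hz'.2 he.2)
  have hi1 : Function.Injective fun x => pt n1 (w x) := fun x y hxy =>
    hinj (hpt _ _ (hw x) (hw y) hxy)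
  have hcard : (Fintype.card W : ℝ) / (n1 : ℝ) ^ 2 ≤ 1 / 2 := by
    have h3 : Fintype.card W ≤ ((Finset.Icc (-(D : ℤ)) D) ×ˢ (Finset.Icc (-(D : ℤ)) D)).card := by
      rw [← Finset.card_univ]
      refine Finset.card_le_card_of_injOn w (fun x _ => ?_) hinj.injOn
      simp only [Finset.coe_product, Finset.coe_Icc, Set.mem_prod, Set.mem_Icc]
      exact ⟨abs_le.1 (hw x).1, abs_le.1 (hw x).2⟩
    rw [Finset.card_product, Int.card_Icc] at h3
    have h4 : ((D : ℤ) + 1 - -(D : ℤ)).toNat = 2 * D + 1 := by omega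
    rw [h4] at h3
    have h5 : (Fintype.card W : ℝ) ≤ (2 * D + 1) * (2 * D + 1) := by exact_mod_cast h3
    rw [div_le_iff₀ hNp]
    have h6 : 2 * (2 * (D : ℝ) + 1) ≤ n1 := by nlinarith
    nlinarith
  have hc0 : 0 < cen a s D L := cen_pos ha0 hs (by linarith) (by linarith)
  set κ : ℝ := (1 - θ) * (s / (1 + s * ν)) * (1 - Fintype.card W / (n1 : ℝ) ^ 2) with hκ
  have h1θ : 0 < 1 - θ := by linarith
  have hκ0 : (1 - θ) / (2 * (ν + s⁻¹)) ≤ κ := by
    have e3 : s / (1 + s * ν) = (ν + s⁻¹)⁻¹ := by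
      field_simp
      ring
    rw [hκ, e3]
    have h4 : 1 / 2 ≤ 1 - (Fintype.card W : ℝ) / (n1 : ℝ) ^ 2 := by linarith
    have h5 : (1 - θ) / (2 * (ν + s⁻¹)) = (1 - θ) * (ν + s⁻¹)⁻¹ * (1 / 2) := by
      have : 0 < ν + s⁻¹ := by positivity
      field_simp
    rw [h5]
    exact mul_le_mul_of_nonneg_left h4 (by positivity)
  have hκp : 0 < κ := lt_of_lt_of_le (by positivity) hκ0
  have he1 : 0 ≤ e1 := (abs_nonneg _).trans (hlow 0 (by simp) (by simp))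
  have heps : 0 ≤ eps s ν c T D e1 := by
    unfold eps
    have := RT_pos hs hν hT
    positivity
  have hη0 : 0 ≤ η := by
    have h3 : 0 ≤ 2 * Fintype.card W * (ν + s⁻¹) * eps s ν c T D e1 := by positivity
    exact nonneg_of_mul_nonneg_right (h3.trans hη) h1θ
  have e0 : ∀ {n : ℕ} [NeZero n] {A : Matrix (V n) (V n) ℝ} (h : Dom A ν c) (i : W → V n) (x y : W),
      ((gm s A).submatrix i id * ((gm s A).submatrix i id)ᵀ) x y = Gam s A (i x) (i y) := by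
    intro n _ A h i x y
    rw [← gm_mul h hs]
    simp [mul_apply]
  have k1 : ∀ u : W → ℝ, κ * ∑ x, u x ^ 2 + v1c a s D L θ μ * (∑ x, u x) ^ 2 ≤
      qf ((gm0 s A1).submatrix (fun x => pt n1 (w x)) id *
        ((gm0 s A1).submatrix (fun x => pt n1 (w x)) id)ᵀ) u := by
    intro u
    have h3 := floor_win h1 hs ha0 ha hD hL hN hi1 hw hθ hθ1.le hμ (by linarith) u
    have h4 : qf ((gm0 s A1).submatrix (fun x => pt n1 (w x)) id *
        ((gm0 s A1).submatrix (fun x => pt n1 (w x)) id)ᵀ) u =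
        qf ((gm s A1).submatrix (fun x => pt n1 (w x)) id *
        ((gm s A1).submatrix (fun x => pt n1 (w x)) id)ᵀ) u -
          s / (n1 : ℝ) ^ 2 * (∑ x, u x) ^ 2 := by
      unfold qf
      rw [pow_two (∑ x, u x), Finset.sum_mul_sum, Finset.mul_sum, ← Finset.sum_sub_distrib]
      refine Finset.sum_congr rfl fun x _ => ?_
      rw [Finset.mul_sum, ← Finset.sum_sub_distrib]
      refine Finset.sum_congr rfl fun y _ => ?_
      rw [gm0_entry h1 hs, e0 h1]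
      ring
    rw [h4]
    unfold v1c
    linarith
  have k2 : ∀ x y, |((gm0 s A2).submatrix (fun x => pt n2 (w x)) id *
          ((gm0 s A2).submatrix (fun x => pt n2 (w x)) id)ᵀ) x y -
        ((gm0 s A1).submatrix (fun x => pt n1 (w x)) id *
          ((gm0 s A1).submatrix (fun x => pt n1 (w x)) id)ᵀ) x y -
        ((v1c a s D L θ μ + ((Gam s A2 0 0 - s / (n2 : ℝ) ^ 2) -
          (Gam s A1 0 0 - s / (n1 : ℝ) ^ 2))) - v1c a s D L θ μ)| ≤ eps s ν c T D e1 := by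
    intro x y
    rw [gm0_entry h1 hs, gm0_entry h2 hs]
    have h3 := win_E h1 h2 hs hT hlow (hw x) (hw y)
    have h4 : ∀ p q r u v1 v2 v : ℝ, p - v2 - (q - v1) - (v + (r - v2 - (u - v1)) - v) =
        p - q - (r - u) := by
      intros
      ring
    rw [h4]
    exact h3
  have k3 : Fintype.card W * eps s ν c T D e1 ≤ κ * η := by
    have h6 : 0 < 2 * (ν + s⁻¹) := by positivity
    have h7 : Fintype.card W * eps s ν c T D e1 ≤ (1 - θ) / (2 * (ν + s⁻¹)) * η := by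
      rw [div_mul_eq_mul_div, le_div_iff₀ h6]
      linarith
    exact h7.trans (mul_le_mul_of_nonneg_right hκ0 hη0)
  obtain ⟨B, B₂, H, f1, f2, f3, f4, f5⟩ := fac_win hκp heps k1 k2 k3 hη2
  exact ⟨B, B₂, H, f1, f2, f3, f4, f5, hi1⟩

end tor

end

end Vale.Agent.P159.H767
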