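import Vale.Agent.P159.H767.Nr10
import Vale.Agent.P159.H375.AclE
import Vale.Agent.P159.H692.Hsb

/-!
P159, module NEAR (helper767), part 11: the reference forms `B = pz h (A3 (2 ^ r₃) (2 ^ s) b τ)` in
the letters of LIST P_up: exact periodizations, Hilbert-Schmidt distance to `acl`, stiffness.
-/

set_option linter.unusedSectionVars false

namespace Vale.Agent.P159.H767

open Finset Matrix
open Vale.Agent.P159.TM.H764 (EE cN dt)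
open Vale.Agent.P159.TM.H859 (dirE)
open Vale.Agent.P159.TM.Spec (V Rng)
open Vale.Agent.P159.H972 (Par lg tn RNG)
open Vale.Agent.P159.H864 (TI sym yt)
open Vale.Agent.P159.H363 (acl rel)
open Vale.Agent.P159.H462 (Dom)
open Vale.Agent.P159.H733.Torg (pz ti_pz dom_pz Two)
open Vale.Agent.P159.H708 (Nrs)
open Vale.Agent.P159.H640

noncomputable section

/-- the reference form of the torus `N` over `M`: exact periodization, close to `acl` -/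
structure Ref (N M l : ℕ) [NeZero N] [NeZero M] [NeZero (N / l)] [NeZero (M / l)]
    (hd : N / l ∣ M / l) (b τ c κ C1 η : ℝ) : Prop where
  two : Two hd (pz hd (A3 M l b τ)) (A3 M l b τ) (τ * (l : ℝ) ^ 2) c κ C1
  dom : Dom (acl N l b τ τ) (τ * (l : ℝ) ^ 2) c
  hs : ∑ k, rel (acl N l b τ τ) (pz hd (A3 M l b τ)) k ^ 2 ≤ η ^ 2
  hs' : ∑ k, rel (pz hd (A3 M l b τ)) (acl N l b τ τ) k ^ 2 ≤ η ^ 2
  ha : ∀ a : ℝ, (∀ u, (acl N l b τ τ *ᵥ u) ⬝ᵥ u ≤ a * dirE u) →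
    ∀ u, (pz hd (A3 M l b τ) *ᵥ u) ⬝ᵥ u ≤ (a + η) * dirE u
  sy : ∀ k, |sym (pz hd (A3 M l b τ)) k - sym (acl N l b τ τ) k| ≤ η * EE k
  sup : ∀ z, |(1 - (τ * (l : ℝ) ^ 2)⁻¹ • acl N l b τ τ : Matrix (V (N / l)) (V (N / l)) ℝ) 0 z -
    (1 - (τ * (l : ℝ) ^ 2)⁻¹ • pz hd (A3 M l b τ) : Matrix (V (N / l)) (V (N / l)) ℝ) 0 z| ≤
      η / ((N / l : ℕ) : ℝ) ^ 2

section one

variable {N M l : ℕ} [NeZero N] [NeZero M] [NeZero (N / l)] [NeZero (M / l)]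
  {hd : N / l ∣ M / l} {b τ c κ C1 η σ : ℝ}

theorem ref_of (h : Nrs hd (acl N l b τ τ) (A3 M l b τ) (τ * (l : ℝ) ^ 2) c κ C1 σ)
    (h1 : (1 + τ * (l : ℝ) ^ 2 * ((N / l : ℕ) : ℝ) ^ 2 / (16 * c)) *
      (((N / l : ℕ) : ℝ) ^ 2 * σ) ≤ 1 / 2)
    (h2 : (2 + c) * ((1 + τ * (l : ℝ) ^ 2 * ((N / l : ℕ) : ℝ) ^ 2 / (16 * c)) *
      (((N / l : ℕ) : ℝ) ^ 2 * σ)) ≤ η) : Ref N M l hd b τ c κ C1 η := by
  have hc := h.dom.hc
  have hν := h.dom.hν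
  have hn := H864.N_pos (N := N / l)
  have hσ : 0 ≤ σ := (abs_nonneg _).trans (h.sup 0)
  set ν : ℝ := τ * (l : ℝ) ^ 2 with hνd
  set n2 : ℝ := ((N / l : ℕ) : ℝ) ^ 2 with hn2
  set X : ℝ := (1 + ν * n2 / (16 * c)) * (n2 * σ) with hX
  have hX0 : 0 ≤ X := by positivity
  have e1 : 2 * X ≤ η := by
    refine le_trans ?_ h2
    exact mul_le_mul_of_nonneg_right (by linarith) hX0
  have e2 : X ≤ η := by linarith
  have e3 : n2 * σ ≤ X := by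
    rw [hX]
    refine le_mul_of_one_le_left (by positivity) ?_
    have : 0 ≤ ν * n2 / (16 * c) := by positivity
    linarith
  have e4 : ν * ((N / l : ℕ) : ℝ) ^ 4 * σ / 16 ≤ η := by
    have h3 : ν * ((N / l : ℕ) : ℝ) ^ 4 * σ / 16 = c * (ν * n2 / (16 * c) * (n2 * σ)) := by
      rw [hn2]
      field_simp
    have h4 : ν * n2 / (16 * c) * (n2 * σ) ≤ X := by
      rw [hX]
      exact mul_le_mul_of_nonneg_right (by linarith) (by positivity)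
    rw [h3]
    refine le_trans ?_ h2
    calc c * (ν * n2 / (16 * c) * (n2 * σ)) ≤ c * X := mul_le_mul_of_nonneg_left h4 hc.le
      _ ≤ (2 + c) * X := mul_le_mul_of_nonneg_right (by linarith) hX0
  have t2 := ti_pz hd h.dom2.ti
  refine ⟨h.two, h.dom, ?_, ?_, ?_, ?_, ?_⟩
  · refine (H692.hsb' h.dom t2 h.sup h1).trans ?_
    exact pow_le_pow_left₀ (by positivity) e1 2
  · refine (H692.hsb h.dom t2 h.sup).trans ?_
    exact pow_le_pow_left₀ (by positivity) e2 2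
  · intro a ha u
    refine (ha_pz h ha u).trans ?_
    exact mul_le_mul_of_nonneg_right (by linarith) (H640.dirE_nonneg u)
  · intro k
    exact (sym_pz_sub h k).trans (mul_le_mul_of_nonneg_right e4 (TM.H764.EE_nonneg k))
  · intro z
    refine (h.sup z).trans ?_
    rw [le_div_iff₀ hn]
    calc σ * n2 = n2 * σ := mul_comm _ _
      _ ≤ _ := e3.trans e2

end one

/-- **the reference forms on all admissible tori** -/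
theorem ref_par {b1 : ℝ} (hb1 : 0 < b1) {b2 : ℝ} (hb2 : 0 < b2) :
    ∃ W₀ cm Cm : ℝ, 0 < cm ∧ 0 < Cm ∧ ∀ W : ℝ, W₀ ≤ W → ∃ ys : ℝ, ∃ X : ℕ, 0 < ys ∧ 1 ≤ X ∧
    ∀ (v th thp c1 A1 : ℝ) (q0 : ℕ), 0 < v → 0 < th → 0 < thp → 0 < c1 → c1 < th / 2 →
      0 ≤ A1 → 10 * (th + 4 * q0 * thp) + 2 * c1 ≤ 1 - v →
    ∃ E0 : ℝ, 0 < E0 ∧ ∀ P : Par, P.th = th → P.thp = thp → P.q0 = q0 → P.b1 = b1 → P.b2 = b2 →
      P.W = W → P.ys ≤ ys → X ≤ P.X0 →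
    ∀ (b : ℝ) (n s r r' : ℕ) (e τ Y : ℝ) [NeZero (2 ^ r / 2 ^ s)] [NeZero (2 ^ r' / 2 ^ s)],
      0 < e → e ≤ E0 → P.TT n e r → P.TT n e r' → RNG P b n r e → RNG P b (n - 1) r e →
      RNG P b n r' e → RNG P b (n - 1) r' e → tn n ≤ τ → τ ≤ 4 * tn n → s ≤ n → 1 ≤ n →
      ((n - s : ℕ) : ℝ) ≤ A1 * e ^ (-c1) →
      yt (2 ^ r) b τ ≤ Y → yt (2 ^ r') b τ ≤ Y → Y ^ 2 ≤ e →
      ∀ (hd : 2 ^ r / 2 ^ s ∣ 2 ^ r' / 2 ^ s) (hd' : 2 ^ r' / 2 ^ s ∣ 2 ^ r' / 2 ^ s),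
      Ref (2 ^ r) (2 ^ r') (2 ^ s) hd b τ (1 / (2 * b2)) (cm * (2 ^ s / 2 ^ n)) Cm (e ^ v) ∧
      Ref (2 ^ r') (2 ^ r') (2 ^ s) hd' b τ (1 / (2 * b2)) (cm * (2 ^ s / 2 ^ n)) Cm (e ^ v) := by
  obtain ⟨W₀, cm, Cm, hcm, hCm, h0⟩ := kn_par hb1 b2
  refine ⟨W₀, cm, Cm, hcm, hCm, fun W hW => ?_⟩
  obtain ⟨ys, X, hys, hX, h1⟩ := h0 W hW
  refine ⟨ys, X, hys, hX, ?_⟩
  intro v th thp c1 A1 q0 hv hth hthp hc1 hc1t hA1 hsum
  have hρ0 : 0 < th + 4 * q0 * thp := by positivity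
  have hcD : 0 < 1 / b2 := by positivity
  obtain ⟨e1, he1, H⟩ := h1 (v + 3 * (th + 4 * q0 * thp)) th thp c1 A1 (1 / b2) q0 (by linarith)
    hth hthp hc1 hc1t hA1 hcD (by linarith)
  generalize hρ1 : th + 4 * q0 * thp = ρ1 at hsum hρ0 H
  have hCG0 : (0 : ℝ) < 2 ^ (1 + 4 * q0) := by positivity
  generalize hCG : (2 : ℝ) ^ (1 + 4 * q0) = CG at hCG0
  set c : ℝ := 1 / (2 * b2) with hc
  have hc0 : 0 < c := by positivity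
  have hcc : 1 / b2 / 2 = c := by
    rw [hc]
    field_simp
  obtain ⟨e2, he2, n2⟩ := sm_rpow (s := ρ1) (A := (2 + c) * ((1 + CG ^ 2 / (4 * c)) * 5)) hρ0 one_pos
  obtain ⟨e3, he3, n3⟩ := sm_rpow (s := v) (A := 1) hv (show (0 : ℝ) < 1 / 2 by norm_num)
  refine ⟨min (1 / 2) (min e1 (min e2 e3)), by positivity, ?_⟩
  intro P pth pthp pq0 pb1 pb2 pW pys pX b n s r r' e τ Y _ _ he heE hT hT' hR hR1 hR' hR1'
    hτ1 hτ2 hsn hn hdd hY hY' hYe hd hd'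
  simp only [le_min_iff] at heE
  obtain ⟨g0, g1, g2, g3⟩ := heE
  have he1 : e ≤ 1 := by linarith
  have f2 := n2 e he g2
  have f3 := n3 e he g3
  rw [one_mul] at f3
  obtain ⟨k1, k2, k3⟩ := H P pth pthp pq0 pb1 pb2 pW pys pX b n s r r' e τ Y he g1 hT hT' hR hR1 hR'
    hR1' hτ1 hτ2 hsn hn hdd hY hY' hYe
  have hbb : b1 ≤ b ∧ b ≤ b2 := by
    have h1 := hR.hb1
    have h2 := hR.hb2
    rw [pb1] at h1
    rw [pb2] at h2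
    exact ⟨h1, h2⟩
  have hb : 0 < b := lt_of_lt_of_le hb1 hbb.1
  have hτ : 0 < τ := (H972.tn_pos n).trans_le hτ1
  have hG := TT_pow he he1 hT
  have hG' := TT_pow he he1 hT'
  rw [pth, pthp, pq0, hρ1, hCG] at hG hG'
  have hsr : s ≤ r := hsn.trans ((Nat.le_add_right _ _).trans hT.1)
  have hsr' : s ≤ r' := hsn.trans ((Nat.le_add_right _ _).trans hT'.1)
  have hnr : n ≤ r := (Nat.le_add_right _ _).trans hT.1
  have hDw : ∀ r : ℕ, s ≤ r → ∀ [NeZero (2 ^ r / 2 ^ s)],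
      Dom (acl (2 ^ r) (2 ^ s) b τ τ) (τ * ((2 ^ s : ℕ) : ℝ) ^ 2) (1 / b2) := by
    intro r hsr _
    refine H692.Dom.weak (H375.dom_acl hb (pow_dvd_pow 2 hsr) hτ le_rfl) hcD ?_
    exact one_div_le_one_div_of_le hb hbb.2
  obtain ⟨m1, m2⟩ := nrs_pow k1 he he1 hc1.le hb.le hτ hτ2 hcm hsr hsr' hnr k3 k2 (hDw r hsr)
    (hDw r' hsr') hd hd'
  rw [hcc] at m1 m2
  -- the numbers
  have e5 : ∀ r : ℕ, s ≤ r → ((2 ^ r / 2 ^ s : ℕ) : ℝ) ^ 2 = 4 ^ r / 4 ^ s := by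
    intro r hsr
    rw [Nat.cast_div (pow_dvd_pow 2 hsr) (by positivity), div_pow, four_sq, four_sq]
    push_cast
    rfl
  have key : ∀ r : ℕ, s ≤ r → (2 : ℝ) ^ r / 2 ^ n ≤ CG * e ^ (-ρ1) →
      (2 + c) * ((1 + τ * ((2 ^ s : ℕ) : ℝ) ^ 2 * ((2 ^ r / 2 ^ s : ℕ) : ℝ) ^ 2 / (16 * c)) *
        (((2 ^ r / 2 ^ s : ℕ) : ℝ) ^ 2 * (5 * e ^ (v + 3 * ρ1) * (4 ^ s / 4 ^ r)))) ≤ e ^ v := by
    intro r hsr hr
    rw [e5 r hsr]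
    have a1 : (4 : ℝ) ^ r / 4 ^ s * (5 * e ^ (v + 3 * ρ1) * (4 ^ s / 4 ^ r)) =
        5 * e ^ (v + 3 * ρ1) := by
      field_simp
    have a2 : τ * ((2 ^ s : ℕ) : ℝ) ^ 2 * ((4 : ℝ) ^ r / 4 ^ s) ≤ 4 * (CG * e ^ (-ρ1)) ^ 2 := by
      have b1 : ((2 ^ s : ℕ) : ℝ) ^ 2 = 4 ^ s := by
        rw [four_sq]
        push_cast
        rfl
      have b2 : τ * ((2 ^ s : ℕ) : ℝ) ^ 2 * ((4 : ℝ) ^ r / 4 ^ s) = τ * 4 ^ r := by
        rw [b1]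
        field_simp
      rw [b2]
      calc τ * 4 ^ r ≤ 4 * tn n * 4 ^ r := mul_le_mul_of_nonneg_right hτ2 (by positivity)
        _ = 4 * ((2 : ℝ) ^ r / 2 ^ n) ^ 2 := by
          unfold H972.tn
          rw [div_pow, ← four_sq, ← four_sq]
          field_simp
        _ ≤ _ := by gcongr
    have hp1 : 1 ≤ (e ^ (-ρ1)) ^ 2 := by
      have : 1 ≤ e ^ (-ρ1) := Real.one_le_rpow_of_pos_of_le_one_of_nonpos he he1 (by linarith)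
      exact one_le_pow₀ this
    have a3 : 1 + τ * ((2 ^ s : ℕ) : ℝ) ^ 2 * ((4 : ℝ) ^ r / 4 ^ s) / (16 * c) ≤
        (1 + CG ^ 2 / (4 * c)) * (e ^ (-ρ1)) ^ 2 := by
      have b3 : τ * ((2 ^ s : ℕ) : ℝ) ^ 2 * ((4 : ℝ) ^ r / 4 ^ s) / (16 * c) ≤
          4 * (CG * e ^ (-ρ1)) ^ 2 / (16 * c) := div_le_div_of_nonneg_right a2 (by positivity)
      have b4 : 4 * (CG * e ^ (-ρ1)) ^ 2 / (16 * c) = CG ^ 2 / (4 * c) * (e ^ (-ρ1)) ^ 2 := by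
        field_simp
        ring
      rw [b4] at b3
      rw [add_mul, one_mul]
      linarith
    have a4 : (e ^ (-ρ1)) ^ 2 * e ^ (v + 3 * ρ1) = e ^ ρ1 * e ^ v := by
      rw [pw_two he, ← Real.rpow_add he, ← Real.rpow_add he]
      congr 1
      ring
    rw [a1]
    calc (2 + c) * ((1 + τ * ((2 ^ s : ℕ) : ℝ) ^ 2 * ((4 : ℝ) ^ r / 4 ^ s) / (16 * c)) *
          (5 * e ^ (v + 3 * ρ1)))
        ≤ (2 + c) * (((1 + CG ^ 2 / (4 * c)) * (e ^ (-ρ1)) ^ 2) * (5 * e ^ (v + 3 * ρ1))) := by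
          gcongr
      _ = (2 + c) * ((1 + CG ^ 2 / (4 * c)) * 5) * ((e ^ (-ρ1)) ^ 2 * e ^ (v + 3 * ρ1)) := by ring
      _ = (2 + c) * ((1 + CG ^ 2 / (4 * c)) * 5) * e ^ ρ1 * e ^ v := by
          rw [a4]
          ring
      _ ≤ 1 * e ^ v := mul_le_mul_of_nonneg_right f2 (Real.rpow_nonneg he.le _)
      _ = _ := one_mul _
  have half : ∀ x : ℝ, 0 ≤ x → (2 + c) * x ≤ e ^ v → x ≤ 1 / 2 := by
    intro x hx h
    have h1 : 1 * x ≤ (2 + c) * x := mul_le_mul_of_nonneg_right (by linarith) hx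
    linarith
  have fin : ∀ (r : ℕ) [NeZero (2 ^ r / 2 ^ s)] (hd : 2 ^ r / 2 ^ s ∣ 2 ^ r' / 2 ^ s), s ≤ r →
      (2 : ℝ) ^ r / 2 ^ n ≤ CG * e ^ (-ρ1) →
      Nrs hd (acl (2 ^ r) (2 ^ s) b τ τ) (A3 (2 ^ r') (2 ^ s) b τ) (τ * ((2 ^ s : ℕ) : ℝ) ^ 2)
        c (cm * (2 ^ s / 2 ^ n)) Cm (5 * e ^ (v + 3 * ρ1) * (4 ^ s / 4 ^ r)) →
      Ref (2 ^ r) (2 ^ r') (2 ^ s) hd b τ c (cm * (2 ^ s / 2 ^ n)) Cm (e ^ v) := by
    intro r _ hd hsr hr m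
    have hk := key r hsr hr
    refine ref_of m (half _ ?_ hk) hk
    have : 0 ≤ e ^ (v + 3 * ρ1) := Real.rpow_nonneg he.le _
    positivity
  exact ⟨fin r hd hsr hG m1, fin r' hd' hsr' hG' m2⟩

end

end Vale.Agent.P159.H767
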