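import Vale.Agent.P159.H767.Cvp6

/-!
P159, module CVP: the part `m < T` of the series of `Γ` as a polynomial of `S = 1 - A/ν`, and (E0)
from entrywise bounds of the powers of `S`.
-/

set_option linter.unusedSectionVars false

namespace Vale.Agent.P159.H767

open Finset Matrix
open Vale.Agent.P159.TM.Spec (V)
open Vale.Agent.P159.H864 (TI sym fc mlt)
open Vale.Agent.P159.H462 (Dom)

noncomputable section

variable {N : ℕ} [NeZero N] {A : Matrix (V N) (V N) ℝ} {ν c s : ℝ} {T : ℕ}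

theorem lT_eq (hs : 0 < s) (hν : 0 < ν) {x : ℝ} (hx : 0 ≤ x) :
    lT s ν T x = (ν + s⁻¹)⁻¹ * ∑ m ∈ range T, ((ν - x) / (ν + s⁻¹)) ^ m := by
  unfold lT gT
  set q : ℝ := (ν - x) / (ν + s⁻¹) with hq
  have hs' : 0 < s⁻¹ := inv_pos.2 hs
  have h1 : 0 < ν + s⁻¹ := by positivity
  have h2 : 0 < x + s⁻¹ := by positivity
  have e1 : s * (1 + s * x)⁻¹ = (x + s⁻¹)⁻¹ := by
    have : 0 < 1 + s * x := by positivity
    field_simp
    ring
  have e2 : 1 - q = (x + s⁻¹) / (ν + s⁻¹) := by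
    rw [hq]
    field_simp
    ring
  have e3 : (∑ m ∈ range T, q ^ m) * (1 - q) = 1 - q ^ T := by
    have := geom_sum_mul q T
    linarith
  rw [e2] at e3
  have e4 : ∑ m ∈ range T, q ^ m = (1 - q ^ T) * ((ν + s⁻¹) / (x + s⁻¹)) := by
    rw [← e3]
    field_simp
  rw [e1, e4]
  field_simp

/-- the kernel of the part `m < T` -/
theorem fc_lT (h : Dom A ν c) (hs : 0 < s) :
    fc (lT s ν T) A = (ν + s⁻¹)⁻¹ • ∑ m ∈ range T,
      (ν / (ν + s⁻¹)) ^ m • ((1 : Matrix (V N) (V N) ℝ) - ν⁻¹ • A) ^ m := by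
  have hν := h.hν
  have hS : TI ((1 : Matrix (V N) (V N) ℝ) - ν⁻¹ • A) := TI.one.sub (h.ti.smul _)
  refine H864.sym_inj (H864.ti_fc _ _)
    ((TI.sum _ fun m _ => (hS.pow m).smul _).smul _) fun k => ?_
  rw [H864.sym_fc, lT_eq hs hν (h.nn k), H864.sym_smul, H864.sym_sum]
  congr 1
  refine Finset.sum_congr rfl fun m _ => ?_
  rw [H864.sym_smul, H864.sym_pow hS, H864.sym_sub, H864.sym_one, H864.sym_smul, ← mul_pow]
  congr 1
  field_simp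

/-- **(E0) from the powers of `S`** -/
theorem e0_of_pow {n1 n2 : ℕ} [NeZero n1] [NeZero n2] {A1 : Matrix (V n1) (V n1) ℝ}
    {A2 : Matrix (V n2) (V n2) ℝ} (h1 : Dom A1 ν c) (h2 : Dom A2 ν c) (hs : 0 < s) {z : ℤ × ℤ}
    {δ : ℕ → ℝ} (hz : ∀ m < T, |(((1 : Matrix (V n2) (V n2) ℝ) - ν⁻¹ • A2) ^ m) 0 (pt n2 z) -
      (((1 : Matrix (V n1) (V n1) ℝ) - ν⁻¹ • A1) ^ m) 0 (pt n1 z)| ≤ δ m) :
    |fc (lT s ν T) A2 0 (pt n2 z) - fc (lT s ν T) A1 0 (pt n1 z)| ≤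
      (ν + s⁻¹)⁻¹ * ∑ m ∈ range T, δ m := by
  have hν := h1.hν
  have hs' : 0 < s⁻¹ := inv_pos.2 hs
  have h0 : 0 < ν + s⁻¹ := by positivity
  rw [fc_lT h1 hs, fc_lT h2 hs]
  simp only [Matrix.smul_apply, Matrix.sum_apply, smul_eq_mul]
  rw [← mul_sub, ← Finset.sum_sub_distrib, abs_mul, abs_of_pos (inv_pos.2 h0)]
  refine mul_le_mul_of_nonneg_left ?_ (inv_pos.2 h0).le
  refine (Finset.abs_sum_le_sum_abs _ _).trans (Finset.sum_le_sum fun m hm => ?_)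
  rw [← mul_sub, abs_mul]
  have h3 : |(ν / (ν + s⁻¹)) ^ m| ≤ 1 := by
    rw [abs_of_nonneg (by positivity)]
    refine pow_le_one₀ (by positivity) ?_
    rw [div_le_one h0]
    linarith
  have h4 := hz m (Finset.mem_range.1 hm)
  calc _ ≤ 1 * |(((1 : Matrix (V n2) (V n2) ℝ) - ν⁻¹ • A2) ^ m) 0 (pt n2 z) -
      (((1 : Matrix (V n1) (V n1) ℝ) - ν⁻¹ • A1) ^ m) 0 (pt n1 z)| :=
        mul_le_mul_of_nonneg_right h3 (abs_nonneg _)
    _ ≤ δ m := by rwa [one_mul]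

end

end Vale.Agent.P159.H767
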