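import Vale.Agent.P159.H37.Spec0L
import Vale.Agent.P159.TM.H41.Ker

/-!
P159, module VOL (helper767): bridge between the language file and the kernels of the first
project: `Gt N b (1 / ξ ^ 2) z = H41.G b N ξ z`.
-/

namespace Vale.Agent.P159.H767

open Finset
open Vale.Agent.P159.H37 (qf re wM wt Gt Ght Pik Cm Gm)
open Vale.Agent.P159.TM.H104 (bw mf co Cf Cf_eq mf_zero Ex Cv)
open Vale.Agent.P159.TM.H870 (gr)
open Vale.Agent.P159.TM.SpecC (Tor wT ms)

noncomputable section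

variable (N : ℕ) [NeZero N]

lemma wt_eq_bw (b ξ : ℝ) : wt N b (1 / ξ ^ 2) = bw (wT b N) (ms ξ) := by
  funext h
  unfold wt wM bw gr
  rw [H37.qf_smul_one]
  congr 2
  rw [mul_div_right_comm, Finset.mul_sum]
  congr 1
  refine Finset.sum_congr rfl fun x _ => ?_
  simp only [re, ms, Pi.zero_apply, sub_zero]

lemma Gt_eq (b ξ : ℝ) (z : Tor N) : Gt N b (1 / ξ ^ 2) z = TM.H41.G b N ξ z := by
  unfold Gt Gm Cm TM.H41.G
  rw [Cf_eq, wt_eq_bw, mf_zero]
  rfl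

lemma Gt_eq' (b : ℝ) {t : ℝ} (ht : 0 < t) (z : Tor N) :
    Gt N b t z = TM.H41.G b N (1 / Real.sqrt t) z := by
  rw [← Gt_eq]
  congr 1
  rw [div_pow, Real.sq_sqrt ht.le]
  simp

lemma Ght_eq (b ξ : ℝ) (k : Tor N) :
    Ght N b (1 / ξ ^ 2) k = TM.H764.Gh (TM.H41.G b N ξ) k := by
  unfold Ght
  congr 1
  funext z
  exact Gt_eq N b ξ z

end

end Vale.Agent.P159.H767
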