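import Vale.Agent.P159.H767.Cvp3

/-!
P159, module torg_mass (462, row 4102), abstract part: a centred Gaussian law whose covariance grows
(`B₂ B₂ᵀ ≤ B₁ B₁ᵀ`, `B₂ B₂ᵀ ≥ g`, trace of the difference at most `δ`): for `f ≥ 0`
`E f(B₂ g) ≤ exp(δ/(2 g)) E f(B₁ g)`, no additive error.
-/

namespace Vale.Agent.P159.H767

open MeasureTheory Finset Matrix
open Vale.Agent.P159.H37 (gau qf)
open Vale.Agent.P159.H552 (dn dnp)

noncomputable section

variable {I I' J : Type*} [Fintype I] [Fintype I'] [Fintype J]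

lemma dn_ge {a : ℝ} (ha : 0 ≤ a) (x : ℝ) : Real.exp (-(a / 2)) ≤ dn a x := by
  unfold dn
  have h1 : √(1 + a) ≤ Real.exp (a / 2) := by
    rw [Real.sqrt_le_left (Real.exp_pos _).le, ← Real.exp_nat_mul]
    have := Real.add_one_le_exp a
    push_cast
    have e : 2 * (a / 2) = a := by ring
    rw [e]
    linarith
  have h2 : 0 < √(1 + a) := Real.sqrt_pos.2 (by linarith)
  have h3 : Real.exp (-(a / 2)) ≤ (√(1 + a))⁻¹ := by
    rw [Real.exp_neg]
    exact inv_anti₀ h2 h1
  have h4 : 1 ≤ Real.exp (a / (1 + a) * (x ^ 2 / 2)) := by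
    rw [Real.one_le_exp_iff]
    positivity
  calc Real.exp (-(a / 2)) = Real.exp (-(a / 2)) * 1 := (mul_one _).symm
    _ ≤ _ := mul_le_mul h3 h4 zero_le_one (inv_pos.2 h2).le

lemma dnp_ge {a : I → ℝ} (ha : ∀ i, 0 ≤ a i) (g : I → ℝ) :
    Real.exp (-((∑ i, a i) / 2)) ≤ dnp a g := by
  unfold dnp
  have e : Real.exp (-((∑ i, a i) / 2)) = ∏ i, Real.exp (-(a i / 2)) := by
    rw [← Real.exp_sum]
    congr 1
    rw [Finset.sum_neg_distrib, Finset.sum_div]
  rw [e]
  exact Finset.prod_le_prod (fun i _ => (Real.exp_pos _).le) fun i _ => dn_ge (ha i) _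

theorem diag_mono {a : I → ℝ} (ha : ∀ i, 0 ≤ a i) {f : (I → ℝ) → ℝ} (hf : Measurable f)
    (hf0 : ∀ g, 0 ≤ f g) {M : ℝ} (hfM : ∀ g, f g ≤ M) :
    ∫ g, f g ∂(gau I) ≤
      Real.exp ((∑ i, a i) / 2) * ∫ g, f (fun i => √(1 + a i) * g i) ∂(gau I) := by
  have ha1 : ∀ i, 0 < 1 + a i := fun i => by linarith [ha i]
  rw [H552.gau_scale ha1]
  have i1 : Integrable f (gau I) :=
    Integrable.of_bound (C := M) hf.aestronglyMeasurable
      (Filter.Eventually.of_forall fun g => by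
        rw [Real.norm_eq_abs, abs_of_nonneg (hf0 g)]
        exact hfM g)
  have i2 : Integrable (fun g => dnp a g * f g) (gau I) := by
    refine (H552.integrable_dnp ha1).mul_bdd (c := M) hf.aestronglyMeasurable
      (Filter.Eventually.of_forall fun g => ?_)
    rw [Real.norm_eq_abs, abs_of_nonneg (hf0 g)]
    exact hfM g
  have h1 : Real.exp (-((∑ i, a i) / 2)) * ∫ g, f g ∂(gau I) ≤ ∫ g, dnp a g * f g ∂(gau I) := by
    rw [← integral_const_mul]
    refine integral_mono (i1.const_mul _) i2 fun g => ?_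
    exact mul_le_mul_of_nonneg_right (dnp_ge ha g) (hf0 g)
  rw [Real.exp_neg, inv_mul_le_iff₀ (Real.exp_pos _)] at h1
  exact h1

/-- spectral form of a positive semidefinite matrix -/
lemma spec_psd [DecidableEq J] {H : Matrix J J ℝ} (hH : Hᵀ = H) (h0 : ∀ u, 0 ≤ qf H u) :
    ∃ (O : Matrix J J ℝ) (h : J → ℝ), O * Oᵀ = 1 ∧ Oᵀ * O = 1 ∧ H = O * diagonal h * Oᵀ ∧
      (∀ i, 0 ≤ h i) ∧ ∑ i, h i = trace H := by
  obtain ⟨O, h, h1, h2, h3, -⟩ := H552.spec_real hH
  have e3 : Oᵀ * H * O = diagonal h := by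
    rw [h3]
    calc Oᵀ * (O * diagonal h * Oᵀ) * O = (Oᵀ * O) * diagonal h * (Oᵀ * O) := by
          simp only [Matrix.mul_assoc]
      _ = _ := by rw [h2, Matrix.one_mul, Matrix.mul_one]
  refine ⟨O, h, h1, h2, h3, fun i => ?_, ?_⟩
  · have e4 := congrFun (congrFun e3 i) i
    rw [diagonal_apply_eq] at e4
    rw [← e4]
    have e5 : (Oᵀ * H * O) i i = qf H (fun x => O x i) := by
      simp only [qf, mul_apply, transpose_apply]
      rw [Finset.sum_comm]
      refine Finset.sum_congr rfl fun y _ => ?_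
      rw [Finset.sum_mul]
    rw [e5]
    exact h0 _
  · have e6 : trace H = trace (diagonal h) := by
      rw [h3, trace_mul_comm, ← Matrix.mul_assoc, h2, Matrix.one_mul]
    rw [e6, trace_diagonal]

/-- **one sided comparison of two centred Gaussian laws** -/
theorem law_mono [DecidableEq J] {B₁ : Matrix J I ℝ} {B₂ : Matrix J I' ℝ} {g δ : ℝ} (hg : 0 < g)
    (hlow : ∀ u : J → ℝ, g * ∑ x, u x ^ 2 ≤ qf (B₂ * B₂ᵀ) u)
    (hmono : ∀ u : J → ℝ, 0 ≤ qf (B₁ * B₁ᵀ - B₂ * B₂ᵀ) u)
    (htr : trace (B₁ * B₁ᵀ - B₂ * B₂ᵀ) ≤ δ) {f : (J → ℝ) → ℝ} (hf : Measurable f)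
    (hf0 : ∀ v, 0 ≤ f v) {M : ℝ} (hfM : ∀ v, f v ≤ M) :
    ∫ v, f (B₂ *ᵥ v) ∂(gau I') ≤
      Real.exp (δ / (2 * g)) * ∫ v, f (B₁ *ᵥ v) ∂(gau I) := by
  set P : Matrix J J ℝ := B₂ * B₂ᵀ with hPd
  set E : Matrix J J ℝ := B₁ * B₁ᵀ - P with hEd
  have hP : Pᵀ = P := by rw [hPd, transpose_mul, transpose_transpose]
  have hEt : Eᵀ = E := by
    rw [hEd, transpose_sub, transpose_mul, transpose_transpose, hP]
  obtain ⟨O, p, h1, h2, h3, -⟩ := H552.spec_real hP
  have qO : ∀ (X : Matrix J J ℝ) (i : J), (Oᵀ * X * O) i i = qf X (fun x => O x i) := by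
    intro X i
    simp only [qf, mul_apply, transpose_apply]
    rw [Finset.sum_comm]
    refine Finset.sum_congr rfl fun y _ => ?_
    rw [Finset.sum_mul]
  have hp : ∀ i, g ≤ p i := by
    intro i
    have h := hlow (fun x => O x i)
    have e1 : ∑ x, O x i ^ 2 = 1 := by
      have := congrFun (congrFun h2 i) i
      rw [mul_apply, one_apply_eq] at this
      simpa [transpose_apply, pow_two] using this
    have e2 : qf P (fun x => O x i) = p i := by
      rw [← qO]
      have e3 : Oᵀ * P * O = diagonal p := by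
        rw [h3]
        calc Oᵀ * (O * diagonal p * Oᵀ) * O = (Oᵀ * O) * diagonal p * (Oᵀ * O) := by
              simp only [Matrix.mul_assoc]
          _ = _ := by rw [h2, Matrix.one_mul, Matrix.mul_one]
      rw [e3, diagonal_apply_eq]
    rwa [e1, e2, mul_one] at h
  have hp0 : ∀ i, 0 < p i := fun i => hg.trans_le (hp i)
  have hs0 : ∀ i, √(p i) ≠ 0 := fun i => (Real.sqrt_pos.2 (hp0 i)).ne'
  set D : Matrix J J ℝ := diagonal fun i => √(p i) with hD
  set D' : Matrix J J ℝ := diagonal fun i => (√(p i))⁻¹ with hD'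
  have hDD : D * D' = 1 := by
    rw [hD, hD', diagonal_mul_diagonal, ← diagonal_one]
    congr 1
    funext i
    exact mul_inv_cancel₀ (hs0 i)
  have hDD' : D' * D = 1 := mul_eq_one_comm.mp hDD
  have hDt : Dᵀ = D := by rw [hD, diagonal_transpose]
  have hDt' : D'ᵀ = D' := by rw [hD', diagonal_transpose]
  set K : Matrix J J ℝ := Oᵀ * E * O with hK
  have hKt : Kᵀ = K := by
    rw [hK, transpose_mul, transpose_mul, transpose_transpose, hEt]
    simp only [Matrix.mul_assoc]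
  set H : Matrix J J ℝ := D' * K * D' with hHd
  have hHt : Hᵀ = H := by
    rw [hHd, transpose_mul, transpose_mul, hKt, hDt']
    simp only [Matrix.mul_assoc]
  set B : Matrix J J ℝ := O * D with hB
  have hPB : P = B * Bᵀ := by
    rw [hB, transpose_mul, hDt, h3]
    have : (diagonal p : Matrix J J ℝ) = D * D := by
      rw [hD, diagonal_mul_diagonal]
      congr 1
      funext i
      rw [Real.mul_self_sqrt (hp0 i).le]
    rw [this]
    simp only [Matrix.mul_assoc]
  have hEB : E = B * H * Bᵀ := by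
    rw [hB, transpose_mul, hDt, hHd]
    calc E = (O * Oᵀ) * E * (O * Oᵀ) := by rw [h1, Matrix.one_mul, Matrix.mul_one]
      _ = O * K * Oᵀ := by
        rw [hK]
        simp only [Matrix.mul_assoc]
      _ = O * (D * D') * K * (D' * D) * Oᵀ := by rw [hDD, hDD', Matrix.mul_one, Matrix.mul_one]
      _ = _ := by simp only [Matrix.mul_assoc]
  have hH0 : ∀ u, 0 ≤ qf H u := by
    intro u
    have e : qf H u = qf E (O *ᵥ (D' *ᵥ u)) := by
      rw [H37.qf_eq, H37.qf_eq, hHd, hK]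
      have e1 : (D' * (Oᵀ * E * O) * D') *ᵥ u = D' *ᵥ (Oᵀ *ᵥ (E *ᵥ (O *ᵥ (D' *ᵥ u)))) := by
        simp only [mulVec_mulVec, Matrix.mul_assoc]
      rw [e1, dotProduct_mulVec u D', ← mulVec_transpose, hDt', dotProduct_mulVec _ Oᵀ,
        ← mulVec_transpose, transpose_transpose]
    rw [e]
    exact hmono _
  obtain ⟨O', h, k1, _, k3, k4, k5⟩ := spec_psd hHt hH0
  have hsum : (∑ i, h i) / 2 ≤ δ / (2 * g) := by
    have e1 : trace H = ∑ i, K i i / p i := by
      simp only [trace, diag_apply]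
      refine Finset.sum_congr rfl fun i _ => ?_
      rw [hHd, hD', mul_diagonal, diagonal_mul]
      have e9 : (√(p i))⁻¹ * (√(p i))⁻¹ = (p i)⁻¹ := by
        rw [← mul_inv, Real.mul_self_sqrt (hp0 i).le]
      calc (√(p i))⁻¹ * K i i * (√(p i))⁻¹ = K i i * ((√(p i))⁻¹ * (√(p i))⁻¹) := by ring
        _ = K i i / p i := by rw [e9, div_eq_mul_inv]
    have e2 : ∑ i, K i i / p i ≤ ∑ i, K i i / g := by
      refine Finset.sum_le_sum fun i _ => ?_
      refine div_le_div_of_nonneg_left ?_ hg (hp i)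
      rw [hK, qO]
      exact hmono _
    have e3 : ∑ i, K i i = trace E := by
      have : trace K = trace E := by
        rw [hK, trace_mul_comm, ← Matrix.mul_assoc, h1, Matrix.one_mul]
      rw [← this]
      rfl
    rw [k5, e1, div_le_div_iff₀ (by norm_num) (by positivity)]
    rw [← Finset.sum_div, e3] at e2
    have e4 : trace E / g ≤ δ / g := div_le_div_of_nonneg_right htr hg.le
    have e5 : (∑ i, K i i / p i) * g ≤ δ := by
      rw [← le_div_iff₀ hg]
      exact e2.trans e4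
    linarith
  set B' : Matrix J J ℝ := B * O' with hB'
  have l2 : B₂ * B₂ᵀ = B' * B'ᵀ := by
    rw [← hPd, hPB, hB', transpose_mul B O']
    calc B * Bᵀ = B * (O' * O'ᵀ) * Bᵀ := by rw [k1, Matrix.mul_one]
      _ = B * O' * (O'ᵀ * Bᵀ) := by simp only [Matrix.mul_assoc]
  have l1 : B₁ * B₁ᵀ = (B' * diagonal fun i => √(1 + h i)) *
      (B' * diagonal fun i => √(1 + h i))ᵀ := by
    have e1 : B₁ * B₁ᵀ = B * (1 + H) * Bᵀ := by
      rw [Matrix.mul_add, Matrix.mul_one, Matrix.add_mul, ← hPB, ← hEB, hEd]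
      abel
    have e2 : (1 : Matrix J J ℝ) + H
        = O' * diagonal (fun i => √(1 + h i)) * diagonal (fun i => √(1 + h i)) * O'ᵀ := by
      rw [Matrix.mul_assoc O', diagonal_mul_diagonal]
      have e : (diagonal fun i => √(1 + h i) * √(1 + h i)) = 1 + diagonal h := by
        rw [← diagonal_one, diagonal_add]
        congr 1
        funext i
        rw [Real.mul_self_sqrt (by linarith [k4 i])]
      rw [e, Matrix.mul_add, Matrix.mul_one, Matrix.add_mul, k1, ← k3]
    rw [e1, e2, hB', transpose_mul (B * O'), transpose_mul B O', diagonal_transpose]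
    simp only [Matrix.mul_assoc]
  rw [H552.gau_int_eq l2 hf, H552.gau_int_eq l1 hf]
  have e6 : ∀ v : J → ℝ, (B' * diagonal fun i => √(1 + h i)) *ᵥ v =
      B' *ᵥ fun i => √(1 + h i) * v i := by
    intro v
    rw [← mulVec_mulVec]
    congr 1
    funext i
    rw [mulVec_diagonal]
  simp only [e6]
  have hFm : Measurable fun v : J → ℝ => f (B' *ᵥ v) := hf.comp (H552.meas_mulVec B')
  refine (diag_mono k4 hFm (fun v => hf0 _) fun v => hfM _).trans ?_
  refine mul_le_mul_of_nonneg_right (Real.exp_le_exp.2 hsum) ?_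
  exact integral_nonneg fun v => hf0 _

end

end Vale.Agent.P159.H767
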