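import Vale.Agent.P159.H767.Nr4

/-!
P159, module NEAR (helper767), part 5: from pairs of cells to helper733's `Near`.

* `card_fib` : fibers of the projection of two tori;
* `fib_close` : kernels close on near pairs and small on far pairs are close after periodization;
* `near_acl` : `Near h (acl N) (A3 M)`, `near_rfl` : `Near rfl (acl M) (A3 M)`;
* `ent_acl` : the entrywise comparison (E) of the covariances of `acl N` and `acl M`.
-/

set_option linter.unusedSectionVars false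

namespace Vale.Agent.P159.H767

open Finset Matrix
open Vale.Agent.P159.H145 (OscZ mt)
open Vale.Agent.P159.H37 (wt Rs)
open Vale.Agent.P159.TM.H764 (EE cN sN dt)
open Vale.Agent.P159.TM.Spec (V)
open Vale.Agent.P159.TM.SpecC (Tor wT)
open Vale.Agent.P159.TM.H459 (sn sd)
open Vale.Agent.P159.TM.H705 (pt)
open Vale.Agent.P159.H864 (cl cl1 cl1_val TI sym cobV Gc)
open Vale.Agent.P159.H363 (acl ti_acl)
open Vale.Agent.P159.H612 (Sn Jm GA ti_GA GA_nonneg ti_Jm)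
open Vale.Agent.P159.H462 (Dom)
open Vale.Agent.P159.H733.Torg (av av_le_of_cast sn_eq prj prj_apply prj_ip ip ip_zero pz ti_pz
  per_pz dom_pz Per Near Stb ti_step sn_prj sym_step step_row step_nonneg Cv cv_cov eE cov TI_row)
open Vale.Agent.P159.H640

noncomputable section

section fib

variable {n m : ℕ} [NeZero n] [NeZero m]

/-- a lift -/
lemma prj_surj (h : n ∣ m) (z : V n) : prj h (ip m (z.1.valMinAbs, z.2.valMinAbs)) = z := by
  rw [prj_ip]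
  unfold ip
  rw [ZMod.coe_valMinAbs, ZMod.coe_valMinAbs]

/-- the fibers of the projection -/
lemma card_fib (h : n ∣ m) (z : V n) :
    ((univ.filter fun z2 : V m => prj h z2 = z).card : ℝ) * (n : ℝ) ^ 2 = (m : ℝ) ^ 2 := by
  classical
  have h1 : ∀ z : V n, (univ.filter fun z2 : V m => prj h z2 = z).card =
      (univ.filter fun z2 : V m => prj h z2 = 0).card := by
    intro z
    set w : V m := ip m (z.1.valMinAbs, z.2.valMinAbs) with hw
    refine Finset.card_bij (fun a _ => a - w) ?_ ?_ ?_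
    · intro a ha
      rw [Finset.mem_filter] at ha ⊢
      refine ⟨Finset.mem_univ _, ?_⟩
      rw [map_sub, ha.2, hw, prj_surj, sub_self]
    · intro a _ b _ hab
      exact sub_left_injective hab
    · intro b hb
      rw [Finset.mem_filter] at hb
      refine ⟨b + w, ?_, add_sub_cancel_right b w⟩
      rw [Finset.mem_filter]
      refine ⟨Finset.mem_univ _, ?_⟩
      rw [map_add, hb.2, hw, prj_surj, zero_add]
  have h2 : (Finset.univ : Finset (V m)).card =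
      ∑ z : V n, (univ.filter fun z2 : V m => prj h z2 = z).card :=
    Finset.card_eq_sum_card_fiberwise fun a _ => Finset.mem_coe.2 (Finset.mem_univ (prj h a))
  have h3 : ∑ z : V n, (univ.filter fun z2 : V m => prj h z2 = z).card =
      Fintype.card (V n) * (univ.filter fun z2 : V m => prj h z2 = 0).card := by
    rw [Finset.sum_congr rfl fun z _ => h1 z, Finset.sum_const, Finset.card_univ, smul_eq_mul]
  rw [h1 z]
  rw [h3, Finset.card_univ] at h2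
  have h4 : (Fintype.card (V m) : ℝ) = (Fintype.card (V n) : ℝ) *
      ((univ.filter fun z2 : V m => prj h z2 = 0).card : ℝ) := by exact_mod_cast h2
  rw [H963.cardV, H963.cardV] at h4
  linarith

lemma prj_pt (h : n ∣ m) (c : ℕ × ℕ) : prj h (pt m c) = pt n c := by
  rw [prj_apply]
  unfold TM.H705.pt
  simp

/-- **near and far pairs to fibers** -/
theorem fib_close (h : n ∣ m) {S1 : Matrix (V n) (V n) ℝ} {S2 : Matrix (V m) (V m) ℝ}
    (t1 : TI S1) (t2 : TI S2) (n1 : ∀ x y, 0 ≤ S1 x y) (n2 : ∀ x y, 0 ≤ S2 x y)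
    {S : Finset (ℕ × ℕ)} {q : ℕ × ℕ} (hinj : Set.InjOn (fun c => (pt n c : V n)) (S : Set (ℕ × ℕ)))
    {δ : ℝ} (hδ : 0 ≤ δ) (hnear : ∀ d ∈ S, |S1 (pt n q) (pt n d) - S2 (pt m q) (pt m d)| ≤ δ)
    (hf1 : ∀ c', c' ∉ S.image (pt n) → S1 (pt n q) c' ≤ δ)
    (hf2 : ∀ c', c' ∉ S.image (pt m) → S2 (pt m q) c' ≤ δ) (z : V n) :
    |S1 0 z - ∑ z2 ∈ univ.filter (fun z2 : V m => prj h z2 = z), S2 0 z2| ≤
      δ * (1 + (m : ℝ) ^ 2 / (n : ℝ) ^ 2) := by
  classical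
  have hn := H864.N_pos (N := n)
  have e1 : S1 0 z = S1 (pt n q) (pt n q + z) := by
    rw [t1.eq (pt n q), add_sub_cancel_left]
  have e2 : ∀ z2 : V m, S2 0 z2 = S2 (pt m q) (pt m q + z2) := fun z2 => by
    rw [t2.eq (pt m q), add_sub_cancel_left]
  set F : Finset (V m) := univ.filter (fun z2 : V m => prj h z2 = z) with hF
  have hcard : (F.card : ℝ) = (m : ℝ) ^ 2 / (n : ℝ) ^ 2 := by
    rw [eq_div_iff hn.ne']
    exact card_fib h z
  rw [← hcard]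
  have hmem : ∀ z2, z2 ∈ F ↔ prj h z2 = z := fun z2 => by
    rw [hF, Finset.mem_filter]
    exact ⟨fun h => h.2, fun h => ⟨Finset.mem_univ _, h⟩⟩
  by_cases hc : pt n q + z ∈ S.image (pt n)
  · obtain ⟨d, hd, hdz⟩ := Finset.mem_image.1 hc
    set zs : V m := pt m d - pt m q with hzs
    have hzsF : zs ∈ F := by
      rw [hmem, hzs, map_sub, prj_pt, prj_pt, hdz, add_sub_cancel_left]
    have h1 : ∑ z2 ∈ F, S2 0 z2 = S2 0 zs + ∑ z2 ∈ F.erase zs, S2 0 z2 :=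
      (Finset.add_sum_erase F (fun z2 => S2 0 z2) hzsF).symm
    have h2 : S2 0 zs = S2 (pt m q) (pt m d) := by
      rw [e2, hzs, add_sub_cancel]
    have h3 : ∀ z2 ∈ F.erase zs, S2 0 z2 ≤ δ := by
      intro z2 hz2
      rw [Finset.mem_erase] at hz2
      rw [e2]
      refine hf2 _ fun h4 => hz2.1 ?_
      obtain ⟨d', hd', hd'z⟩ := Finset.mem_image.1 h4
      have h5 : (pt n d' : V n) = pt n d := by
        rw [← prj_pt h d', hd'z, map_add, prj_pt, (hmem z2).1 hz2.2, hdz]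
      have h6 : d' = d := hinj (Finset.mem_coe.2 hd') (Finset.mem_coe.2 hd) h5
      rw [hzs, ← h6, hd'z, add_sub_cancel_left]
    have h4 : ∑ z2 ∈ F.erase zs, S2 0 z2 ≤ F.card * δ := by
      refine (Finset.sum_le_sum h3).trans ?_
      rw [Finset.sum_const, nsmul_eq_mul]
      refine mul_le_mul_of_nonneg_right ?_ hδ
      exact_mod_cast Finset.card_le_card (Finset.erase_subset _ _)
    have h5 : 0 ≤ ∑ z2 ∈ F.erase zs, S2 0 z2 := Finset.sum_nonneg fun z2 _ => n2 _ _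
    have h6 := abs_le.1 (hnear d hd)
    rw [h1, h2, e1, ← hdz, abs_le]
    constructor <;> nlinarith [h6.1, h6.2]
  · have h1 := hf1 _ hc
    have h3 : ∀ z2 ∈ F, S2 0 z2 ≤ δ := by
      intro z2 hz2
      rw [e2]
      refine hf2 _ fun h4 => hc ?_
      obtain ⟨d', hd', hd'z⟩ := Finset.mem_image.1 h4
      refine Finset.mem_image.2 ⟨d', hd', ?_⟩
      rw [← prj_pt h d', hd'z, map_add, prj_pt, (hmem z2).1 hz2]
    have h4 : ∑ z2 ∈ F, S2 0 z2 ≤ F.card * δ := by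
      refine (Finset.sum_le_sum h3).trans ?_
      rw [Finset.sum_const, nsmul_eq_mul]
    have h5 : 0 ≤ ∑ z2 ∈ F, S2 0 z2 := Finset.sum_nonneg fun z2 _ => n2 _ _
    have h6 := n1 (pt n q) (pt n q + z)
    have h7 : (0 : ℝ) ≤ F.card := Nat.cast_nonneg _
    rw [e1, abs_le]
    constructor <;> nlinarith

/-- periodization over the identity -/
lemma pz_rfl (h : n ∣ n) {A : Matrix (V n) (V n) ℝ} (hA : TI A) : pz h A = A := by
  have hp : ∀ z2 : V n, prj h z2 = z2 := by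
    intro z2
    have := prj_surj h z2
    have h2 : ip n (z2.1.valMinAbs, z2.2.valMinAbs) = z2 := by
      unfold ip
      rw [ZMod.coe_valMinAbs, ZMod.coe_valMinAbs]
    rwa [h2] at this
  ext x y
  unfold H733.Torg.pz
  rw [Matrix.of_apply]
  simp only [hp]
  rw [Finset.sum_filter, Finset.sum_ite_eq']
  simp only [Finset.mem_univ, if_true]
  rw [hA.eq x y]

lemma dom_half {A : Matrix (V n) (V n) ℝ} {ν c : ℝ} (h : Dom A ν c) : Dom A ν (c / 2) := by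
  have hν := h.hν
  have hc := h.hc
  refine ⟨h.ti, hν, by positivity, h.nn, h.le, h.zero, fun k => le_trans ?_ (h.ge k)⟩
  have hE := TM.H764.EE_nonneg k
  rw [div_le_div_iff₀ (by positivity) (by positivity)]
  have : 0 ≤ ν * (c / 2 * EE k) * (c * EE k) := by positivity
  nlinarith [mul_nonneg hν.le (mul_nonneg hc.le hE)]

end fib

section main

variable {N M l : ℕ} [NeZero N] [NeZero M] [NeZero (N / l)] [NeZero (M / l)] {b τ : ℝ}

/-- the periodized averaged kernel -/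
lemma step_pz (h : N / l ∣ M / l) (hb : 0 ≤ b) (hlM : l ∣ M) (hτ : 0 < τ) (z : V (N / l)) :
    ((1 : Matrix (V (N / l)) (V (N / l)) ℝ) - (τ * (l : ℝ) ^ 2)⁻¹ • pz h (A3 M l b τ)) 0 z =
      ∑ z2 ∈ univ.filter (fun z2 : V (M / l) => prj h z2 = z), Sg M l b τ 0 z2 := by
  have h1 : Per h (1 - (τ * (l : ℝ) ^ 2)⁻¹ • pz h (A3 M l b τ))
      (1 - (τ * (l : ℝ) ^ 2)⁻¹ • A3 M l b τ) :=
    Per.one.sub ((per_pz h (ti_A3 hb hlM hτ)).smul _)
  rw [h1.ker z, step_A3 hlM hτ]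

/-- the number `η` of `near_acl` -/
def etN (N M l : ℕ) (D δ : ℝ) : ℝ := 3 * D + 2 * (((N : ℝ) ^ 2 + (M : ℝ) ^ 2) / (l : ℝ) ^ 2) * δ

/-- **`Near` for `acl N` and the averaged form on the torus `M`** -/
theorem near_acl (h : N / l ∣ M / l) (hb : 0 ≤ b) (hlN : l ∣ N) (hlM : l ∣ M) (hτ : 0 < τ)
    {c κ C1 s δ : ℝ} (hD1 : Dom (acl N l b τ τ) (τ * (l : ℝ) ^ 2) c)
    (hD2 : Dom (acl M l b τ τ) (τ * (l : ℝ) ^ 2) c)
    (hs1 : s0 M b τ ≤ 1) (h4 : 3 / 4 ≤ s0 M b τ)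
    (hω : 4 * (1 - s0 M b τ) * (τ * (M : ℝ) ^ 2) ≤ 16 * c)
    (hκ : 0 < κ) (hmom : ∑ z, Sg M l b τ 0 z * Real.exp (κ * sn z) ≤ C1)
    {S : Finset (ℕ × ℕ)} {q : ℕ × ℕ}
    (hinj : Set.InjOn (fun c => (pt (N / l) c : V (N / l))) (S : Set (ℕ × ℕ)))
    (hδ : 0 ≤ δ) (hnear : ∀ d ∈ S, |Sk N l b τ (pt (N / l) q) (pt (N / l) d) -
      Sk M l b τ (pt (M / l) q) (pt (M / l) d)| ≤ δ)
    (hf1 : ∀ c', c' ∉ S.image (pt (N / l)) → Sk N l b τ (pt (N / l) q) c' ≤ δ)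
    (hf2 : ∀ c', c' ∉ S.image (pt (M / l)) → Sk M l b τ (pt (M / l) q) c' ≤ δ)
    (hs : ∀ z, Sk N l b τ 0 z ≤ s) (hs' : (l : ℝ) ^ 2 / (N : ℝ) ^ 2 ≤ s) :
    Near h (acl N l b τ τ) (A3 M l b τ) (τ * (l : ℝ) ^ 2) (c / 2) κ C1
      (etN N M l (1 - s0 M b τ) δ) s := by
  have hlp : (0 : ℝ) < l := by exact_mod_cast H864.l_pos hlN
  have hNp : (0 : ℝ) < N := by exact_mod_cast NeZero.pos N
  have hMp : (0 : ℝ) < M := by exact_mod_cast NeZero.pos M
  have hs0 : 0 < s0 M b τ := by linarith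
  have hdA := dom_A3 hb hlM hτ hD2 hs1 h4 hω
  set D : ℝ := 1 - s0 M b τ with hD
  have hD0 : 0 ≤ D := by linarith
  have hD4 : D ≤ 1 / 4 := by linarith
  set Q : ℝ := (((M / l : ℕ) : ℝ)) ^ 2 / (((N / l : ℕ) : ℝ)) ^ 2 with hQ
  have hn := H864.N_pos (N := N / l)
  have hQ0 : 0 ≤ Q := by positivity
  have hfc := fib_close h (ti_Sk hb hlN hτ) (ti_Sk hb hlM hτ) (Sk_nonneg hb hlN hτ)
    (Sk_nonneg hb hlM hτ) hinj hδ hnear hf1 hf2
  rw [← hQ] at hfc
  -- the averaged kernel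
  have hgk : ∀ z : V (N / l),
      |∑ z2 ∈ univ.filter (fun z2 : V (M / l) => prj h z2 = z), Sk M l b τ 0 z2 -
        ∑ z2 ∈ univ.filter (fun z2 : V (M / l) => prj h z2 = z), Sg M l b τ 0 z2| ≤
      D * (∑ z2 ∈ univ.filter (fun z2 : V (M / l) => prj h z2 = z), Sg M l b τ 0 z2 +
        (l : ℝ) ^ 2 / (N : ℝ) ^ 2) := by
    intro z
    rw [← Finset.sum_sub_distrib]
    refine (Finset.abs_sum_le_sum_abs _ _).trans ?_
    refine (Finset.sum_le_sum fun z2 _ => Sk_sub_Sg hb hlM hτ hs0 hs1 0 z2).trans (le_of_eq ?_)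
    rw [← Finset.mul_sum, Finset.sum_add_distrib]
    congr 2
    unfold Jc
    simp only [Matrix.of_apply]
    rw [Finset.sum_const, nsmul_eq_mul]
    have hc := card_fib h z
    have hcd : ((univ.filter fun z2 : V (M / l) => prj h z2 = z).card : ℝ) =
        (M : ℝ) ^ 2 / (N : ℝ) ^ 2 := by
      rw [eq_div_iff (by positivity)]
      have e1 : (N : ℝ) ^ 2 = (l : ℝ) ^ 2 * ((N / l : ℕ) : ℝ) ^ 2 := by
        rw [← mul_pow, ← H963.N_eq hlN]
      have e2 : (M : ℝ) ^ 2 = (l : ℝ) ^ 2 * ((M / l : ℕ) : ℝ) ^ 2 := by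
        rw [← mul_pow, ← H963.N_eq hlM]
      rw [e1, e2, ← hc]
      ring
    rw [hcd]
    field_simp
  have hpn : ∀ z : V (N / l),
      0 ≤ ∑ z2 ∈ univ.filter (fun z2 : V (M / l) => prj h z2 = z), Sg M l b τ 0 z2 :=
    fun z => Finset.sum_nonneg fun z2 _ => Sg_nonneg hb hτ hs0.le _ _
  have hp2 : ∀ z : V (N / l),
      ∑ z2 ∈ univ.filter (fun z2 : V (M / l) => prj h z2 = z), Sg M l b τ 0 z2 ≤
        2 * (Sk N l b τ 0 z + δ * (1 + Q)) := by
    intro z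
    have h1 : ∑ z2 ∈ univ.filter (fun z2 : V (M / l) => prj h z2 = z), Sg M l b τ 0 z2 ≤
        ∑ z2 ∈ univ.filter (fun z2 : V (M / l) => prj h z2 = z), 2 * Sk M l b τ 0 z2 :=
      Finset.sum_le_sum fun z2 _ => Sg_le hb hlM hτ (by linarith) hs1 0 z2
    rw [← Finset.mul_sum] at h1
    have h2 := (abs_le.1 (hfc z)).1
    linarith
  have hstep : ∀ z : V (N / l), |(1 - (τ * (l : ℝ) ^ 2)⁻¹ • acl N l b τ τ :
      Matrix (V (N / l)) (V (N / l)) ℝ) 0 z -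
      (1 - (τ * (l : ℝ) ^ 2)⁻¹ • pz h (A3 M l b τ) : Matrix (V (N / l)) (V (N / l)) ℝ) 0 z| ≤
      δ * (1 + Q) + D * (∑ z2 ∈ univ.filter (fun z2 : V (M / l) => prj h z2 = z), Sg M l b τ 0 z2 +
        (l : ℝ) ^ 2 / (N : ℝ) ^ 2) := by
    intro z
    rw [step_pz h hb hlM hτ]
    have h1 := hfc z
    have h2 := hgk z
    have e : (1 - (τ * (l : ℝ) ^ 2)⁻¹ • acl N l b τ τ : Matrix (V (N / l)) (V (N / l)) ℝ) 0 z =
        Sk N l b τ 0 z := rfl
    rw [e]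
    have h3 := abs_add_le (Sk N l b τ 0 z -
      ∑ z2 ∈ univ.filter (fun z2 : V (M / l) => prj h z2 = z), Sk M l b τ 0 z2)
      (∑ z2 ∈ univ.filter (fun z2 : V (M / l) => prj h z2 = z), Sk M l b τ 0 z2 -
      ∑ z2 ∈ univ.filter (fun z2 : V (M / l) => prj h z2 = z), Sg M l b τ 0 z2)
    rw [sub_add_sub_cancel] at h3
    linarith
  have hdp := dom_pz h hdA
  have e1 : (((N / l : ℕ) : ℝ)) ^ 2 = (N : ℝ) ^ 2 / (l : ℝ) ^ 2 := by
    rw [eq_div_iff (by positivity), H963.N_eq hlN]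
    ring
  have e2 : (((M / l : ℕ) : ℝ)) ^ 2 = (M : ℝ) ^ 2 / (l : ℝ) ^ 2 := by
    rw [eq_div_iff (by positivity), H963.N_eq hlM]
    ring
  have e3 : (((N / l : ℕ) : ℝ)) ^ 2 * (1 + Q) = ((N : ℝ) ^ 2 + (M : ℝ) ^ 2) / (l : ℝ) ^ 2 := by
    rw [hQ, mul_add, mul_div_cancel₀ _ hn.ne', mul_one, e1, e2]
    ring
  refine ⟨dom_half hD1, hdA, ?_, hκ, ?_, ?_⟩
  · intro z hz
    unfold A3
    rw [Matrix.smul_apply, Matrix.sub_apply, Matrix.one_apply_ne (Ne.symm hz), smul_eq_mul, zero_sub]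
    have h1 := Sg_nonneg (l := l) hb hτ hs0.le 0 z
    have : 0 ≤ τ * (l : ℝ) ^ 2 * Sg M l b τ 0 z := by positivity
    linarith
  · rw [step_A3 hlM hτ]
    exact hmom
  · refine ⟨ti_step hD1.ti _, ti_step hdp.ti _, fun x y => Sk_nonneg hb hlN hτ x y, ?_,
      step_row hD1, step_row hdp, ?_, ?_, fun z => hs z⟩
    · intro x y
      rw [(ti_step hdp.ti _).eq, step_pz h hb hlM hτ]
      exact hpn _
    · -- l1
      refine (Finset.sum_le_sum fun z _ => hstep z).trans ?_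
      rw [Finset.sum_add_distrib, Finset.sum_const, Finset.card_univ, nsmul_eq_mul, H963.cardV,
        ← Finset.mul_sum, Finset.sum_add_distrib, Finset.sum_fiberwise, Sg_row hb hlM hτ hs0,
        Finset.sum_const, Finset.card_univ, nsmul_eq_mul, H963.cardV]
      have e4 : (((N / l : ℕ) : ℝ)) ^ 2 * ((l : ℝ) ^ 2 / (N : ℝ) ^ 2) = 1 := by
        rw [e1]
        field_simp
      rw [e4]
      have e5 : (((N / l : ℕ) : ℝ)) ^ 2 * (δ * (1 + Q)) =
          ((N : ℝ) ^ 2 + (M : ℝ) ^ 2) / (l : ℝ) ^ 2 * δ := by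
        rw [← e3]
        ring
      rw [e5]
      unfold etN
      have : 0 ≤ ((N : ℝ) ^ 2 + (M : ℝ) ^ 2) / (l : ℝ) ^ 2 * δ := by positivity
      linarith
    · intro z
      refine (hstep z).trans ?_
      have h1 := hp2 z
      have h2 := hs z
      have h3 : δ * (1 + Q) ≤ ((N : ℝ) ^ 2 + (M : ℝ) ^ 2) / (l : ℝ) ^ 2 * δ * s := by
        have h4 : 1 ≤ (((N / l : ℕ) : ℝ)) ^ 2 * s := by
          rw [e1]
          calc (1 : ℝ) = (N : ℝ) ^ 2 / (l : ℝ) ^ 2 * ((l : ℝ) ^ 2 / (N : ℝ) ^ 2) := by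
                field_simp
            _ ≤ _ := mul_le_mul_of_nonneg_left hs' (by positivity)
        have h5 : 0 ≤ δ * (1 + Q) := by positivity
        calc δ * (1 + Q) ≤ δ * (1 + Q) * ((((N / l : ℕ) : ℝ)) ^ 2 * s) :=
              le_mul_of_one_le_right h5 h4
          _ = _ := by
            rw [← e3]
            ring
      unfold etN
      have h6 : 0 ≤ δ * (1 + Q) := by positivity
      have h7 : D * (∑ z2 ∈ univ.filter (fun z2 : V (M / l) => prj h z2 = z), Sg M l b τ 0 z2 +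
          (l : ℝ) ^ 2 / (N : ℝ) ^ 2) ≤ D * (2 * (s + δ * (1 + Q)) + s) :=
        mul_le_mul_of_nonneg_left (by linarith) hD0
      have h8 : D * (2 * (δ * (1 + Q))) ≤ 1 / 4 * (2 * (δ * (1 + Q))) :=
        mul_le_mul_of_nonneg_right hD4 (by positivity)
      nlinarith

/-- **`Near` on one torus**: `acl M` and its averaged form -/
theorem near_rfl (h : M / l ∣ M / l) (hb : 0 ≤ b) (hlM : l ∣ M) (hτ : 0 < τ) {c κ C1 s : ℝ}
    (hD2 : Dom (acl M l b τ τ) (τ * (l : ℝ) ^ 2) c)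
    (hs1 : s0 M b τ ≤ 1) (h4 : 3 / 4 ≤ s0 M b τ)
    (hω : 4 * (1 - s0 M b τ) * (τ * (M : ℝ) ^ 2) ≤ 16 * c)
    (hκ : 0 < κ) (hmom : ∑ z, Sg M l b τ 0 z * Real.exp (κ * sn z) ≤ C1)
    (hs : ∀ z, Sk M l b τ 0 z ≤ s) (hs' : (l : ℝ) ^ 2 / (M : ℝ) ^ 2 ≤ s) :
    Near h (acl M l b τ τ) (A3 M l b τ) (τ * (l : ℝ) ^ 2) (c / 2) κ C1
      (3 * (1 - s0 M b τ)) s := by
  have hlp : (0 : ℝ) < l := by exact_mod_cast H864.l_pos hlM
  have hMp : (0 : ℝ) < M := by exact_mod_cast NeZero.pos M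
  have hs0 : 0 < s0 M b τ := by linarith
  have hdA := dom_A3 hb hlM hτ hD2 hs1 h4 hω
  set D : ℝ := 1 - s0 M b τ with hD
  have hD0 : 0 ≤ D := by linarith
  refine ⟨dom_half hD2, hdA, ?_, hκ, ?_, ?_⟩
  · intro z hz
    unfold A3
    rw [Matrix.smul_apply, Matrix.sub_apply, Matrix.one_apply_ne (Ne.symm hz), smul_eq_mul, zero_sub]
    have h1 := Sg_nonneg (l := l) hb hτ hs0.le 0 z
    have : 0 ≤ τ * (l : ℝ) ^ 2 * Sg M l b τ 0 z := by positivity
    linarith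
  · rw [step_A3 hlM hτ]
    exact hmom
  · rw [pz_rfl h (ti_A3 hb hlM hτ), step_A3 hlM hτ]
    have hj : ∀ z, Jc M l 0 z = (l : ℝ) ^ 2 / (M : ℝ) ^ 2 := fun z => rfl
    refine ⟨ti_step hD2.ti _, ti_Sg hb hlM hτ, fun x y => Sk_nonneg hb hlM hτ x y,
      Sg_nonneg hb hτ hs0.le, step_row hD2, Sg_row hb hlM hτ hs0, ?_, ?_, fun z => hs z⟩
    · refine (Finset.sum_le_sum fun z _ => Sk_sub_Sg hb hlM hτ hs0 hs1 0 z).trans ?_
      rw [← Finset.mul_sum, Finset.sum_add_distrib, Sg_row hb hlM hτ hs0, Jc_row hlM]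
      linarith
    · intro z
      refine (Sk_sub_Sg hb hlM hτ hs0 hs1 0 z).trans ?_
      have h1 := Sg_le hb hlM hτ (by linarith) hs1 0 z
      have h2 := hs z
      rw [hj]
      calc D * (Sg M l b τ 0 z + (l : ℝ) ^ 2 / (M : ℝ) ^ 2) ≤ D * (2 * s + s) :=
            mul_le_mul_of_nonneg_left (by linarith) hD0
        _ = _ := by ring

/-- **(E) for `acl N` and `acl M`** -/
theorem ent_two {A : Matrix (V (N / l)) (V (N / l)) ℝ} {A' B : Matrix (V (M / l)) (V (M / l)) ℝ}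
    {h : N / l ∣ M / l} {h' : M / l ∣ M / l} {ν c κ C1 η η' s s' : ℝ}
    (hN : Near h A B ν c κ C1 η s) (hM : Near h' A' B ν c κ C1 η' s') {β : ℝ} (hβ : 0 ≤ β)
    {m : ℕ} (hm : 1 ≤ m) {K : Matrix (V (N / l)) (V (N / l)) ℝ}
    {K2 : Matrix (V (M / l)) (V (M / l)) ℝ} (hK : Cv β A K) (hK2 : Cv β A' K2) {D : ℕ}
    (hD : 2 * D ≤ N / l) {ζ : ℤ × ℤ} (h1 : ζ.1.natAbs ≤ D) (h2 : ζ.2.natAbs ≤ D) :
    |(K2 0 (ip (M / l) ζ) - K2 0 0) - (K 0 (ip (N / l) ζ) - K 0 0)| ≤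
      eE ν c κ C1 η s β (N / l) m D + eE ν c κ C1 η' s' β (M / l) m D := by
  have hle : N / l ≤ M / l := Nat.le_of_dvd (NeZero.pos (M / l)) h
  have k1 := abs_le.1 (hN.ent hβ hm hK (cv_cov β B) hD h1 h2)
  have k2 := abs_le.1 (hM.ent hβ hm hK2 (cv_cov β B) (hD.trans hle) h1 h2)
  rw [abs_le]
  constructor <;> linarith [k1.1, k1.2, k2.1, k2.2]

end main

end

end Vale.Agent.P159.H767
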