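import Vale.Agent.P159.H767.Nr6
import Vale.Agent.P159.H708.Wl6
import Vale.Agent.P159.H733.Vt5

/-!
P159, module NEAR (helper767), part 7: the step kernels in the range of the cluster theorems.

* `KN` : all that the comparison of the step kernels on two tori needs; `kernels`;
* `KN.near`, `KN.nearM`, `KN.pr` : helper733's `Near`, `Pr`; `KN.nrs`, `KN.nrsM` : helper708's `Nrs`.
-/

set_option linter.unusedSectionVars false

namespace Vale.Agent.P159.H767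

open Finset Matrix
open Vale.Agent.P159.H37 (wt)
open Vale.Agent.P159.H145 (OscZ mt)
open Vale.Agent.P159.TM.Spec (V Rng)
open Vale.Agent.P159.TM.SpecC (Tor wT)
open Vale.Agent.P159.TM.H459 (sn sd)
open Vale.Agent.P159.TM.H705 (pt)
open Vale.Agent.P159.H864 (TI yt)
open Vale.Agent.P159.H363 (acl)
open Vale.Agent.P159.H462 (Dom)
open Vale.Agent.P159.H612 (GA)
open Vale.Agent.P159.H733.Torg (Near Stb)
open Vale.Agent.P159.H640

noncomputable section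

/-! ### monotonicity -/

section mono

variable {N M : ℕ} [NeZero N] [NeZero M]

lemma stb_mono {S S' : Matrix (V N) (V N) ℝ} {η s η' s' : ℝ} (h : Stb S S' η s) (hη : η ≤ η')
    (hs : s ≤ s') : Stb S S' η' s' := by
  have hη0 : 0 ≤ η := (Finset.sum_nonneg fun _ _ => abs_nonneg _).trans h.l1
  have hs0 : 0 ≤ s := (h.nn 0 0).trans (h.le 0)
  exact ⟨h.ti, h.ti', h.nn, h.nn', h.row, h.row', h.l1.trans hη,
    fun z => (h.sup z).trans (mul_le_mul hη hs hs0 (hη0.trans hη)), fun z => (h.le z).trans hs⟩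

lemma near_mono {h : N ∣ M} {A : Matrix (V N) (V N) ℝ} {A3 : Matrix (V M) (V M) ℝ}
    {ν c κ C1 η s C1' η' s' : ℝ} (hN : Near h A A3 ν c κ C1 η s) (hC : C1 ≤ C1') (hη : η ≤ η')
    (hs : s ≤ s') : Near h A A3 ν c κ C1' η' s' :=
  ⟨hN.dom, hN.dom2, hN.off2, hN.kp, hN.mom.trans hC, stb_mono hN.stb hη hs⟩

lemma nrs_mono {h : N ∣ M} {A : Matrix (V N) (V N) ℝ} {A3 : Matrix (V M) (V M) ℝ}
    {ν c κ C1 σ C1' σ' : ℝ} (hN : H708.Nrs h A A3 ν c κ C1 σ) (hC : C1 ≤ C1') (hσ : σ ≤ σ') :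
    H708.Nrs h A A3 ν c κ C1' σ' :=
  ⟨hN.dom, hN.dom2, hN.off2, hN.kp, hN.mom.trans hC, hN.nn, fun z => (hN.sup z).trans hσ⟩

end mono

/-! ### the data -/

/-- the step kernels of the cells of two tori: distance, maximum, mass and exponential moments of
the averaged kernels -/
structure KN (N M l : ℕ) [NeZero N] [NeZero M] [NeZero (N / l)] [NeZero (M / l)]
    (b τ δ s κ C1 d : ℝ) : Prop where
  cl : Cl2 N M l b τ δ
  supN : ∀ x y : V (N / l), Sk N l b τ x y ≤ s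
  supM : ∀ x y : V (M / l), Sk M l b τ x y ≤ s
  lowN : 1 - d ≤ s0 N b τ
  lowM : 1 - d ≤ s0 M b τ
  momN : ∑ z, Sg N l b τ 0 z * Real.exp (κ * sn z) ≤ C1
  momM : ∑ z, Sg M l b τ 0 z * Real.exp (κ * sn z) ≤ C1

lemma Cl2.symm {N M l : ℕ} [NeZero N] [NeZero M] [NeZero (N / l)] [NeZero (M / l)] {b τ δ : ℝ}
    (h : Cl2 N M l b τ δ) : Cl2 M N l b τ δ := by
  obtain ⟨S, q, h1, h2, h3, h4, h5⟩ := h
  exact ⟨S, q, h2, h1, fun d hd => by rw [abs_sub_comm]; exact h3 d hd, h5, h4⟩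

lemma KN.symm {N M l : ℕ} [NeZero N] [NeZero M] [NeZero (N / l)] [NeZero (M / l)]
    {b τ δ s κ C1 d : ℝ} (h : KN N M l b τ δ s κ C1 d) : KN M N l b τ δ s κ C1 d :=
  ⟨h.cl.symm, h.supM, h.supN, h.lowM, h.lowN, h.momM, h.momN⟩

lemma KN.mono {N M l : ℕ} [NeZero N] [NeZero M] [NeZero (N / l)] [NeZero (M / l)]
    {b τ δ s κ C1 d δ' s' d' : ℝ} (h : KN N M l b τ δ s κ C1 d) (hδ : δ ≤ δ') (hs : s ≤ s')
    (hd : d ≤ d') : KN N M l b τ δ' s' κ C1 d' :=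
  ⟨h.cl.mono hδ, fun x y => (h.supN x y).trans hs, fun x y => (h.supM x y).trans hs,
    by linarith [h.lowN], by linarith [h.lowM], h.momN, h.momM⟩

section out

variable {N M l : ℕ} [NeZero N] [NeZero M] [NeZero (N / l)] [NeZero (M / l)]
  {b τ δ s κ C1 d cD : ℝ}

/-- the number `s` bounds the constant kernel -/
lemma KN.jc (h : KN N M l b τ δ s κ C1 d) (hb : 0 ≤ b) (hl : l ∣ N) (hτ : 0 < τ) :
    (l : ℝ) ^ 2 / (N : ℝ) ^ 2 ≤ s := by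
  have hlp : (0 : ℝ) < l := by exact_mod_cast H864.l_pos hl
  have hNp : (0 : ℝ) < N := by exact_mod_cast NeZero.pos N
  -- the row sum of `Sk` is one
  have h1 : ∑ y, Sk N l b τ 0 y = 1 := by
    rw [Sk_Gc hl hτ, row_Gc hl (H612.ti_Sn hb hτ), H612.Sn_row]
  have h2 : ∑ y, Sk N l b τ 0 y ≤ (((N / l : ℕ) : ℝ)) ^ 2 * s := by
    refine (Finset.sum_le_sum fun y _ => h.supN 0 y).trans (le_of_eq ?_)
    rw [Finset.sum_const, Finset.card_univ, nsmul_eq_mul, H963.cardV]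
  rw [h1] at h2
  have e1 : (((N / l : ℕ) : ℝ)) ^ 2 = (N : ℝ) ^ 2 / (l : ℝ) ^ 2 := by
    rw [eq_div_iff (by positivity), H963.N_eq hl]
    ring
  rw [e1, div_mul_eq_mul_div, le_div_iff₀ (by positivity), one_mul] at h2
  rw [div_le_iff₀ (by positivity)]
  linarith

lemma KN.d0 (h : KN N M l b τ δ s κ C1 d) (hb : 0 ≤ b) (hτ : 0 < τ) : 0 ≤ d := by
  have h1 := h.lowN
  have h2 := s0_le_one (N := N) hb hτ
  linarith

lemma KN.δ0 (h : KN N M l b τ δ s κ C1 d) (hb : 0 ≤ b) (hl : l ∣ N) (hτ : 0 < τ) : 0 ≤ δ := by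
  obtain ⟨S, q, _, _, h3, h4, _⟩ := h.cl
  by_cases hq : (pt (N / l) q : V (N / l)) ∈ S.image (pt (N / l))
  · obtain ⟨d', hd', _⟩ := Finset.mem_image.1 hq
    exact (abs_nonneg _).trans (h3 d' hd')
  · exact (Sk_nonneg hb hl hτ _ _).trans (h4 _ hq)

/-- **fibers**: the step kernel of `N` and the periodized step kernel of `M` -/
theorem KN.fib (h : KN N M l b τ δ s κ C1 d) (hd : N / l ∣ M / l) (hb : 0 ≤ b) (hlN : l ∣ N)
    (hlM : l ∣ M) (hτ : 0 < τ) (z : V (N / l)) :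
    |Sk N l b τ 0 z - ∑ z2 ∈ univ.filter (fun z2 : V (M / l) => H733.Torg.prj hd z2 = z),
      Sk M l b τ 0 z2| ≤ δ * (1 + (M : ℝ) ^ 2 / (N : ℝ) ^ 2) := by
  have hδ := h.δ0 hb hlN hτ
  have hlp : (0 : ℝ) < l := by exact_mod_cast H864.l_pos hlN
  have hNp : (0 : ℝ) < N := by exact_mod_cast NeZero.pos N
  obtain ⟨S, q, h1, h2, h3, h4, h5⟩ := h.cl
  have h6 := fib_close hd (ti_Sk hb hlN hτ) (ti_Sk hb hlM hτ) (Sk_nonneg hb hlN hτ)
    (Sk_nonneg hb hlM hτ) h1 hδ h3 h4 h5 z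
  have e1 : (((M / l : ℕ) : ℝ)) ^ 2 / (((N / l : ℕ) : ℝ)) ^ 2 = (M : ℝ) ^ 2 / (N : ℝ) ^ 2 := by
    have a1 : (((N / l : ℕ) : ℝ)) ^ 2 = (N : ℝ) ^ 2 / (l : ℝ) ^ 2 := by
      rw [eq_div_iff (by positivity), H963.N_eq hlN]
      ring
    have a2 : (((M / l : ℕ) : ℝ)) ^ 2 = (M : ℝ) ^ 2 / (l : ℝ) ^ 2 := by
      rw [eq_div_iff (by positivity), H963.N_eq hlM]
      ring
    rw [a1, a2]
    field_simp
  rwa [e1] at h6

/-- **`Near` for the torus `N` over `M`** -/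
theorem KN.near (h : KN N M l b τ δ s κ C1 d) (hd : N / l ∣ M / l) (hb : 0 ≤ b) (hlN : l ∣ N)
    (hlM : l ∣ M) (hτ : 0 < τ) (hκ : 0 < κ)
    (hD1 : Dom (acl N l b τ τ) (τ * (l : ℝ) ^ 2) cD)
    (hD2 : Dom (acl M l b τ τ) (τ * (l : ℝ) ^ 2) cD) (hd4 : 4 * d ≤ 1)
    (hdc : d * (τ * (M : ℝ) ^ 2) ≤ 4 * cD) :
    Near hd (acl N l b τ τ) (A3 M l b τ) (τ * (l : ℝ) ^ 2) (cD / 2) κ C1 (etN N M l d δ) s := by
  have hδ := h.δ0 hb hlN hτ
  obtain ⟨S, q, h1, h2, h3, h4, h5⟩ := h.cl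
  have g1 := h.lowM
  have hMp : (0 : ℝ) < M := by exact_mod_cast NeZero.pos M
  have hτM : 0 < τ * (M : ℝ) ^ 2 := by positivity
  have hn := near_acl hd hb hlN hlM hτ hD1 hD2 (s0_le_one hb hτ) (by linarith)
    (by
      have : (1 - s0 M b τ) * (τ * (M : ℝ) ^ 2) ≤ d * (τ * (M : ℝ) ^ 2) :=
        mul_le_mul_of_nonneg_right (by linarith) hτM.le
      linarith) hκ h.momM h1 hδ h3 h4 h5 (h.supN 0) (h.jc hb hlN hτ)
  refine near_mono hn le_rfl ?_ le_rfl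
  unfold etN
  linarith

/-- **`Near` on the torus `M` itself** -/
theorem KN.nearM (h : KN N M l b τ δ s κ C1 d) (hd : M / l ∣ M / l) (hb : 0 ≤ b)
    (hlM : l ∣ M) (hτ : 0 < τ) (hκ : 0 < κ)
    (hD2 : Dom (acl M l b τ τ) (τ * (l : ℝ) ^ 2) cD) (hd4 : 4 * d ≤ 1)
    (hdc : d * (τ * (M : ℝ) ^ 2) ≤ 4 * cD) :
    Near hd (acl M l b τ τ) (A3 M l b τ) (τ * (l : ℝ) ^ 2) (cD / 2) κ C1 (3 * d) s := by
  have g1 := h.lowM
  have hMp : (0 : ℝ) < M := by exact_mod_cast NeZero.pos M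
  have hτM : 0 < τ * (M : ℝ) ^ 2 := by positivity
  have hn := near_rfl hd hb hlM hτ hD2 (s0_le_one hb hτ) (by linarith)
    (by
      have : (1 - s0 M b τ) * (τ * (M : ℝ) ^ 2) ≤ d * (τ * (M : ℝ) ^ 2) :=
        mul_le_mul_of_nonneg_right (by linarith) hτM.le
      linarith) hκ h.momM (h.supM 0) (h.symm.jc hb hlM hτ)
  exact near_mono hn le_rfl (by linarith) le_rfl

/-- **helper733's `Pr`** for the pair of tori `N ≤ M` -/
theorem KN.pr (h : KN N M l b τ δ s κ C1 d) (hd : N / l ∣ M / l) (hd' : M / l ∣ M / l)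
    (hb : 0 ≤ b) (hlN : l ∣ N) (hlM : l ∣ M) (hτ : 0 < τ) (hκ : 0 < κ)
    (hD1 : Dom (acl N l b τ τ) (τ * (l : ℝ) ^ 2) cD)
    (hD2 : Dom (acl M l b τ τ) (τ * (l : ℝ) ^ 2) cD) (hd4 : 4 * d ≤ 1)
    (hdc : d * (τ * (M : ℝ) ^ 2) ≤ 4 * cD) :
    H733.Vt.Pr hd hd' (acl N l b τ τ) (acl M l b τ τ) (A3 M l b τ) (τ * (l : ℝ) ^ 2) (cD / 2) κ C1
      (etN N M l d δ) s (3 * d) s :=
  ⟨h.near hd hb hlN hlM hτ hκ hD1 hD2 hd4 hdc, h.nearM hd' hb hlM hτ hκ hD2 hd4 hdc⟩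

/-- **helper708's `Nrs`**: only the maximum of the difference of the step kernels -/
theorem KN.nrs (h : KN N M l b τ δ s κ C1 d) (hd : N / l ∣ M / l) (hb : 0 ≤ b) (hlN : l ∣ N)
    (hlM : l ∣ M) (hτ : 0 < τ) (hκ : 0 < κ)
    (hD1 : Dom (acl N l b τ τ) (τ * (l : ℝ) ^ 2) cD)
    (hD2 : Dom (acl M l b τ τ) (τ * (l : ℝ) ^ 2) cD) (hd4 : 4 * d ≤ 1)
    (hdc : d * (τ * (M : ℝ) ^ 2) ≤ 4 * cD) :
    H708.Nrs hd (acl N l b τ τ) (A3 M l b τ) (τ * (l : ℝ) ^ 2) (cD / 2) κ C1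
      (2 * δ * (1 + (M : ℝ) ^ 2 / (N : ℝ) ^ 2) + 3 * d * s) := by
  have hN := h.near hd hb hlN hlM hτ hκ hD1 hD2 hd4 hdc
  have hδ := h.δ0 hb hlN hτ
  have hlp : (0 : ℝ) < l := by exact_mod_cast H864.l_pos hlN
  have hNp : (0 : ℝ) < N := by exact_mod_cast NeZero.pos N
  have hMp : (0 : ℝ) < M := by exact_mod_cast NeZero.pos M
  have hD0 := h.d0 hb hτ
  have g1 := h.lowM
  have g2 := s0_le_one (N := M) hb hτ
  have hs0 : 0 < s0 M b τ := by linarith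
  refine ⟨hN.dom, hN.dom2, hN.off2, hN.kp, hN.mom, hN.stb.nn, fun z => ?_⟩
  rw [step_pz hd hb hlM hτ]
  have e : (1 - (τ * (l : ℝ) ^ 2)⁻¹ • acl N l b τ τ : Matrix (V (N / l)) (V (N / l)) ℝ) 0 z =
      Sk N l b τ 0 z := rfl
  rw [e]
  set G : Finset (V (M / l)) := univ.filter (fun z2 : V (M / l) => H733.Torg.prj hd z2 = z) with hG
  have f1 := h.fib hd hb hlN hlM hτ z
  rw [← hG] at f1
  set D : ℝ := 1 - s0 M b τ with hDd
  have hDn : 0 ≤ D := by linarith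
  have hDd' : D ≤ d := by linarith
  set R : ℝ := 1 + (M : ℝ) ^ 2 / (N : ℝ) ^ 2 with hR
  have hR0 : 0 ≤ R := by positivity
  -- distance of the averaged kernel
  have f2 : |∑ z2 ∈ G, Sk M l b τ 0 z2 - ∑ z2 ∈ G, Sg M l b τ 0 z2| ≤
      D * (∑ z2 ∈ G, Sg M l b τ 0 z2 + (l : ℝ) ^ 2 / (N : ℝ) ^ 2) := by
    rw [← Finset.sum_sub_distrib]
    refine (Finset.abs_sum_le_sum_abs _ _).trans ?_
    refine (Finset.sum_le_sum fun z2 _ => Sk_sub_Sg hb hlM hτ hs0 g2 0 z2).trans (le_of_eq ?_)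
    rw [← Finset.mul_sum, Finset.sum_add_distrib]
    congr 2
    unfold Jc
    simp only [Matrix.of_apply]
    rw [Finset.sum_const, nsmul_eq_mul]
    have hc := card_fib hd z
    have hcd : (G.card : ℝ) = (M : ℝ) ^ 2 / (N : ℝ) ^ 2 := by
      rw [eq_div_iff (by positivity)]
      have e1 : (N : ℝ) ^ 2 = (l : ℝ) ^ 2 * ((N / l : ℕ) : ℝ) ^ 2 := by
        rw [← mul_pow, ← H963.N_eq hlN]
      have e2 : (M : ℝ) ^ 2 = (l : ℝ) ^ 2 * ((M / l : ℕ) : ℝ) ^ 2 := by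
        rw [← mul_pow, ← H963.N_eq hlM]
      rw [e1, e2, ← hc]
      ring
    rw [hcd]
    field_simp
  have f3 : ∑ z2 ∈ G, Sg M l b τ 0 z2 ≤ 2 * (s + δ * R) := by
    have h1 : ∑ z2 ∈ G, Sg M l b τ 0 z2 ≤ ∑ z2 ∈ G, 2 * Sk M l b τ 0 z2 :=
      Finset.sum_le_sum fun z2 _ => Sg_le hb hlM hτ (by linarith) g2 0 z2
    rw [← Finset.mul_sum] at h1
    have h2 := (abs_le.1 f1).1
    have h3 := h.supN 0 z
    linarith
  have f4 := h.jc hb hlN hτ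
  have f5 : D * (∑ z2 ∈ G, Sg M l b τ 0 z2 + (l : ℝ) ^ 2 / (N : ℝ) ^ 2) ≤
      D * (2 * (s + δ * R) + s) := mul_le_mul_of_nonneg_left (by linarith) hDn
  have hs' : 0 ≤ s := le_trans (by positivity) f4
  have f6 : D * (2 * (s + δ * R) + s) ≤ d * (3 * s) + 1 / 2 * (δ * R) := by
    have a1 : D * (3 * s) ≤ d * (3 * s) := mul_le_mul_of_nonneg_right hDd' (by positivity)
    have a2 : D * (2 * (δ * R)) ≤ 1 / 4 * (2 * (δ * R)) :=
      mul_le_mul_of_nonneg_right (by linarith) (by positivity)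
    have a3 : D * (2 * (s + δ * R) + s) = D * (3 * s) + D * (2 * (δ * R)) := by ring
    rw [a3]
    linarith
  have f7 := abs_add_le (Sk N l b τ 0 z - ∑ z2 ∈ G, Sk M l b τ 0 z2)
    (∑ z2 ∈ G, Sk M l b τ 0 z2 - ∑ z2 ∈ G, Sg M l b τ 0 z2)
  rw [sub_add_sub_cancel] at f7
  have f8 : 0 ≤ δ * R := by positivity
  have e9 : 2 * δ * R + 3 * d * s = 2 * (δ * R) + d * (3 * s) := by ring
  rw [e9]
  linarith

/-- **helper708's `Nrs` on the torus `M` itself** -/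
theorem KN.nrsM (h : KN N M l b τ δ s κ C1 d) (hd : M / l ∣ M / l) (hb : 0 ≤ b)
    (hlM : l ∣ M) (hτ : 0 < τ) (hκ : 0 < κ)
    (hD2 : Dom (acl M l b τ τ) (τ * (l : ℝ) ^ 2) cD) (hd4 : 4 * d ≤ 1)
    (hdc : d * (τ * (M : ℝ) ^ 2) ≤ 4 * cD) :
    H708.Nrs hd (acl M l b τ τ) (A3 M l b τ) (τ * (l : ℝ) ^ 2) (cD / 2) κ C1 (3 * d * s) :=
  H708.nrs_near (h.nearM hd hb hlM hτ hκ hD2 hd4 hdc)

end out

end

end Vale.Agent.P159.H767
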