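import Vale.Agent.P159.H767.Nr8
import Vale.Agent.P159.H640.Dt16

/-!
P159, module NEAR (helper767), part 9: the step kernels in the letters of LIST P_up (powers of two),
cells with `log (ξ / l) ≤ A1 e ^ (-c1)`, `c1 < th / 2`.
-/

set_option linter.unusedSectionVars false

namespace Vale.Agent.P159.H767

open Finset Matrix
open Vale.Agent.P159.TM.Spec (V Rng)
open Vale.Agent.P159.H972 (Par lg tn RNG)
open Vale.Agent.P159.H864 (yt)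
open Vale.Agent.P159.H363 (acl)
open Vale.Agent.P159.H462 (Dom)
open Vale.Agent.P159.H640

noncomputable section

/-- the error `ZZ` for cells with `n - s ≤ A1 e ^ (-c1)` -/
lemma zz_small {c th c1 A1 CG ρ1 : ℝ} {B : ℕ} (hc : 0 < c) (hth : 0 < th) (hc1 : c1 < th / 2)
    (hA1 : 0 ≤ A1) (hCG : 0 < CG) (hB : 1 ≤ B) (hρ : 0 ≤ ρ1) (hρ1 : ρ1 < 1) :
    ∃ e0, 0 < e0 ∧ ∀ e : ℝ, 0 < e → e ≤ e0 → ∀ (k : ℕ) (g D2 : ℝ), e ^ (-th) ≤ (2 : ℝ) ^ k →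
      0 ≤ g → g ≤ 2 * (CG * e ^ (-ρ1)) → 0 ≤ D2 → D2 ≤ Real.exp (A1 * e ^ (-c1)) →
      g * D2 ^ 2 * Real.exp (-(c * rh B k)) ≤ e ^ (1 - 4 * ρ1) := by
  have hBR : (1 : ℝ) ≤ B := by exact_mod_cast hB
  obtain ⟨e1, he1, n1⟩ := sm_rpow (s := th / 2 - c1) (A := 2 * A1) (B := c / (2 * B))
    (by linarith) (by positivity)
  obtain ⟨e2, he2, n2⟩ := sm_exp (c := c / (2 * B)) (th := th / 2) (q := 2) (by positivity)
    (by positivity)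
  obtain ⟨e3, he3, n3⟩ := sm_rpow (s := 1 - ρ1) (A := 2 * CG * Real.exp c) (B := 1)
    (by linarith) one_pos
  refine ⟨min (1 / 2) (min e1 (min e2 e3)), by positivity, ?_⟩
  intro e he hle k g D2 hk hg0 hg hD0 hD
  simp only [le_min_iff] at hle
  obtain ⟨g0, g1, g2, g3⟩ := hle
  have f1 := n1 e he g1
  have f2 := n2 e he g2
  have f3 := n3 e he g3
  have he1' : e ≤ 1 := by linarith
  have hne : e ≠ 1 := by linarith
  have hx : (0 : ℝ) < Real.exp (-(c / B * e ^ (-(th / 2)))) := Real.exp_pos _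
  have h1 := rho_exp (c := c) (q := Real.logb e (Real.exp (-(c / B * e ^ (-(th / 2)))))) hB he hc hk
    (by rw [Real.rpow_logb he hne hx])
  rw [Real.rpow_logb he hne hx] at h1
  -- the cells
  have h2 : D2 ^ 2 ≤ Real.exp (2 * A1 * e ^ (-c1)) := by
    have : Real.exp (2 * A1 * e ^ (-c1)) = Real.exp (A1 * e ^ (-c1)) ^ 2 := by
      rw [← Real.exp_nat_mul]
      congr 1
      push_cast
      ring
    rw [this]
    exact pow_le_pow_left₀ hD0 hD 2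
  have h3 : 2 * A1 * e ^ (-c1) ≤ c / (2 * B) * e ^ (-(th / 2)) := by
    have e1 : e ^ (-c1) = e ^ (th / 2 - c1) * e ^ (-(th / 2)) := by
      rw [← Real.rpow_add he]
      congr 1
      ring
    rw [e1, ← mul_assoc]
    exact mul_le_mul_of_nonneg_right f1 (Real.rpow_nonneg he.le _)
  have h4 : Real.exp (2 * A1 * e ^ (-c1)) * Real.exp (-(c / B * e ^ (-(th / 2)))) ≤ e ^ (2 : ℝ) := by
    refine le_trans ?_ f2
    rw [← Real.exp_add]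
    refine Real.exp_le_exp.2 ?_
    have e1 : c / B * e ^ (-(th / 2)) = c / (2 * B) * e ^ (-(th / 2)) +
        c / (2 * B) * e ^ (-(th / 2)) := by
      field_simp
      ring
    rw [e1]
    linarith
  have h5 : 0 ≤ e ^ (-ρ1) := Real.rpow_nonneg he.le _
  have e5 : e ^ (-ρ1) * e ^ (2 : ℝ) = e ^ (1 - ρ1) * e := by
    have h6 : e ^ (1 - ρ1) * e = e ^ (1 - ρ1) * e ^ (1 : ℝ) := by rw [Real.rpow_one]
    rw [h6, ← Real.rpow_add he, ← Real.rpow_add he]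
    congr 1
    ring
  calc g * D2 ^ 2 * Real.exp (-(c * rh B k))
      ≤ 2 * (CG * e ^ (-ρ1)) * Real.exp (2 * A1 * e ^ (-c1)) *
        (Real.exp c * Real.exp (-(c / B * e ^ (-(th / 2))))) := by gcongr
    _ = 2 * CG * Real.exp c * (e ^ (-ρ1) * (Real.exp (2 * A1 * e ^ (-c1)) *
        Real.exp (-(c / B * e ^ (-(th / 2)))))) := by ring
    _ ≤ 2 * CG * Real.exp c * (e ^ (-ρ1) * e ^ (2 : ℝ)) := by gcongr
    _ = (2 * CG * Real.exp c * e ^ (1 - ρ1)) * e := by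
        rw [e5]
        ring
    _ ≤ 1 * e := mul_le_mul_of_nonneg_right f3 he.le
    _ = e ^ (1 : ℝ) := by rw [one_mul, Real.rpow_one]
    _ ≤ e ^ (1 - 4 * ρ1) := Real.rpow_le_rpow_of_exponent_ge he he1' (by linarith)

/-- **the step kernels in the letters of LIST P_up** -/
theorem kn_par {b1 : ℝ} (hb1 : 0 < b1) (b2 : ℝ) :
    ∃ W₀ cm Cm : ℝ, 0 < cm ∧ 0 < Cm ∧ ∀ W : ℝ, W₀ ≤ W → ∃ ys : ℝ, ∃ X : ℕ, 0 < ys ∧ 1 ≤ X ∧
    ∀ (v th thp c1 A1 cD : ℝ) (q0 : ℕ), 0 < v → 0 < th → 0 < thp → 0 < c1 → c1 < th / 2 →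
      0 ≤ A1 → 0 < cD → 7 * (th + 4 * q0 * thp) + 2 * c1 ≤ 1 - v →
    ∃ E0 : ℝ, 0 < E0 ∧ ∀ P : Par, P.th = th → P.thp = thp → P.q0 = q0 → P.b1 = b1 → P.b2 = b2 →
      P.W = W → P.ys ≤ ys → X ≤ P.X0 →
    ∀ (b : ℝ) (n s r r' : ℕ) (e τ Y : ℝ) [NeZero (2 ^ r / 2 ^ s)] [NeZero (2 ^ r' / 2 ^ s)],
      0 < e → e ≤ E0 → P.TT n e r → P.TT n e r' → RNG P b n r e → RNG P b (n - 1) r e →
      RNG P b n r' e → RNG P b (n - 1) r' e → tn n ≤ τ → τ ≤ 4 * tn n → s ≤ n → 1 ≤ n →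
      ((n - s : ℕ) : ℝ) ≤ A1 * e ^ (-c1) →
      yt (2 ^ r) b τ ≤ Y → yt (2 ^ r') b τ ≤ Y → Y ^ 2 ≤ e →
      KN (2 ^ r) (2 ^ r') (2 ^ s) b τ
        (((2 : ℝ) ^ s / 2 ^ n) ^ 2 * (e ^ v / (((4 : ℝ) ^ r + 4 ^ r') / 4 ^ n)))
        (((2 : ℝ) ^ s / 2 ^ n) ^ 2 * e ^ (-(2 * c1))) (cm * (2 ^ s / 2 ^ n)) Cm
        (e ^ (v + 2 * c1) / (((4 : ℝ) ^ r + 4 ^ r') / 4 ^ n)) ∧ e ^ v ≤ cD ∧ e ^ v ≤ 1 / 4 := by
  obtain ⟨W₀, cm, Cm, hcm, hCm, h0⟩ := kernels hb1 b2 (5 / 2)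
  refine ⟨W₀, cm, Cm, hcm, hCm, fun W hW => ?_⟩
  obtain ⟨ys, X, hys, hX, h1⟩ := h0 W hW
  refine ⟨ys, X, hys, hX, ?_⟩
  intro v th thp c1 A1 cD q0 hv hth hthp hc1 hc1t hA1 hcD hsum
  have hρ1p : 0 < th + 4 * q0 * thp := by positivity
  generalize hρ1 : th + 4 * q0 * thp = ρ1 at hsum hρ1p
  obtain ⟨gp, hgp⟩ : ∃ gp, gp = 1 - v - 6 * ρ1 - c1 := ⟨_, rfl⟩
  have hgp0 : 0 < gp := by linarith
  obtain ⟨nn, hnn3, hnnR⟩ : ∃ nn : ℕ, 3 ≤ nn ∧ 4 / gp ≤ (nn : ℝ) :=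
    ⟨⌈4 / gp⌉₊ + 3, Nat.le_add_left _ _, (Nat.le_ceil _).trans (by push_cast; linarith)⟩
  obtain ⟨K, c, B, hK, hc, hB, H⟩ := h1 nn hnn3
  have hCG0 : (0 : ℝ) < 2 ^ (1 + 4 * q0) := by positivity
  generalize hCG : (2 : ℝ) ^ (1 + 4 * q0) = CG at hCG0
  have hA0 : 0 < K * (1 + 4 * CG ^ 4) := by positivity
  generalize hA : K * (1 + 4 * CG ^ 4) = A at hA0
  have hBR : (1 : ℝ) ≤ B := by exact_mod_cast hB
  have hnn0 : (0 : ℝ) < nn := by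
    have : 0 < nn := by omega
    exact_mod_cast this
  have hp2 : 2 / (nn : ℝ) ≤ gp / 2 := by
    rw [div_le_iff₀ hnn0]
    rw [div_le_iff₀ hgp0] at hnnR
    linarith
  have hp0 : 0 < 2 / (nn : ℝ) := by positivity
  have hβ0 : 0 < 1 - 4 * ρ1 := by linarith
  obtain ⟨e1, he1, n1⟩ := sm_rpow (s := 1 / 4 - ρ1) (A := CG) (by linarith) hc
  obtain ⟨e2, he2, n2⟩ := sm_rpow (s := th) (A := 64 * B) hth (show (0 : ℝ) < 1 / 2 by norm_num)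
  obtain ⟨e3, he3, n3⟩ := zz_small (B := B) hc hth hc1t hA1 hCG0 hB hρ1p.le
    (by linarith : ρ1 < 1)
  obtain ⟨e4, he4, n4⟩ := sm_rpow (s := 1 - 4 * ρ1) (A := 64 * (4 * CG ^ 4)) hβ0 one_pos
  obtain ⟨e5, he5, n5⟩ := sm_rpow (s := 1 - 4 * ρ1) (A := A) hβ0 one_pos
  obtain ⟨e6, he6, n6⟩ := sm_rpow (s := gp / 2)
    (A := 2 * K * (1 + A1) * A ^ (1 - 2 / (nn : ℝ)) * CG ^ 2) (by positivity) one_pos
  obtain ⟨e7, he7, n7⟩ := sm_rpow (s := c1) (A := K * (1 + A1)) hc1 one_pos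
  obtain ⟨e8, he8, n8⟩ := sm_rpow (s := 1 - 4 * ρ1 - v - 2 * c1) (A := 16 * CG ^ 4)
    (by linarith) one_pos
  obtain ⟨e9, he9, n9⟩ := sm_rpow (s := v) (A := 1) hv hcD
  obtain ⟨e10, he10, n10⟩ := sm_rpow (s := v) (A := 1) hv (show (0 : ℝ) < 1 / 4 by norm_num)
  refine ⟨min (1 / 2) (min e1 (min e2 (min e3 (min e4 (min e5 (min e6 (min e7 (min e8
    (min e9 e10))))))))), by positivity, ?_⟩
  intro P pth pthp pq0 pb1 pb2 pW pys pX b n s r r' e τ Y _ _ he heE hT hT' hR hR1 hR' hR1'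
    hτ1 hτ2 hsn hn hd hY hY' hYe
  simp only [le_min_iff] at heE
  obtain ⟨g0, g1, g2, g3, g4, g5, g6, g7, g8, g9, g10⟩ := heE
  have he1 : e ≤ 1 := g0.trans (by norm_num)
  have f1 := n1 e he g1
  have f2 := n2 e he g2
  have f3 := n3 e he g3
  have f4 := n4 e he g4
  have f5 := n5 e he g5
  have f6 := n6 e he g6
  have f7 := n7 e he g7
  have f8 := n8 e he g8
  have f9 := n9 e he g9
  have f10 := n10 e he g10
  rw [one_mul] at f9 f10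
  clear n1 n2 n3 n4 n5 n6 n7 n8 n9 n10 h0 h1
  refine ⟨?_, f9, f10⟩
  -- the ranges
  have rg : ∀ {N : ℕ} [NeZero N] {ξ : ℕ}, Rng P.b1 P.b2 (5 / 2) P.W P.ys P.X0 N b ξ
      (e ^ (1 / 4 : ℝ)) → Rng b1 b2 (5 / 2) W ys X N b ξ (e ^ (1 / 4 : ℝ)) := by
    intro N _ ξ h
    rw [pb1, pb2, pW] at h
    exact rng_thr h pys pX
  have hb : 0 < b := lt_of_lt_of_le hb1 (rg hR).hb1
  have hτ : 0 < τ := (H972.tn_pos n).trans_le hτ1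
  have hY0 : 0 ≤ Y := (H864.yt_nonneg (N := 2 ^ r) hb.le hτ).trans hY
  -- the sizes
  have hG := TT_pow he he1 hT
  have hG' := TT_pow he he1 hT'
  rw [pth, pthp, pq0, hρ1, hCG] at hG hG'
  have hG10 : 0 < CG * e ^ (-ρ1) := by positivity
  have q4 : ∀ j : ℕ, (4 : ℝ) ^ j = ((2 : ℝ) ^ j) ^ 2 := by
    intro j
    rw [← pow_mul, mul_comm j 2, pow_mul]
    norm_num
  obtain ⟨G, hGd⟩ : ∃ G, G = ((4 : ℝ) ^ r + 4 ^ r') / 4 ^ n := ⟨_, rfl⟩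
  have hGe : G = ((2 : ℝ) ^ r / 2 ^ n) ^ 2 + ((2 : ℝ) ^ r' / 2 ^ n) ^ 2 := by
    rw [hGd, q4, q4, q4, div_pow, div_pow, add_div]
  have hgg : G ≤ 2 * (CG * e ^ (-ρ1)) ^ 2 := by
    rw [hGe]
    have a1 : ((2 : ℝ) ^ r / 2 ^ n) ^ 2 ≤ (CG * e ^ (-ρ1)) ^ 2 :=
      pow_le_pow_left₀ (by positivity) hG 2
    have a2 : ((2 : ℝ) ^ r' / 2 ^ n) ^ 2 ≤ (CG * e ^ (-ρ1)) ^ 2 :=
      pow_le_pow_left₀ (by positivity) hG' 2
    linarith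
  have hGp : 0 < G := by
    rw [hGd]
    positivity
  rw [← hGd]
  -- the radius
  have hk1 : e ^ (-th) ≤ (2 : ℝ) ^ P.kE e := by
    have := lg_lo (c := P.th) he
    unfold Par.kE
    rwa [pth] at this ⊢
  have hρ8 : 8 ≤ rh B (P.kE e) := rho8 hB he hk1 f2
  have hBN : ∀ r, P.TT n e r → B * rh B (P.kE e) ^ 2 * 2 ^ n ≤ 2 ^ r := by
    intro r hT
    calc B * rh B (P.kE e) ^ 2 * 2 ^ n ≤ 2 ^ P.kE e * 2 ^ n := Nat.mul_le_mul_right _ (rh_le _ _)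
      _ = 2 ^ (n + P.kE e) := by rw [← pow_add, add_comm]
      _ ≤ 2 ^ r := Nat.pow_le_pow_right (by norm_num) hT.1
  -- the cells
  have hlog2 : Real.log 2 ≤ 1 := by
    have := Real.log_two_lt_d9
    linarith
  have hlog0 : 0 ≤ Real.log 2 := Real.log_nonneg (by norm_num)
  have hd2 : (2 : ℝ) ^ (n - s) ≤ Real.exp (A1 * e ^ (-c1)) := by
    have : (2 : ℝ) ^ (n - s) = Real.exp ((n - s : ℕ) * Real.log 2) := by
      rw [Real.exp_nat_mul, Real.exp_log two_pos]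
    rw [this]
    refine Real.exp_le_exp.2 (le_trans ?_ hd)
    exact mul_le_of_le_one_right (Nat.cast_nonneg _) hlog2
  have fr : ((2 ^ n : ℕ) : ℝ) / ((2 ^ s : ℕ) : ℝ) = (2 : ℝ) ^ (n - s) := by
    push_cast
    rw [div_eq_iff (by positivity), ← pow_add, Nat.sub_add_cancel hsn]
  have hlg0 : 0 ≤ Real.log (((2 ^ n : ℕ) : ℝ) / ((2 ^ s : ℕ) : ℝ)) := by
    rw [fr]
    exact Real.log_nonneg (one_le_pow₀ (by norm_num))
  have hec : 1 ≤ e ^ (-c1) := Real.one_le_rpow_of_pos_of_le_one_of_nonpos he he1 (by linarith)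
  have hlg : 1 + Real.log (((2 ^ n : ℕ) : ℝ) / ((2 ^ s : ℕ) : ℝ)) ≤ (1 + A1) * e ^ (-c1) := by
    rw [fr, Real.log_pow]
    have h2 : ((n - s : ℕ) : ℝ) * Real.log 2 ≤ A1 * e ^ (-c1) :=
      (mul_le_of_le_one_right (Nat.cast_nonneg _) hlog2).trans hd
    rw [add_mul, one_mul]
    linarith
  -- the error `Z`
  have e4' : ∀ r : ℕ, (((2 ^ r : ℕ) : ℝ)) ^ 2 = (4 : ℝ) ^ r := by
    intro j
    rw [q4]
    push_cast
    rfl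
  have hZ : H640.ZZ (2 ^ r) (2 ^ r') (2 ^ n) (2 ^ s) (rh B (P.kE e)) c ≤ e ^ (1 - 4 * ρ1) := by
    unfold H640.ZZ
    rw [fr]
    refine f3 (P.kE e) _ _ hk1 (by positivity) ?_ (by positivity) hd2
    push_cast
    rw [add_div]
    linarith
  -- the number `Q`
  have hGG : (((2 ^ r : ℕ) : ℝ) ^ 2 + ((2 ^ r' : ℕ) : ℝ) ^ 2) / ((2 ^ n : ℕ) : ℝ) ^ 2 = G := by
    rw [e4', e4', e4', hGd]
  have hQ2 : (G * Y) ^ 2 ≤ 4 * CG ^ 4 * e ^ (1 - 4 * ρ1) := by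
    have a1 : G ^ 2 ≤ (2 * (CG * e ^ (-ρ1)) ^ 2) ^ 2 := pow_le_pow_left₀ hGp.le hgg 2
    have a2 : (2 * (CG * e ^ (-ρ1)) ^ 2) ^ 2 = 4 * CG ^ 4 * e ^ (-(4 * ρ1)) := by
      have h2 : (e ^ (-ρ1)) ^ 4 = e ^ (-(4 * ρ1)) := by
        rw [pw_four he]
        congr 1
        ring
      rw [← h2]
      ring
    have a3 : e ^ (1 - 4 * ρ1) = e ^ (-(4 * ρ1)) * e := by
      have h6 : e ^ (-(4 * ρ1)) * e = e ^ (-(4 * ρ1)) * e ^ (1 : ℝ) := by rw [Real.rpow_one]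
      rw [h6, ← Real.rpow_add he]
      congr 1
      ring
    rw [mul_pow, a3]
    calc G ^ 2 * Y ^ 2 ≤ (4 * CG ^ 4 * e ^ (-(4 * ρ1))) * e :=
          mul_le_mul (a1.trans a2.le) hYe (sq_nonneg _) (by positivity)
      _ = _ := by ring
  have hQ0 : 0 ≤ G * Y := by positivity
  have hQ1 : 8 * (G * Y) ≤ 1 := by
    have a1 : (G * Y) ^ 2 ≤ (1 / 8) ^ 2 := by
      refine hQ2.trans ?_
      linarith
    have := le_of_sq_le_sq a1 (by norm_num)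
    linarith
  have hEQ : K * (H640.ZZ (2 ^ r) (2 ^ r') (2 ^ n) (2 ^ s) (rh B (P.kE e)) c + (G * Y) ^ 2) ≤
      A * e ^ (1 - 4 * ρ1) := by
    calc _ ≤ K * (e ^ (1 - 4 * ρ1) + 4 * CG ^ 4 * e ^ (1 - 4 * ρ1)) :=
          mul_le_mul_of_nonneg_left (add_le_add hZ hQ2) hK.le
      _ = _ := by rw [← hA]; ring
  have hNy : ∀ r, (2 : ℝ) ^ r / 2 ^ n ≤ CG * e ^ (-ρ1) →
      ((2 ^ r : ℕ) : ℝ) * e ^ (1 / 4 : ℝ) ≤ c * ((2 ^ n : ℕ) : ℝ) := by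
    intro r hr
    rw [div_le_iff₀ (by positivity)] at hr
    have a1 : e ^ (-ρ1) * e ^ (1 / 4 : ℝ) = e ^ (1 / 4 - ρ1) := by
      rw [← Real.rpow_add he]
      congr 1
      ring
    push_cast
    calc (2 : ℝ) ^ r * e ^ (1 / 4 : ℝ) ≤
          (CG * e ^ (-ρ1) * 2 ^ n) * e ^ (1 / 4 : ℝ) :=
          mul_le_mul_of_nonneg_right hr (Real.rpow_nonneg he.le _)
      _ = (CG * e ^ (1 / 4 - ρ1)) * 2 ^ n := by rw [← a1]; ring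
      _ ≤ _ := mul_le_mul_of_nonneg_right f1 (by positivity)
  have h2n : (2 : ℕ) ∣ 2 ^ n := dvd_pow_self 2 (by omega)
  have e1h : 2 ^ n / 2 = 2 ^ (n - 1) := by
    obtain ⟨q, rfl⟩ : ∃ q, n = q + 1 := ⟨n - 1, by omega⟩
    rw [pow_succ, Nat.add_sub_cancel, Nat.mul_div_cancel _ (by norm_num)]
  have hmain := H (2 ^ r) (2 ^ r') (2 ^ s) (2 ^ n) (rh B (P.kE e)) b (e ^ (1 / 4 : ℝ)) Y τ
    (A * e ^ (1 - 4 * ρ1)) h2n (rg hR) (by rw [e1h]; exact rg hR1) (rg hR')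
    (by rw [e1h]; exact rg hR1') (hNy r hG) (hNy r' hG') (by rw [← tn_eq]; exact hτ1)
    (by
      have : 4 / (((2 ^ n : ℕ) : ℝ)) ^ 2 = 4 * tn n := by
        rw [tn_eq]
        ring
      rw [this]
      exact hτ2)
    (pow_dvd_pow 2 hsn) hρ8 (hBN r hT) (hBN r' hT') hY hY' (by rw [hGG]; exact hQ1)
    (by positivity) f5 (by rw [hGG]; exact hEQ)
  rw [hGG] at hmain
  have hls : ((2 ^ s : ℕ) : ℝ) / ((2 ^ n : ℕ) : ℝ) = (2 : ℝ) ^ s / 2 ^ n := by push_cast; rfl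
  have hκ : cm * ((2 ^ s : ℕ) : ℝ) / ((2 ^ n : ℕ) : ℝ) = cm * ((2 : ℝ) ^ s / 2 ^ n) := by
    rw [mul_div_assoc, hls]
  rw [hls, hκ] at hmain
  set u : ℝ := (2 : ℝ) ^ s / 2 ^ n with hu
  have hu0 : 0 < u := by positivity
  refine hmain.mono ?_ ?_ ?_
  · -- closeness
    have hE1 : (A * e ^ (1 - 4 * ρ1)) ^ (1 - 2 / (nn : ℝ)) =
        A ^ (1 - 2 / (nn : ℝ)) * e ^ ((1 - 4 * ρ1) * (1 - 2 / (nn : ℝ))) := by
      rw [Real.mul_rpow hA0.le (Real.rpow_nonneg he.le _), ← Real.rpow_mul he.le]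
    have hexp : v + c1 + 2 * ρ1 + gp / 2 ≤ (1 - 4 * ρ1) * (1 - 2 / (nn : ℝ)) := by
      have : (1 - 4 * ρ1) * (2 / (nn : ℝ)) ≤ 1 * (2 / (nn : ℝ)) :=
        mul_le_mul_of_nonneg_right (by linarith) hp0.le
      have e1 : (1 - 4 * ρ1) * (1 - 2 / (nn : ℝ)) = (1 - 4 * ρ1) - (1 - 4 * ρ1) * (2 / (nn : ℝ)) := by
        ring
      rw [e1]
      linarith
    have h3 : e ^ ((1 - 4 * ρ1) * (1 - 2 / (nn : ℝ))) ≤ e ^ (v + c1 + 2 * ρ1 + gp / 2) :=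
      Real.rpow_le_rpow_of_exponent_ge he he1 hexp
    have h4 : e ^ (v + c1 + 2 * ρ1 + gp / 2) * e ^ (-c1) * (e ^ (-ρ1)) ^ 2 =
        e ^ v * e ^ (gp / 2) := by
      rw [pw_two he, ← Real.rpow_add he, ← Real.rpow_add he, ← Real.rpow_add he]
      congr 1
      ring
    have hAp : 0 ≤ A ^ (1 - 2 / (nn : ℝ)) := Real.rpow_nonneg hA0.le _
    have h5 : K * (1 + Real.log (((2 ^ n : ℕ) : ℝ) / ((2 ^ s : ℕ) : ℝ))) *
        (A * e ^ (1 - 4 * ρ1)) ^ (1 - 2 / (nn : ℝ)) * G ≤ e ^ v := by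
      rw [hE1]
      calc K * (1 + Real.log (((2 ^ n : ℕ) : ℝ) / ((2 ^ s : ℕ) : ℝ))) *
          (A ^ (1 - 2 / (nn : ℝ)) * e ^ ((1 - 4 * ρ1) * (1 - 2 / (nn : ℝ)))) * G
          ≤ K * ((1 + A1) * e ^ (-c1)) *
            (A ^ (1 - 2 / (nn : ℝ)) * e ^ (v + c1 + 2 * ρ1 + gp / 2)) *
            (2 * (CG * e ^ (-ρ1)) ^ 2) := by gcongr
        _ = 2 * K * (1 + A1) * A ^ (1 - 2 / (nn : ℝ)) * CG ^ 2 *
            (e ^ (v + c1 + 2 * ρ1 + gp / 2) * e ^ (-c1) * (e ^ (-ρ1)) ^ 2) := by ring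
        _ = (2 * K * (1 + A1) * A ^ (1 - 2 / (nn : ℝ)) * CG ^ 2 * e ^ (gp / 2)) * e ^ v := by
            rw [h4]
            ring
        _ ≤ 1 * e ^ v := mul_le_mul_of_nonneg_right f6 (Real.rpow_nonneg he.le _)
        _ = _ := one_mul _
    rw [← le_div_iff₀ hGp] at h5
    calc K * (u ^ 2 * (1 + Real.log (((2 ^ n : ℕ) : ℝ) / ((2 ^ s : ℕ) : ℝ)))) *
        (A * e ^ (1 - 4 * ρ1)) ^ (1 - 2 / (nn : ℝ)) =
        u ^ 2 * (K * (1 + Real.log (((2 ^ n : ℕ) : ℝ) / ((2 ^ s : ℕ) : ℝ))) *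
        (A * e ^ (1 - 4 * ρ1)) ^ (1 - 2 / (nn : ℝ))) := by ring
      _ ≤ _ := mul_le_mul_of_nonneg_left h5 (sq_nonneg _)
  · -- maximum
    have h3 : K * (1 + Real.log (((2 ^ n : ℕ) : ℝ) / ((2 ^ s : ℕ) : ℝ))) ≤ e ^ (-(2 * c1)) := by
      have e3 : e ^ (-c1) = e ^ c1 * e ^ (-(2 * c1)) := by
        rw [← Real.rpow_add he]
        congr 1
        ring
      calc K * (1 + Real.log (((2 ^ n : ℕ) : ℝ) / ((2 ^ s : ℕ) : ℝ)))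
          ≤ K * ((1 + A1) * e ^ (-c1)) := by gcongr
        _ = (K * (1 + A1) * e ^ c1) * e ^ (-(2 * c1)) := by
            rw [e3]
            ring
        _ ≤ 1 * e ^ (-(2 * c1)) := mul_le_mul_of_nonneg_right f7 (Real.rpow_nonneg he.le _)
        _ = _ := one_mul _
    calc K * (u ^ 2 * (1 + Real.log (((2 ^ n : ℕ) : ℝ) / ((2 ^ s : ℕ) : ℝ)))) =
        u ^ 2 * (K * (1 + Real.log (((2 ^ n : ℕ) : ℝ) / ((2 ^ s : ℕ) : ℝ)))) := by ring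
      _ ≤ _ := mul_le_mul_of_nonneg_left h3 (sq_nonneg _)
  · -- mass
    rw [le_div_iff₀ hGp]
    have e3 : e ^ (1 - 4 * ρ1) = e ^ (1 - 4 * ρ1 - v - 2 * c1) * e ^ (v + 2 * c1) := by
      rw [← Real.rpow_add he]
      congr 1
      ring
    calc 4 * G * Y ^ 2 * G = 4 * (G * Y) ^ 2 := by ring
      _ ≤ 4 * (4 * CG ^ 4 * e ^ (1 - 4 * ρ1)) := by gcongr
      _ = (16 * CG ^ 4 * e ^ (1 - 4 * ρ1 - v - 2 * c1)) * e ^ (v + 2 * c1) := by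
          rw [e3]
          ring
      _ ≤ 1 * e ^ (v + 2 * c1) := mul_le_mul_of_nonneg_right f8 (Real.rpow_nonneg he.le _)
      _ = _ := one_mul _

end

end Vale.Agent.P159.H767
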