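import Vale.Agent.P159.H474.Green4
import Vale.Agent.P159.H462.In3Sum

/-!
P159, module CVP (VB10 of list V, part B), the numbers. Noise `s` per cell, precision `ν`, symbol
`φ = sym A`, `Γ = (A + 1/s)⁻¹ = ∑_m ((ν - A)^m / (ν + 1/s)^(m+1))`; `gT s ν T` = symbol of the part
`m ≥ T` of the series; `R = (ν + 1/s) / T`.

* `vT_low`: `(1/(4πa)) log (1 + s R) - 1217/a ≤ N⁻² ∑_k gT`, if `φ ≤ a EE`;
* `vT_up`: `N⁻² ∑_{k ≠ 0} gT ≤ (1/(4πa)) log (R N²/a) + 1202/a + 80/c² + (2/ν) 2^(-T)`, if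
  `a EE ≤ φ` for `EE ≤ R` and `ν c EE/(ν + c EE) ≤ φ` for all `k`.
-/

set_option linter.unusedSectionVars false

namespace Vale.Agent.P159.H767

open Finset
open Vale.Agent.P159.TM.H764 (EE)
open Vale.Agent.P159.H474 (SN)
open Vale.Agent.P159.TM.Spec (V)

noncomputable section

/-- the symbol of the part `m ≥ T` of `Γ` -/
def gT (s ν : ℝ) (T : ℕ) (x : ℝ) : ℝ := (x + s⁻¹)⁻¹ * ((ν - x) / (ν + s⁻¹)) ^ T

/-- `R = (ν + 1/s)/T` -/
def RT (s ν : ℝ) (T : ℕ) : ℝ := (ν + s⁻¹) / T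

variable {s ν : ℝ} {T : ℕ}

theorem RT_pos (hs : 0 < s) (hν : 0 < ν) (hT : 1 ≤ T) : 0 < RT s ν T := by
  unfold RT
  have : (0 : ℝ) < T := by exact_mod_cast hT
  positivity

theorem gT_nonneg (hs : 0 < s) (hν : 0 < ν) {x : ℝ} (h0 : 0 ≤ x) (h1 : x ≤ ν) :
    0 ≤ gT s ν T x := by
  unfold gT
  have : 0 ≤ ν - x := by linarith
  positivity

theorem ratio_eq (hs : 0 < s) (hν : 0 < ν) (hT : 1 ≤ T) (x : ℝ) :
    (ν - x) / (ν + s⁻¹) = 1 + -((x + s⁻¹) / (T * RT s ν T)) := by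
  have hT' : (0 : ℝ) < T := by exact_mod_cast hT
  have h1 : (T : ℝ) * RT s ν T = ν + s⁻¹ := by
    unfold RT
    field_simp
  have h2 : 0 < ν + s⁻¹ := by positivity
  rw [h1]
  field_simp
  ring

/-- lower bound of `gT`, Bernoulli -/
theorem gT_low (hs : 0 < s) (hν : 0 < ν) (hT : 1 ≤ T) {x : ℝ} (h0 : 0 ≤ x) (h1 : x ≤ ν) :
    (x + s⁻¹)⁻¹ - (RT s ν T)⁻¹ ≤ gT s ν T x := by
  have hT' : (0 : ℝ) < T := by exact_mod_cast hT
  have hR := RT_pos hs hν hT
  have hu : 0 < x + s⁻¹ := by positivity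
  have hq : (0 : ℝ) ≤ (ν - x) / (ν + s⁻¹) := by
    have : 0 ≤ ν - x := by linarith
    positivity
  have hb := one_add_mul_le_pow (a := -((x + s⁻¹) / (T * RT s ν T)))
    (by
      rw [ratio_eq hs hν hT] at hq
      linarith) T
  rw [← ratio_eq hs hν hT] at hb
  unfold gT
  have h2 : (x + s⁻¹)⁻¹ - (RT s ν T)⁻¹ =
      (x + s⁻¹)⁻¹ * (1 + (T : ℝ) * -((x + s⁻¹) / (T * RT s ν T))) := by
    field_simp
    ring
  rw [h2]
  exact mul_le_mul_of_nonneg_left hb (inv_pos.2 hu).le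

theorem smooth_cut {u R : ℝ} (hu : 0 < u) (hR : 0 < R) :
    u⁻¹ - (u + R)⁻¹ - 4 * R * ((u + R) ^ 2)⁻¹ ≤ max 0 (u⁻¹ - R⁻¹) := by
  have hs : 0 < u + R := by positivity
  rcases le_total u R with h | h
  · refine le_trans ?_ (le_max_right _ _)
    have h1 : R⁻¹ ≤ (u + R)⁻¹ + 4 * R * ((u + R) ^ 2)⁻¹ := by
      rw [inv_eq_one_div, inv_eq_one_div, inv_eq_one_div, mul_one_div,
        div_add_div _ _ hs.ne' (by positivity), div_le_div_iff₀ hR (by positivity)]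
      have : 0 ≤ (R - u) * R := mul_nonneg (by linarith) hR.le
      nlinarith [mul_pos hu hR, mul_pos hs hs, sq_nonneg (R - u), mul_nonneg (mul_nonneg hs.le
        (sub_nonneg.2 h)) hR.le, mul_nonneg (mul_nonneg hs.le hs.le) (sub_nonneg.2 h)]
    linarith
  · refine le_trans ?_ (le_max_left _ _)
    have h1 : u⁻¹ - (u + R)⁻¹ ≤ 4 * R * ((u + R) ^ 2)⁻¹ := by
      have e : u⁻¹ - (u + R)⁻¹ = R / (u * (u + R)) := by
        field_simp
        ring
      rw [e, ← div_eq_mul_inv, div_le_div_iff₀ (by positivity) (by positivity)]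
      nlinarith [mul_pos hu hR, mul_pos hR hs, mul_pos (mul_pos hu hR) hs,
        mul_nonneg (mul_nonneg hR.le hs.le) (sub_nonneg.2 h)]
    linarith

/-- lower bound of `gT` by a smooth cut, at any larger argument -/
theorem gT_low' (hs : 0 < s) (hν : 0 < ν) (hT : 1 ≤ T) {x x' : ℝ} (h0 : 0 ≤ x) (h1 : x ≤ ν)
    (hx : x ≤ x') :
    (x' + s⁻¹)⁻¹ - (x' + s⁻¹ + RT s ν T)⁻¹ -
      4 * RT s ν T * ((x' + s⁻¹ + RT s ν T) ^ 2)⁻¹ ≤ gT s ν T x := by
  have hR := RT_pos hs hν hT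
  have hs' : 0 < s⁻¹ := inv_pos.2 hs
  have hu' : 0 < x' + s⁻¹ := by linarith
  refine (smooth_cut hu' hR).trans (max_le (gT_nonneg hs hν h0 h1) ?_)
  refine le_trans ?_ (gT_low hs hν hT h0 h1)
  have : (x' + s⁻¹)⁻¹ ≤ (x + s⁻¹)⁻¹ := inv_anti₀ (by linarith) (by linarith)
  linarith

/-- upper bound of `gT` -/
theorem gT_up (hs : 0 < s) (hν : 0 < ν) (hT : 1 ≤ T) {x : ℝ} (h0 : 0 ≤ x) (h1 : x ≤ ν) :
    gT s ν T x ≤ (x + s⁻¹)⁻¹ - (x + s⁻¹ + RT s ν T)⁻¹ := by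
  have hT' : (0 : ℝ) < T := by exact_mod_cast hT
  have hR := RT_pos hs hν hT
  have hu : 0 < x + s⁻¹ := by positivity
  have hq : (0 : ℝ) ≤ (ν - x) / (ν + s⁻¹) := by
    have : 0 ≤ ν - x := by linarith
    positivity
  have h2 : ((ν - x) / (ν + s⁻¹)) ^ T ≤ RT s ν T / (x + s⁻¹ + RT s ν T) := by
    have h3 : (ν - x) / (ν + s⁻¹) ≤ Real.exp (-((x + s⁻¹) / (T * RT s ν T))) := by
      rw [ratio_eq hs hν hT, add_comm]
      exact Real.add_one_le_exp _
    have h4 : ((ν - x) / (ν + s⁻¹)) ^ T ≤ Real.exp (-((x + s⁻¹) / RT s ν T)) := by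
      refine (pow_le_pow_left₀ hq h3 T).trans (le_of_eq ?_)
      rw [← Real.exp_nat_mul]
      congr 1
      field_simp
    refine h4.trans ?_
    rw [Real.exp_neg]
    have h5 : (x + s⁻¹ + RT s ν T) / RT s ν T ≤ Real.exp ((x + s⁻¹) / RT s ν T) := by
      have := Real.add_one_le_exp ((x + s⁻¹) / RT s ν T)
      refine le_trans (le_of_eq ?_) this
      field_simp
    have h6 : RT s ν T / (x + s⁻¹ + RT s ν T) = ((x + s⁻¹ + RT s ν T) / RT s ν T)⁻¹ := by
      rw [inv_div]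
    rw [h6]
    exact inv_anti₀ (by positivity) h5
  unfold gT
  have h7 : (x + s⁻¹)⁻¹ - (x + s⁻¹ + RT s ν T)⁻¹ =
      (x + s⁻¹)⁻¹ * (RT s ν T / (x + s⁻¹ + RT s ν T)) := by
    have : 0 < x + s⁻¹ + RT s ν T := by positivity
    field_simp
    ring
  rw [h7]
  exact mul_le_mul_of_nonneg_left h2 (inv_pos.2 hu).le

theorem cut_anti {u u' R : ℝ} (hu : 0 < u) (huu : u ≤ u') (hR : 0 < R) :
    u'⁻¹ - (u' + R)⁻¹ ≤ u⁻¹ - (u + R)⁻¹ := by
  have hu' : 0 < u' := hu.trans_le huu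
  have e : ∀ v : ℝ, 0 < v → v⁻¹ - (v + R)⁻¹ = R / (v * (v + R)) := by
    intro v hv
    field_simp
    ring
  rw [e u hu, e u' hu']
  gcongr

variable {N : ℕ} [NeZero N]

theorem one_le_sq {m : ℝ} (hm : 0 < m) (hN : 1 ≤ (N : ℝ) * √m) : 1 / (N * m) ≤ 1 / √m := by
  have hN' : (0 : ℝ) < N := by exact_mod_cast NeZero.pos N
  have hs : 0 < √m := Real.sqrt_pos.2 hm
  rw [div_le_div_iff₀ (by positivity) hs]
  have : √m * √m = m := Real.mul_self_sqrt hm.le
  nlinarith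

/-- **lower bound of the smooth variance** -/
theorem vT_low {φ : V N → ℝ} {a : ℝ} (hs : 0 < s) (hν : 0 < ν) (hT : 1 ≤ T) (ha : 0 < a)
    (h0 : ∀ k, 0 ≤ φ k) (h1 : ∀ k, φ k ≤ ν) (h2 : ∀ k, φ k ≤ a * EE k)
    (hR1 : s⁻¹ + RT s ν T ≤ a) (hN : 1 ≤ (N : ℝ) * √(s⁻¹ / a)) :
    Real.log (1 + s * RT s ν T) / (4 * Real.pi * a) - 1217 / a ≤
      (∑ k, gT s ν T (φ k)) / (N : ℝ) ^ 2 := by
  have hN' : (0 : ℝ) < N := by exact_mod_cast NeZero.pos N
  have hR := RT_pos hs hν hT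
  have hs' : 0 < s⁻¹ := inv_pos.2 hs
  set m := s⁻¹ / a with hm
  set m' := (s⁻¹ + RT s ν T) / a with hm'
  have hm0 : 0 < m := by positivity
  have hm0' : 0 < m' := by positivity
  have hmm : m ≤ m' := div_le_div_of_nonneg_right (by linarith) ha.le
  have hm1 : m' ≤ 1 := by
    rw [hm', div_le_one ha]
    exact hR1
  have hB := H474.TB1' (N := N) hm0 hmm hm1 hN
  have hpt : ∀ k : V N, (1 / a) * (1 / (m + EE k)) - (1 / a) * (1 / (m' + EE k)) -
      4 * RT s ν T / a ^ 2 * ((EE k + m') ^ 2)⁻¹ ≤ gT s ν T (φ k) := by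
    intro k
    have hE := H462.EE_nonneg k
    have hg := gT_low' hs hν hT (h0 k) (h1 k) (h2 k)
    refine le_trans (le_of_eq ?_) hg
    have e1 : a * EE k + s⁻¹ = a * (m + EE k) := by
      rw [hm]
      field_simp
      ring
    have e2 : a * EE k + s⁻¹ + RT s ν T = a * (m' + EE k) := by
      rw [hm']
      field_simp
      ring
    have p1 : 0 < m + EE k := by positivity
    have p2 : 0 < m' + EE k := by positivity
    rw [e2, e1, mul_inv, mul_inv, mul_pow, mul_inv, add_comm (EE k) m']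
    ring
  have hsum := sum_le_sum fun k (_ : k ∈ (univ : Finset (V N))) => hpt k
  rw [sum_sub_distrib, sum_sub_distrib, ← mul_sum, ← mul_sum, ← mul_sum] at hsum
  have hS1 : ∑ k : V N, 1 / (m + EE k) = (N : ℝ) ^ 2 * SN N m := by
    unfold SN
    field_simp
  have hS2 : ∑ k : V N, 1 / (m' + EE k) = (N : ℝ) ^ 2 * SN N m' := by
    unfold SN
    field_simp
  rw [hS1, hS2] at hsum
  have hq := H462.sum2 (N := N) hm0'
  have hN2 : 1 ≤ (N : ℝ) * √m' := hN.trans (mul_le_mul_of_nonneg_left (Real.sqrt_le_sqrt hmm) hN'.le)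
  have hq2 : (1 / m' + N / √m') ^ 2 ≤ 4 * (N : ℝ) ^ 2 / m' := by
    have h3 : 1 / m' ≤ N / √m' := by
      have := one_le_sq (N := N) hm0' hN2
      have h4 : 1 / m' = N * (1 / (N * m')) := by field_simp
      have h5 : (N : ℝ) / √m' = N * (1 / √m') := by ring
      rw [h4, h5]
      exact mul_le_mul_of_nonneg_left this hN'.le
    have h4 : 0 ≤ 1 / m' := by positivity
    calc (1 / m' + N / √m') ^ 2 ≤ (N / √m' + N / √m') ^ 2 := by gcongr
      _ = 4 * (N : ℝ) ^ 2 / (√m') ^ 2 := by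
        field_simp
        ring
      _ = 4 * (N : ℝ) ^ 2 / m' := by rw [Real.sq_sqrt hm0'.le]
  have hq3 : 4 * RT s ν T / a ^ 2 * ∑ k : V N, ((EE k + m') ^ 2)⁻¹ ≤ 16 / a * (N : ℝ) ^ 2 := by
    calc 4 * RT s ν T / a ^ 2 * ∑ k : V N, ((EE k + m') ^ 2)⁻¹
        ≤ 4 * RT s ν T / a ^ 2 * (4 * (N : ℝ) ^ 2 / m') := by
          refine mul_le_mul_of_nonneg_left (hq.trans hq2) (by positivity)
      _ = 16 * (N : ℝ) ^ 2 / a * (RT s ν T / (a * m')) := by
          field_simp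
          ring
      _ ≤ 16 * (N : ℝ) ^ 2 / a * 1 := by
          refine mul_le_mul_of_nonneg_left ?_ (by positivity)
          rw [div_le_one (by positivity), hm', mul_div_cancel₀ _ ha.ne']
          linarith
      _ = _ := by ring
  have hlog : Real.log (m' / m) = Real.log (1 + s * RT s ν T) := by
    congr 1
    rw [hm, hm']
    field_simp
  have hb1 := (abs_le.1 hB).1
  have hsq : √m' ≤ 1 := by
    rw [Real.sqrt_le_left (by norm_num)]
    linarith
  have hexp : Real.exp (-((N : ℝ) * √m / 16)) ≤ 1 := by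
    rw [Real.exp_le_one_iff]
    have : 0 ≤ (N : ℝ) * √m / 16 := by positivity
    linarith
  rw [hlog] at hb1
  have hfin : Real.log (1 + s * RT s ν T) / (4 * Real.pi) - 1201 ≤ SN N m - SN N m' := by linarith
  rw [le_div_iff₀ (by positivity)]
  have h7 : (Real.log (1 + s * RT s ν T) / (4 * Real.pi) - 1201) * (N : ℝ) ^ 2 / a ≤
      (SN N m - SN N m') * (N : ℝ) ^ 2 / a := by gcongr
  calc (Real.log (1 + s * RT s ν T) / (4 * Real.pi * a) - 1217 / a) * (N : ℝ) ^ 2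
      = (Real.log (1 + s * RT s ν T) / (4 * Real.pi) - 1201) * (N : ℝ) ^ 2 / a -
        16 / a * (N : ℝ) ^ 2 := by
        field_simp
        ring
    _ ≤ (SN N m - SN N m') * (N : ℝ) ^ 2 / a - 16 / a * (N : ℝ) ^ 2 := by linarith
    _ ≤ (1 / a) * ((N : ℝ) ^ 2 * SN N m) - (1 / a) * ((N : ℝ) ^ 2 * SN N m') -
        4 * RT s ν T / a ^ 2 * ∑ k : V N, ((EE k + m') ^ 2)⁻¹ := by
        have e : (SN N m - SN N m') * (N : ℝ) ^ 2 / a =
            (1 / a) * ((N : ℝ) ^ 2 * SN N m) - (1 / a) * ((N : ℝ) ^ 2 * SN N m') := by ring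
        rw [e]
        linarith
    _ ≤ _ := hsum

theorem sum_gap : ∑ k ∈ univ.filter (fun k : V N => k ≠ 0), (EE k ^ 2)⁻¹ ≤
    5 / 4 * (N : ℝ) ^ 4 := by
  have hN' : (0 : ℝ) < N := by exact_mod_cast NeZero.pos N
  set x : ℝ := 16 / (N : ℝ) ^ 2 with hx
  have hx0 : 0 < x := by positivity
  have h1 := H462.sum_inv_sq (N := N) hx0
  have h2 : ∀ k ∈ univ.filter (fun k : V N => k ≠ 0), (EE k ^ 2)⁻¹ ≤ 4 * ((EE k + x) ^ 2)⁻¹ := by
    intro k hk
    have hk0 : k ≠ 0 := (mem_filter.1 hk).2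
    have hE := H462.EE_gap hk0
    have hE0 := H462.EE_pos hk0
    rw [← hx] at hE
    have h3 : (EE k + x) ^ 2 ≤ 4 * EE k ^ 2 := by nlinarith
    have h4 : (4 * EE k ^ 2)⁻¹ ≤ ((EE k + x) ^ 2)⁻¹ := inv_anti₀ (by positivity) h3
    rw [mul_inv] at h4
    linarith
  calc ∑ k ∈ univ.filter (fun k : V N => k ≠ 0), (EE k ^ 2)⁻¹
      ≤ ∑ k ∈ univ.filter (fun k : V N => k ≠ 0), 4 * ((EE k + x) ^ 2)⁻¹ := sum_le_sum h2
    _ = 4 * ∑ k ∈ univ.filter (fun k : V N => k ≠ 0), ((EE k + x) ^ 2)⁻¹ := by rw [mul_sum]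
    _ ≤ 4 * (5 * (N : ℝ) ^ 2 / x) := by linarith
    _ = _ := by
      rw [hx]
      field_simp
      ring

/-- **upper bound of the smooth variance without the constant mode** -/
theorem vT_up {φ : V N → ℝ} {a c : ℝ} (hs : 0 < s) (hν : 0 < ν) (hT : 1 ≤ T) (ha : 0 < a)
    (hc : 0 < c) (h1 : ∀ k, φ k ≤ ν) (h2 : ∀ k, ν * (c * EE k) / (ν + c * EE k) ≤ φ k)
    (h3 : ∀ k, EE k ≤ RT s ν T → a * EE k ≤ φ k) (hR1 : RT s ν T ≤ a)
    (hN : a ≤ RT s ν T * (N : ℝ) ^ 2) :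
    (∑ k ∈ univ.filter (fun k : V N => k ≠ 0), gT s ν T (φ k)) / (N : ℝ) ^ 2 ≤
      Real.log (RT s ν T * (N : ℝ) ^ 2 / a) / (4 * Real.pi * a) + 1203 / a + 80 / c ^ 2 +
        2 / ν * (1 / 2) ^ T := by
  have hN' : (0 : ℝ) < N := by exact_mod_cast NeZero.pos N
  have hR := RT_pos hs hν hT
  have hs' : 0 < s⁻¹ := inv_pos.2 hs
  have h0 : ∀ k, 0 ≤ φ k := fun k => by
    refine le_trans ?_ (h2 k)
    have := H462.EE_nonneg k
    positivity
  set R := RT s ν T with hRd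
  -- pointwise bound by three pieces
  have hpt : ∀ k ∈ univ.filter (fun k : V N => k ≠ 0), gT s ν T (φ k) ≤
      ((a * EE k)⁻¹ - (a * EE k + R)⁻¹) +
        (if R ≤ EE k then 4 * R / c ^ 2 * (EE k ^ 2)⁻¹ else 0) + 2 / ν * (1 / 2) ^ T := by
    intro k hk
    have hk0 : k ≠ 0 := (mem_filter.1 hk).2
    have hE0 := H462.EE_pos hk0
    have hp1 : 0 ≤ (a * EE k)⁻¹ - (a * EE k + R)⁻¹ := by
      have : (a * EE k + R)⁻¹ ≤ (a * EE k)⁻¹ := inv_anti₀ (by positivity) (by linarith)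
      linarith
    have hp2 : 0 ≤ (if R ≤ EE k then 4 * R / c ^ 2 * (EE k ^ 2)⁻¹ else 0) := by
      split_ifs
      · positivity
      · exact le_rfl
    have hp3 : (0 : ℝ) ≤ 2 / ν * (1 / 2) ^ T := by positivity
    rcases le_or_gt (ν / 2) (φ k) with hr | hr
    · -- rough modes
      have h4 : gT s ν T (φ k) ≤ 2 / ν * (1 / 2) ^ T := by
        unfold gT
        have h5 : (φ k + s⁻¹)⁻¹ ≤ 2 / ν := by
          rw [inv_le_comm₀ (by linarith [h0 k]) (by positivity), inv_div]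
          linarith
        have h6 : (ν - φ k) / (ν + s⁻¹) ≤ 1 / 2 := by
          rw [div_le_iff₀ (by positivity)]
          linarith
        have h7 : 0 ≤ (ν - φ k) / (ν + s⁻¹) := by
          have : 0 ≤ ν - φ k := by linarith [h1 k]
          positivity
        exact mul_le_mul h5 (pow_le_pow_left₀ h7 h6 T) (by positivity) (by positivity)
      linarith
    · rcases le_or_gt R (EE k) with hE | hE
      · -- middle modes
        rw [if_pos hE] at hp2 ⊢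
        have h4 : c * EE k / 2 ≤ φ k := by
          have h5 := (h2 k).trans_lt hr
          have hcE : 0 < c * EE k := by positivity
          rw [div_lt_iff₀ (by positivity)] at h5
          have h6 : c * EE k < ν := by nlinarith
          refine le_trans ?_ (h2 k)
          rw [div_le_div_iff₀ (by norm_num) (by positivity)]
          nlinarith
        have h7 : 0 < φ k := lt_of_lt_of_le (by positivity) h4
        have h8 : gT s ν T (φ k) ≤ 4 * R / c ^ 2 * (EE k ^ 2)⁻¹ := by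
          refine (gT_up hs hν hT (h0 k) (h1 k)).trans ?_
          rw [← hRd]
          have h9 := cut_anti (u := φ k) (u' := φ k + s⁻¹) h7 (by linarith) hR
          refine h9.trans ?_
          have e : (φ k)⁻¹ - (φ k + R)⁻¹ = R / (φ k * (φ k + R)) := by
            field_simp
            ring
          rw [e]
          have h10 : R / (φ k * (φ k + R)) ≤ R / ((c * EE k / 2) * (c * EE k / 2)) := by
            refine div_le_div_of_nonneg_left hR.le (by positivity) ?_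
            exact mul_le_mul h4 (by linarith) (by positivity) h7.le
          refine h10.trans (le_of_eq ?_)
          field_simp
          ring
        linarith
      · -- smooth modes
        have h4 := h3 k hE.le
        have h8 : gT s ν T (φ k) ≤ (a * EE k)⁻¹ - (a * EE k + R)⁻¹ :=
          (gT_up hs hν hT (h0 k) (h1 k)).trans
            (cut_anti (by positivity) (by linarith) hR)
        linarith
  have hsum := sum_le_sum hpt
  rw [sum_add_distrib, sum_add_distrib] at hsum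
  -- first piece
  have hm0 : (0 : ℝ) < 1 / (N : ℝ) ^ 2 := by positivity
  have hmm : 1 / (N : ℝ) ^ 2 ≤ R / a := by
    rw [div_le_div_iff₀ (by positivity) ha]
    linarith
  have hm1 : R / a ≤ 1 := by
    rw [div_le_one ha]
    exact hR1
  have hNm : 1 ≤ (N : ℝ) * √(1 / (N : ℝ) ^ 2) := by
    rw [Real.sqrt_div zero_le_one, Real.sqrt_one, Real.sqrt_sq hN'.le]
    rw [mul_one_div, div_self hN'.ne']
  have hB := (abs_le.1 (H474.TB1' (N := N) hm0 hmm hm1 hNm)).2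
  have hsq : √(R / a) ≤ 1 := by
    rw [Real.sqrt_le_left (by norm_num)]
    linarith
  have hexp : Real.exp (-((N : ℝ) * √(1 / (N : ℝ) ^ 2) / 16)) ≤ 1 := by
    rw [Real.exp_le_one_iff]
    have : 0 ≤ (N : ℝ) * √(1 / (N : ℝ) ^ 2) / 16 := by positivity
    linarith
  have hlog : R / a / (1 / (N : ℝ) ^ 2) = R * (N : ℝ) ^ 2 / a := by
    field_simp
  rw [hlog] at hB
  have hfin : SN N (1 / (N : ℝ) ^ 2) - SN N (R / a) ≤
      Real.log (R * (N : ℝ) ^ 2 / a) / (4 * Real.pi) + 1201 := by linarith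
  have hf1 : ∑ k ∈ univ.filter (fun k : V N => k ≠ 0), ((a * EE k)⁻¹ - (a * EE k + R)⁻¹) ≤
      (1 / a) * ((N : ℝ) ^ 2 * (SN N (1 / (N : ℝ) ^ 2) - SN N (R / a)) + 5 / 4 * (N : ℝ) ^ 2) := by
    have hp : ∀ k ∈ univ.filter (fun k : V N => k ≠ 0), (a * EE k)⁻¹ - (a * EE k + R)⁻¹ ≤
        (1 / a) * ((1 / (1 / (N : ℝ) ^ 2 + EE k) - 1 / (R / a + EE k)) +
          1 / (N : ℝ) ^ 2 * (EE k ^ 2)⁻¹) := by
      intro k hk
      have hk0 : k ≠ 0 := (mem_filter.1 hk).2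
      have hE0 := H462.EE_pos hk0
      have e1 : (a * EE k)⁻¹ = (1 / a) * (EE k)⁻¹ := by
        rw [mul_inv, one_div]
      have e2 : (a * EE k + R)⁻¹ = (1 / a) * (1 / (R / a + EE k)) := by
        field_simp
        ring
      rw [e1, e2, ← mul_sub]
      refine mul_le_mul_of_nonneg_left ?_ (by positivity)
      have h5 : (EE k)⁻¹ ≤ 1 / (1 / (N : ℝ) ^ 2 + EE k) + 1 / (N : ℝ) ^ 2 * (EE k ^ 2)⁻¹ := by
        set m := 1 / (N : ℝ) ^ 2
        have h6 : (EE k)⁻¹ - 1 / (m + EE k) = m / (EE k * (m + EE k)) := by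
          field_simp
          ring
        have h7 : m / (EE k * (m + EE k)) ≤ m * (EE k ^ 2)⁻¹ := by
          rw [← div_eq_mul_inv, pow_two]
          refine div_le_div_of_nonneg_left hm0.le (by positivity) ?_
          exact mul_le_mul_of_nonneg_left (by linarith) hE0.le
        linarith
      linarith
    refine (sum_le_sum hp).trans ?_
    rw [← mul_sum, sum_add_distrib, ← mul_sum]
    refine mul_le_mul_of_nonneg_left (add_le_add ?_ ?_) (by positivity)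
    · have h6 : ∑ k ∈ univ.filter (fun k : V N => k ≠ 0),
          (1 / (1 / (N : ℝ) ^ 2 + EE k) - 1 / (R / a + EE k)) ≤
          ∑ k : V N, (1 / (1 / (N : ℝ) ^ 2 + EE k) - 1 / (R / a + EE k)) := by
        refine sum_le_sum_of_subset_of_nonneg (filter_subset _ _) fun k _ _ => ?_
        have hE := H462.EE_nonneg k
        have : 1 / (R / a + EE k) ≤ 1 / (1 / (N : ℝ) ^ 2 + EE k) :=
          one_div_le_one_div_of_le (by positivity) (by linarith)
        linarith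
      refine h6.trans (le_of_eq ?_)
      rw [sum_sub_distrib]
      unfold SN
      field_simp
    · have := sum_gap (N := N)
      calc 1 / (N : ℝ) ^ 2 * ∑ k ∈ univ.filter (fun k : V N => k ≠ 0), (EE k ^ 2)⁻¹
          ≤ 1 / (N : ℝ) ^ 2 * (5 / 4 * (N : ℝ) ^ 4) := by gcongr
        _ = _ := by field_simp
  -- second piece
  have hf2 : ∑ k ∈ univ.filter (fun k : V N => k ≠ 0),
      (if R ≤ EE k then 4 * R / c ^ 2 * (EE k ^ 2)⁻¹ else 0) ≤ 80 / c ^ 2 * (N : ℝ) ^ 2 := by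
    calc ∑ k ∈ univ.filter (fun k : V N => k ≠ 0),
        (if R ≤ EE k then 4 * R / c ^ 2 * (EE k ^ 2)⁻¹ else 0)
        ≤ ∑ k : V N, (if R ≤ EE k then 4 * R / c ^ 2 * (EE k ^ 2)⁻¹ else 0) := by
          refine sum_le_sum_of_subset_of_nonneg (filter_subset _ _) fun k _ _ => ?_
          split_ifs
          · positivity
          · exact le_rfl
      _ = 4 * R / c ^ 2 * ∑ k ∈ univ.filter (fun k : V N => R ≤ EE k), (EE k ^ 2)⁻¹ := by
          rw [← sum_filter, mul_sum]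
      _ ≤ 4 * R / c ^ 2 * (20 * (N : ℝ) ^ 2 / R) :=
          mul_le_mul_of_nonneg_left (H462.sum_high hR) (by positivity)
      _ = _ := by
          field_simp
          ring
  -- third piece
  have hf3 : ∑ k ∈ univ.filter (fun k : V N => k ≠ 0), (2 / ν * (1 / 2 : ℝ) ^ T) ≤
      2 / ν * (1 / 2) ^ T * (N : ℝ) ^ 2 := by
    calc ∑ k ∈ univ.filter (fun k : V N => k ≠ 0), (2 / ν * (1 / 2 : ℝ) ^ T)
        ≤ ∑ k : V N, (2 / ν * (1 / 2 : ℝ) ^ T) :=
          sum_le_sum_of_subset_of_nonneg (filter_subset _ _) fun k _ _ => by positivity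
      _ = _ := by
          rw [sum_const, card_univ, nsmul_eq_mul]
          have : (Fintype.card (V N) : ℝ) = (N : ℝ) ^ 2 := TM.H764.card_V
          rw [this]
          ring
  rw [div_le_iff₀ (by positivity)]
  refine hsum.trans ?_
  have h8 : (1 / a) * ((N : ℝ) ^ 2 * (SN N (1 / (N : ℝ) ^ 2) - SN N (R / a)) +
      5 / 4 * (N : ℝ) ^ 2) ≤
      (1 / a) * ((N : ℝ) ^ 2 * (Real.log (R * (N : ℝ) ^ 2 / a) / (4 * Real.pi) + 1201) +
        5 / 4 * (N : ℝ) ^ 2) := by gcongr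
  have h9 : (1 / a) * ((N : ℝ) ^ 2 * (Real.log (R * (N : ℝ) ^ 2 / a) / (4 * Real.pi) + 1201) +
      5 / 4 * (N : ℝ) ^ 2) ≤
      (Real.log (R * (N : ℝ) ^ 2 / a) / (4 * Real.pi * a) + 1203 / a) * (N : ℝ) ^ 2 := by
    have e : (1 / a) * ((N : ℝ) ^ 2 * (Real.log (R * (N : ℝ) ^ 2 / a) / (4 * Real.pi) + 1201) +
      5 / 4 * (N : ℝ) ^ 2) =
      Real.log (R * (N : ℝ) ^ 2 / a) / (4 * Real.pi * a) * (N : ℝ) ^ 2 +
        1202.25 * ((1 / a) * (N : ℝ) ^ 2) := by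
      field_simp
      ring
    have e2 : (Real.log (R * (N : ℝ) ^ 2 / a) / (4 * Real.pi * a) + 1203 / a) * (N : ℝ) ^ 2 =
      Real.log (R * (N : ℝ) ^ 2 / a) / (4 * Real.pi * a) * (N : ℝ) ^ 2 +
        1203 * ((1 / a) * (N : ℝ) ^ 2) := by
      ring
    rw [e, e2]
    have : 0 ≤ (1 / a) * (N : ℝ) ^ 2 := by positivity
    linarith
  calc _ ≤ (Real.log (R * (N : ℝ) ^ 2 / a) / (4 * Real.pi * a) + 1203 / a) * (N : ℝ) ^ 2 +
        80 / c ^ 2 * (N : ℝ) ^ 2 + 2 / ν * (1 / 2) ^ T * (N : ℝ) ^ 2 := by linarith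
    _ = _ := by ring

end

end Vale.Agent.P159.H767
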