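import Vale.Agent.P159.H767.Cvp1
import Vale.Agent.P159.H37.Spec0L

/-!
P159, module CVP (VB10 of list V, part B), step on the window: two Gaussian laws on a finite window
whose covariances differ by a constant `t2 - t1` up to an entrywise error `ε`; the first covariance
minus `t1` is bounded below by `κ`; then `#W ε / κ ≤ η` gives the comparison of charge one means.
-/

namespace Vale.Agent.P159.H767

open MeasureTheory Finset Matrix
open Vale.Agent.P159.H37 (gau qf)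
open Vale.Agent.P159.H363 (Ch)
open scoped Real

noncomputable section

variable {W I J : Type*} [Fintype W] [Fintype I] [Fintype J]

/-- the sum of the squares of the entries is invariant under rotations -/
lemma hs_rot [DecidableEq W] {O : Matrix W W ℝ} (h1 : O * Oᵀ = 1) (E : Matrix W W ℝ) :
    ∑ x, ∑ y, (Oᵀ * E * O) x y ^ 2 = ∑ x, ∑ y, E x y ^ 2 := by
  have h4 : ∀ M : Matrix W W ℝ, ∑ x, ∑ y, M x y ^ 2 = trace (M * Mᵀ) := by
    intro M
    simp only [trace, diag_apply, mul_apply, transpose_apply, sq]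
  rw [h4, h4, transpose_mul, transpose_mul, transpose_transpose]
  have : Oᵀ * E * O * (Oᵀ * (Eᵀ * O)) = Oᵀ * (E * Eᵀ) * O := by
    calc _ = Oᵀ * E * (O * Oᵀ) * (Eᵀ * O) := by simp only [Matrix.mul_assoc]
      _ = _ := by
        rw [h1, Matrix.mul_one]
        simp only [Matrix.mul_assoc]
  rw [this, trace_mul_comm, ← Matrix.mul_assoc, h1, Matrix.one_mul]

/-- root and relative perturbation -/
lemma exists_rel [DecidableEq W] {P E : Matrix W W ℝ} (hP : Pᵀ = P) (hE : Eᵀ = E) {κ : ℝ}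
    (hκ : 0 < κ) (hfl : ∀ u : W → ℝ, κ * ∑ x, u x ^ 2 ≤ qf P u) :
    ∃ B H : Matrix W W ℝ, P = B * Bᵀ ∧ Hᵀ = H ∧ E = B * H * Bᵀ ∧
      κ ^ 2 * ∑ x, ∑ y, H x y ^ 2 ≤ ∑ x, ∑ y, E x y ^ 2 := by
  obtain ⟨O, p, h1, h2, h3, -⟩ := H552.spec_real hP
  have hp : ∀ i, κ ≤ p i := by
    intro i
    have h := hfl (fun x => O x i)
    have e1 : ∑ x, O x i ^ 2 = 1 := by
      have := congrFun (congrFun h2 i) i
      rw [mul_apply, one_apply_eq] at this
      simpa [transpose_apply, sq] using this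
    have e2 : qf P (fun x => O x i) = p i := by
      have e3 : Oᵀ * P * O = diagonal p := by
        rw [h3]
        calc Oᵀ * (O * diagonal p * Oᵀ) * O = (Oᵀ * O) * diagonal p * (Oᵀ * O) := by
              simp only [Matrix.mul_assoc]
          _ = _ := by rw [h2, Matrix.one_mul, Matrix.mul_one]
      have e4 := congrFun (congrFun e3 i) i
      rw [diagonal_apply_eq] at e4
      rw [← e4]
      simp only [qf, mul_apply, transpose_apply]
      rw [Finset.sum_comm]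
      refine Finset.sum_congr rfl fun y _ => ?_
      rw [Finset.sum_mul]
    rwa [e1, e2, mul_one] at h
  have hp0 : ∀ i, 0 < p i := fun i => hκ.trans_le (hp i)
  have hs0 : ∀ i, √(p i) ≠ 0 := fun i => (Real.sqrt_pos.2 (hp0 i)).ne'
  set D : Matrix W W ℝ := diagonal fun i => √(p i) with hD
  set D' : Matrix W W ℝ := diagonal fun i => (√(p i))⁻¹ with hD'
  have hDD : D * D' = 1 := by
    rw [hD, hD', diagonal_mul_diagonal, ← diagonal_one]
    congr 1
    funext i
    exact mul_inv_cancel₀ (hs0 i)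
  have hDD' : D' * D = 1 := mul_eq_one_comm.mp hDD
  set M : Matrix W W ℝ := Oᵀ * E * O with hM
  have hMt : Mᵀ = M := by
    rw [hM, transpose_mul, transpose_mul, transpose_transpose, hE]
    simp only [Matrix.mul_assoc]
  refine ⟨O * D, D' * M * D', ?_, ?_, ?_, ?_⟩
  · rw [transpose_mul, h3, hD, diagonal_transpose]
    have : (diagonal p : Matrix W W ℝ) = diagonal (fun i => √(p i)) * diagonal fun i => √(p i) := by
      rw [diagonal_mul_diagonal]
      congr 1
      funext i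
      rw [Real.mul_self_sqrt (hp0 i).le]
    rw [this]
    simp only [Matrix.mul_assoc]
  · rw [transpose_mul, transpose_mul, hMt, hD', diagonal_transpose]
    simp only [Matrix.mul_assoc]
  · rw [transpose_mul]
    have hDt : Dᵀ = D := by rw [hD, diagonal_transpose]
    rw [hDt]
    calc E = (O * Oᵀ) * E * (O * Oᵀ) := by rw [h1, Matrix.one_mul, Matrix.mul_one]
      _ = O * M * Oᵀ := by
        rw [hM]
        simp only [Matrix.mul_assoc]
      _ = O * (D * D') * M * (D' * D) * Oᵀ := by rw [hDD, hDD', Matrix.mul_one, Matrix.mul_one]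
      _ = _ := by simp only [Matrix.mul_assoc]
  · rw [← hs_rot h1 E, Finset.mul_sum]
    refine Finset.sum_le_sum fun x _ => ?_
    rw [Finset.mul_sum]
    refine Finset.sum_le_sum fun y _ => ?_
    rw [hD', mul_diagonal, diagonal_mul, ← hM]
    have hx := hp x
    have hy := hp y
    have e : ((√(p x))⁻¹ * M x y * (√(p y))⁻¹) ^ 2 = M x y ^ 2 / (p x * p y) := by
      rw [mul_pow, mul_pow, inv_pow, inv_pow, Real.sq_sqrt (hp0 x).le, Real.sq_sqrt (hp0 y).le]
      have := (hp0 x).ne'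
      have := (hp0 y).ne'
      field_simp
    rw [e, ← mul_div_assoc, div_le_iff₀ (mul_pos (hp0 x) (hp0 y)), mul_comm]
    refine mul_le_mul_of_nonneg_left ?_ (sq_nonneg _)
    rw [sq]
    exact mul_le_mul hx hy hκ.le (hp0 x).le

/-- `1 + H` has a root when `H` is Hilbert-Schmidt small -/
lemma exists_root_one_add [DecidableEq W] {B H : Matrix W W ℝ} (hH : Hᵀ = H) {η : ℝ} (hη : 0 ≤ η)
    (hη2 : η ≤ 1 / 2) (hHS : ∑ x, ∑ y, H x y ^ 2 ≤ η ^ 2) :
    ∃ B₂ : Matrix W W ℝ, B₂ * B₂ᵀ = B * (1 + H) * Bᵀ := by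
  obtain ⟨O, a, h1, _, h3, hsum⟩ := H552.spec_real hH
  have hai : ∀ i, |a i| ≤ 1 / 2 := fun i => by
    have h4 : a i ^ 2 ≤ η ^ 2 :=
      (Finset.single_le_sum (f := fun i => a i ^ 2) (fun j _ => sq_nonneg _)
        (Finset.mem_univ i)).trans (hsum.le.trans hHS)
    exact (abs_le_of_sq_le_sq h4 hη).trans hη2
  have ha1 : ∀ i, 0 < 1 + a i := fun i => by
    have := (abs_le.1 (hai i)).1
    linarith
  refine ⟨B * O * diagonal fun i => √(1 + a i), ?_⟩
  have h5 : (1 : Matrix W W ℝ) + H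
      = O * diagonal (fun i => √(1 + a i)) * diagonal (fun i => √(1 + a i)) * Oᵀ := by
    rw [Matrix.mul_assoc O, diagonal_mul_diagonal]
    have e : (diagonal fun i => √(1 + a i) * √(1 + a i)) = 1 + diagonal a := by
      rw [← diagonal_one, diagonal_add]
      congr 1
      funext i
      rw [Real.mul_self_sqrt (ha1 i).le]
    rw [e, Matrix.mul_add, Matrix.mul_one, Matrix.add_mul, h1, ← h3]
  rw [h5, transpose_mul, transpose_mul, diagonal_transpose]
  simp only [Matrix.mul_assoc]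

/-- **(CVP on a window)** -/
theorem cvp_win {A₁ : Matrix W I ℝ} {A₂ : Matrix W J ℝ} {t1 t2 κ ε η : ℝ} (ht1 : 0 ≤ t1)
    (ht2 : 0 ≤ t2) (hκ : 0 < κ) (hε : 0 ≤ ε)
    (hfl : ∀ u : W → ℝ, κ * ∑ x, u x ^ 2 + t1 * (∑ x, u x) ^ 2 ≤ qf (A₁ * A₁ᵀ) u)
    (hE : ∀ x y, |(A₂ * A₂ᵀ) x y - (A₁ * A₁ᵀ) x y - (t2 - t1)| ≤ ε)
    (hη : Fintype.card W * ε ≤ κ * η) (hη2 : η ≤ 1 / 2) {ψ : (W → ℝ) → ℂ} (hch : Ch ψ)
    (hm : StronglyMeasurable ψ) {C : ℝ} (hC : ∀ F, ‖ψ F‖ ≤ C) :
    ‖∫ g, ψ (A₂ *ᵥ g) ∂(gau J)‖ ≤ Real.exp (-(2 * π ^ 2 * t2)) *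
      (Real.exp (2 * π ^ 2 * t1) * ‖∫ g, ψ (A₁ *ᵥ g) ∂(gau I)‖ +
        2 * η * √(∫ g, ‖ψ (A₁ *ᵥ g)‖ ^ 2 ∂(gau I))) := by
  classical
  have hη0 : 0 ≤ η := by
    have h1 : (0 : ℝ) ≤ Fintype.card W * ε := by positivity
    have h2 : 0 ≤ κ * η := h1.trans hη
    exact nonneg_of_mul_nonneg_right h2 hκ
  set P : Matrix W W ℝ := A₁ * A₁ᵀ - cst W t1 with hPd
  set E : Matrix W W ℝ := A₂ * A₂ᵀ - A₁ * A₁ᵀ - cst W (t2 - t1) with hEd
  have hct : ∀ a : ℝ, (cst W a)ᵀ = cst W a := fun a => by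
    ext x y
    rfl
  have hP : Pᵀ = P := by
    rw [hPd, transpose_sub, transpose_mul, transpose_transpose, hct]
  have hEt : Eᵀ = E := by
    rw [hEd, transpose_sub, transpose_sub, transpose_mul, transpose_transpose, transpose_mul,
      transpose_transpose, hct]
  have hfl' : ∀ u : W → ℝ, κ * ∑ x, u x ^ 2 ≤ qf P u := by
    intro u
    have h1 := hfl u
    have h2 : qf P u = qf (A₁ * A₁ᵀ) u - t1 * (∑ x, u x) ^ 2 := by
      rw [hPd]
      simp only [qf, Matrix.sub_apply, cst, of_apply]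
      rw [sq, Finset.sum_mul_sum, Finset.mul_sum, ← Finset.sum_sub_distrib]
      refine Finset.sum_congr rfl fun x _ => ?_
      rw [Finset.mul_sum, ← Finset.sum_sub_distrib]
      refine Finset.sum_congr rfl fun y _ => ?_
      ring
    rw [h2]
    linarith
  obtain ⟨B, H, hB, hHt, hEB, hHS⟩ := exists_rel hP hEt hκ hfl'
  have hHS2 : ∑ x, ∑ y, H x y ^ 2 ≤ η ^ 2 := by
    have h1 : ∑ x, ∑ y, E x y ^ 2 ≤ (Fintype.card W * ε) ^ 2 := by
      have h2 : ∀ x y, E x y ^ 2 ≤ ε ^ 2 := by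
        intro x y
        have h3 := hE x y
        have h4 : E x y = (A₂ * A₂ᵀ) x y - (A₁ * A₁ᵀ) x y - (t2 - t1) := rfl
        rw [h4]
        exact sq_le_sq' (by linarith [(abs_le.1 h3).1]) (abs_le.1 h3).2
      calc ∑ x, ∑ y, E x y ^ 2 ≤ ∑ _x : W, ∑ _y : W, ε ^ 2 :=
            Finset.sum_le_sum fun x _ => Finset.sum_le_sum fun y _ => h2 x y
        _ = _ := by
          rw [Finset.sum_const, Finset.sum_const, Finset.card_univ, nsmul_eq_mul, nsmul_eq_mul]
          ring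
    have h5 : (Fintype.card W * ε) ^ 2 ≤ (κ * η) ^ 2 :=
      pow_le_pow_left₀ (by positivity) hη 2
    have h6 : κ ^ 2 * ∑ x, ∑ y, H x y ^ 2 ≤ κ ^ 2 * η ^ 2 := by
      rw [← mul_pow]
      exact hHS.trans (h1.trans h5)
    exact le_of_mul_le_mul_left h6 (by positivity)
  obtain ⟨B₂, hB₂⟩ := exists_root_one_add (B := B) hHt hη0 hη2 hHS2
  have e1 : A₁ * A₁ᵀ = B * Bᵀ + cst W t1 := by
    rw [← hB, hPd, sub_add_cancel]
  have e2 : A₂ * A₂ᵀ = B₂ * B₂ᵀ + cst W t2 := by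
    rw [hB₂, Matrix.mul_add, Matrix.mul_one, Matrix.add_mul, ← hB, ← hEB, hPd, hEd]
    have : cst W t2 = cst W t1 + cst W (t2 - t1) := by
      ext x y
      simp only [cst, Matrix.add_apply, of_apply]
      ring
    rw [this]
    abel
  exact cvp_abs ht1 ht2 e1 e2 hHt hB₂ hη0 hη2 hHS2 hch hm hC

end

end Vale.Agent.P159.H767
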