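import Vale.Agent.P159.H767.Cvp3
import Vale.Agent.P159.H462.In3b
import Vale.Agent.P159.H363.Inst
import Vale.Agent.P159.H363.CapTor

/-!
P159, module CVP (VB10 of list V, part B): lower bound of the noise covariance on a window of the
small torus. `Γ₀ = Γ - (s/N²) J` (constant mode removed), `q = 1` on the window, `m` its mean,
`c₀ = <A q, q> + |q|²/s`: `(1 - m)² (∑ v)² ≤ c₀ <v, Γ₀ v>`, `Γ₀ ≥ (s/(1+sν)) (1 - avg)`.
-/

set_option linter.unusedSectionVars false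

namespace Vale.Agent.P159.H767

open Finset Matrix
open Vale.Agent.P159.TM.H764 (EE cN dt)
open Vale.Agent.P159.TM.Spec (V)
open Vale.Agent.P159.H37 (qf bf gau)
open Vale.Agent.P159.H864 (TI sym fc mlt)
open Vale.Agent.P159.H462 (Dom Gam ti_Gam sym_Gam avgM ti_avgM sym_avgM)
open Vale.Agent.P159.H363 (gm ti_gm gm_mul row_sum Ch)

noncomputable section

variable {N : ℕ} [NeZero N] {A : Matrix (V N) (V N) ℝ} {ν c s : ℝ}

/-- `Γ` without the constant mode -/
def Gam0 (s : ℝ) (A : Matrix (V N) (V N) ℝ) : Matrix (V N) (V N) ℝ := Gam s A - s • avgM N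

lemma ti_Gam0 (s : ℝ) (A : Matrix (V N) (V N) ℝ) : TI (Gam0 s A) :=
  (ti_Gam s A).sub (ti_avgM.smul s)

lemma sym_Gam0 (h : Dom A ν c) (s : ℝ) (k : V N) :
    sym (Gam0 s A) k = if k = 0 then 0 else s * (1 + s * sym A k)⁻¹ := by
  unfold Gam0
  rw [H864.sym_sub, sym_Gam, H864.sym_smul, sym_avgM]
  split_ifs with hk
  · rw [hk, h.zero]
    simp
  · simp

lemma Gam0_psd (h : Dom A ν c) (hs : 0 < s) (v : V N → ℝ) : 0 ≤ qf (Gam0 s A) v := by
  refine (H864.psd_iff (ti_Gam0 s A)).2 (fun k => ?_) v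
  rw [sym_Gam0 h]
  have := h.nn k
  split_ifs
  · exact le_rfl
  · positivity

lemma Gam0_mul (h : Dom A ν c) (hs : 0 < s) :
    Gam0 s A * (A + s⁻¹ • (1 : Matrix (V N) (V N) ℝ)) = 1 - avgM N := by
  have hT : TI (A + s⁻¹ • (1 : Matrix (V N) (V N) ℝ)) := h.ti.add (TI.one.smul _)
  refine H864.sym_inj ((ti_Gam0 _ _).mul hT) (TI.one.sub ti_avgM) fun k => ?_
  rw [H864.sym_mul (ti_Gam0 _ _) hT, sym_Gam0 h, H864.sym_add, H864.sym_smul, H864.sym_one,
    H864.sym_sub, H864.sym_one, sym_avgM]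
  have := h.nn k
  have h1 : 0 < 1 + s * sym A k := by positivity
  split_ifs with hk
  · ring
  · field_simp
    ring

lemma qf_avgM (v : V N → ℝ) : qf (avgM N) v = ((N : ℝ) ^ 2)⁻¹ * (∑ x, v x) ^ 2 := by
  unfold qf avgM
  simp only [of_apply]
  rw [sq (∑ x, v x), Finset.sum_mul_sum, Finset.mul_sum]
  refine Finset.sum_congr rfl fun x _ => ?_
  rw [Finset.mul_sum]
  refine Finset.sum_congr rfl fun y _ => ?_
  ring

lemma qf_one (v : V N → ℝ) : qf (1 : Matrix (V N) (V N) ℝ) v = ∑ x, v x ^ 2 := by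
  have := H37.qf_smul_one (V := V N) 1 v
  rw [one_smul, one_mul] at this
  exact this

/-- lower bound without capacity -/
lemma Gam0_floor (h : Dom A ν c) (hs : 0 < s) (v : V N → ℝ) :
    s / (1 + s * ν) * (∑ x, v x ^ 2 - ((N : ℝ) ^ 2)⁻¹ * (∑ x, v x) ^ 2) ≤ qf (Gam0 s A) v := by
  have hν := h.hν
  have hT : TI ((s / (1 + s * ν)) • (1 - avgM N)) := (TI.one.sub ti_avgM).smul _
  have h1 := (H864.qf_le_iff hT (ti_Gam0 s A)).2 (fun k => by
    rw [H864.sym_smul, H864.sym_sub, H864.sym_one, sym_avgM, sym_Gam0 h]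
    have h0 := h.nn k
    have h2 := h.le k
    split_ifs with hk
    · simp
    · rw [sub_zero, mul_one, div_eq_mul_inv]
      gcongr) v
  refine le_trans (le_of_eq ?_) h1
  have e1 : qf ((s / (1 + s * ν)) • (1 - avgM N)) v = s / (1 + s * ν) * qf (1 - avgM N) v := by
    unfold qf
    rw [Finset.mul_sum]
    refine Finset.sum_congr rfl fun x _ => ?_
    rw [Finset.mul_sum]
    refine Finset.sum_congr rfl fun y _ => ?_
    rw [Matrix.smul_apply, smul_eq_mul]
    ring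
  rw [e1, H864.qf_sub_mat, qf_one, qf_avgM]

/-- lower bound by the capacity, constant mode removed -/
lemma Gam0_cap (h : Dom A ν c) (hs : 0 < s) {q v : V N → ℝ} (hq : ∀ x, v x ≠ 0 → q x = 1)
    {c0 : ℝ} (hc0 : 0 < c0) (hc : (A *ᵥ q) ⬝ᵥ q + s⁻¹ * ∑ x, q x ^ 2 ≤ c0) :
    (1 - ((N : ℝ) ^ 2)⁻¹ * ∑ x, q x) ^ 2 * (∑ x, v x) ^ 2 ≤ c0 * qf (Gam0 s A) v := by
  set m : ℝ := ((N : ℝ) ^ 2)⁻¹ * ∑ x, q x with hm
  set p : V N → ℝ := (A + s⁻¹ • (1 : Matrix (V N) (V N) ℝ)) *ᵥ q with hp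
  have hN := H864.N_pos (N := N)
  have hGt : (Gam0 s A)ᵀ = Gam0 s A := (ti_Gam0 s A).transpose
  have h1 : Gam0 s A *ᵥ p = fun x => q x - m := by
    rw [hp, mulVec_mulVec, Gam0_mul h hs, sub_mulVec, one_mulVec]
    funext x
    rw [Pi.sub_apply]
    congr 1
    rw [hm]
    unfold avgM
    simp only [mulVec, dotProduct, of_apply]
    rw [← Finset.mul_sum]
  have h2 : bf (Gam0 s A) v p = (1 - m) * ∑ x, v x := by
    rw [H37.bf_eq, h1]
    simp only [dotProduct]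
    rw [Finset.mul_sum]
    refine Finset.sum_congr rfl fun x _ => ?_
    by_cases hv : v x = 0
    · rw [hv]
      ring
    · rw [hq x hv]
      ring
  have hAq : ∑ x, (A *ᵥ q) x = 0 := by
    simp only [mulVec, dotProduct]
    rw [Finset.sum_comm]
    refine Finset.sum_eq_zero fun y _ => ?_
    rw [← Finset.sum_mul]
    have : ∑ x, A x y = 0 := by
      have h3 := row_sum h.ti y
      rw [h.zero] at h3
      rw [← h3]
      exact Finset.sum_congr rfl fun x _ => h.ti.sy x y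
    rw [this, zero_mul]
  have hps : ∀ x, p x = (A *ᵥ q) x + s⁻¹ * q x := by
    intro x
    rw [hp, add_mulVec, smul_mulVec, one_mulVec]
    rfl
  have h3 : qf (Gam0 s A) p ≤ c0 := by
    rw [H37.qf_eq, h1]
    refine le_trans ?_ hc
    have e1 : p ⬝ᵥ (fun x => q x - m) = ∑ x, p x * q x - m * ∑ x, p x := by
      simp only [dotProduct]
      rw [Finset.mul_sum, ← Finset.sum_sub_distrib]
      refine Finset.sum_congr rfl fun x _ => ?_
      ring
    have e2 : ∑ x, p x * q x = (A *ᵥ q) ⬝ᵥ q + s⁻¹ * ∑ x, q x ^ 2 := by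
      simp only [dotProduct]
      rw [Finset.mul_sum, ← Finset.sum_add_distrib]
      refine Finset.sum_congr rfl fun x _ => ?_
      rw [hps]
      ring
    have e3 : ∑ x, p x = s⁻¹ * ∑ x, q x := by
      simp only [hps]
      rw [Finset.sum_add_distrib, hAq, zero_add, Finset.mul_sum]
    rw [e1, e2, e3]
    have e4 : 0 ≤ m * (s⁻¹ * ∑ x, q x) := by
      have e5 : m * (s⁻¹ * ∑ x, q x) = s⁻¹ * ((N : ℝ) ^ 2)⁻¹ * (∑ x, q x) ^ 2 := by
        rw [hm]
        ring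
      rw [e5]
      positivity
    linarith
  set β : ℝ := (1 - m) * ∑ x, v x with hβ
  have h4 := Gam0_psd h hs (v - (β / c0) • p)
  rw [H37.qf_sub_vec hGt, H37.qf_smul, H37.bf_smul_right, h2] at h4
  have h5 : (β / c0) ^ 2 * qf (Gam0 s A) p ≤ β ^ 2 / c0 := by
    calc (β / c0) ^ 2 * qf (Gam0 s A) p ≤ (β / c0) ^ 2 * c0 :=
          mul_le_mul_of_nonneg_left h3 (sq_nonneg _)
      _ = β ^ 2 / c0 := by field_simp
  have h6 : β ^ 2 / c0 ≤ qf (Gam0 s A) v := by
    have e : 2 * (β / c0 * β) = 2 * (β ^ 2 / c0) := by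
      ring
    linarith
  rw [div_le_iff₀ hc0] at h6
  rw [← mul_pow, ← hβ]
  linarith

end

end Vale.Agent.P159.H767
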