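import Vale.Agent.P159.H767.Cvp2
import Vale.Agent.P159.H767.Cvp4
import Vale.Agent.P159.H864.Cel3

/-!
P159, module CVP (VB10 of list V, part B): the part `m ≥ T` of the series of `Γ` is almost constant
on a window: `0 ≤ g(0) - g(z) ≤ D² (40 R/c² + (16/ν) 2^(-T))`, `R = (ν + 1/s)/T`, `|z| ≤ D`.
-/

set_option linter.unusedSectionVars false

namespace Vale.Agent.P159.H767

open Finset Matrix
open Vale.Agent.P159.TM.H764 (EE cN sN dt)
open Vale.Agent.P159.TM.Spec (V)
open Vale.Agent.P159.H37 (qf bf gau)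
open Vale.Agent.P159.H864 (TI sym fc mlt)
open Vale.Agent.P159.H462 (Dom Gam ti_Gam sym_Gam avgM ti_avgM sym_avgM)

noncomputable section

/-- the point of the torus -/
def pt (N : ℕ) (z : ℤ × ℤ) : V N := ((z.1 : ZMod N), (z.2 : ZMod N))

lemma pt_sub (N : ℕ) (z z' : ℤ × ℤ) : pt N z - pt N z' = pt N (z - z') := by
  unfold pt
  ext <;> simp

lemma pt_zero (N : ℕ) : pt N 0 = 0 := by
  unfold pt
  ext <;> simp

variable {N : ℕ} [NeZero N] {A B : Matrix (V N) (V N) ℝ} {ν c s : ℝ} {T : ℕ}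

lemma one_sub_cN_int (p : ZMod N) {a : ℤ} {D : ℕ} (ha : |a| ≤ D) :
    1 - cN (p * (a : ZMod N)) ≤ (D : ℝ) ^ 2 * (1 - cN p) := by
  have hc : 0 ≤ 1 - cN p := by linarith [TM.H764.cN_le_one p]
  have h1 : 1 - cN (p * (a : ZMod N)) = 1 - cN (p * (a.natAbs : ZMod N)) := by
    rcases Int.natAbs_eq a with h | h
    · conv_lhs => rw [h]
      rw [Int.cast_natCast]
    · conv_lhs => rw [h]
      rw [Int.cast_neg, Int.cast_natCast, mul_neg, TM.H764.cN_neg]
  rw [h1]
  refine (H864.one_sub_cN_mul_nat p _).trans (mul_le_mul_of_nonneg_right ?_ hc)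
  have h2 : a.natAbs ≤ D := by
    have := Int.natCast_natAbs a
    omega
  have h3 : (a.natAbs : ℝ) ≤ D := by exact_mod_cast h2
  exact pow_le_pow_left₀ (Nat.cast_nonneg _) h3 2

lemma one_sub_cN_pt (k : V N) {z : ℤ × ℤ} {D : ℕ} (h1 : |z.1| ≤ D) (h2 : |z.2| ≤ D) :
    1 - cN (dt k (pt N z)) ≤ (D : ℝ) ^ 2 * EE k := by
  have h3 := one_sub_cN_int k.1 h1
  have h4 := one_sub_cN_int k.2 h2
  have h5 := H864.one_sub_cN_add (k.1 * (z.1 : ZMod N)) (k.2 * (z.2 : ZMod N))
  have e : dt k (pt N z) = k.1 * (z.1 : ZMod N) + k.2 * (z.2 : ZMod N) := rfl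
  rw [e]
  unfold EE
  nlinarith

/-- oscillation of a positive definite translation invariant kernel on a window -/
lemma osc_le (hB : TI B) (h0 : ∀ k, 0 ≤ sym B k) {z : ℤ × ℤ} {D : ℕ} (h1 : |z.1| ≤ D)
    (h2 : |z.2| ≤ D) : 0 ≤ B 0 0 - B 0 (pt N z) ∧ B 0 0 - B 0 (pt N z) ≤
      (D : ℝ) ^ 2 * ((∑ k ∈ univ.filter (fun k : V N => k ≠ 0), sym B k * EE k) / (N : ℝ) ^ 2) := by
  have hN := H864.N_pos (N := N)
  have e0 : B 0 0 - B 0 (pt N z) =
      ((N : ℝ) ^ 2)⁻¹ * ∑ k, sym B k * (1 - cN (dt k (pt N z))) := by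
    rw [hB.inversion 0 0, hB.inversion 0 (pt N z), ← mul_sub, ← Finset.sum_sub_distrib]
    congr 1
    refine Finset.sum_congr rfl fun k _ => ?_
    rw [sub_zero, sub_zero, H864.dt_zero, TM.H764.cN_zero]
    ring
  rw [e0]
  constructor
  · refine mul_nonneg (by positivity) (Finset.sum_nonneg fun k _ => mul_nonneg (h0 k) ?_)
    linarith [TM.H764.cN_le_one (dt k (pt N z))]
  · have h3 : ∑ k, sym B k * (1 - cN (dt k (pt N z))) =
        ∑ k ∈ univ.filter (fun k : V N => k ≠ 0), sym B k * (1 - cN (dt k (pt N z))) := by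
      rw [Finset.sum_filter]
      refine Finset.sum_congr rfl fun k _ => ?_
      split_ifs with hk
      · rfl
      · rw [not_not] at hk
        rw [hk, H864.dt_zero_left, TM.H764.cN_zero]
        ring
    have h4 : ∑ k ∈ univ.filter (fun k : V N => k ≠ 0), sym B k * (1 - cN (dt k (pt N z))) ≤
        ∑ k ∈ univ.filter (fun k : V N => k ≠ 0), (D : ℝ) ^ 2 * (sym B k * EE k) := by
      refine Finset.sum_le_sum fun k _ => ?_
      have := mul_le_mul_of_nonneg_left (one_sub_cN_pt k h1 h2) (h0 k)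
      linarith
    rw [h3]
    calc ((N : ℝ) ^ 2)⁻¹ * ∑ k ∈ univ.filter (fun k : V N => k ≠ 0),
          sym B k * (1 - cN (dt k (pt N z)))
        ≤ ((N : ℝ) ^ 2)⁻¹ * ∑ k ∈ univ.filter (fun k : V N => k ≠ 0),
          (D : ℝ) ^ 2 * (sym B k * EE k) := mul_le_mul_of_nonneg_left h4 (by positivity)
      _ = _ := by
        rw [← Finset.mul_sum]
        ring

/-- `∑ gT EE` -/
theorem sum_gT_EE (h : Dom A ν c) (hs : 0 < s) (hT : 1 ≤ T) :
    (∑ k ∈ univ.filter (fun k : V N => k ≠ 0), gT s ν T (sym A k) * EE k) / (N : ℝ) ^ 2 ≤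
      40 * RT s ν T / c ^ 2 + 16 / ν * (1 / 2) ^ T := by
  have hν := h.hν
  have hc := h.hc
  have hN' : (0 : ℝ) < N := by exact_mod_cast NeZero.pos N
  have hT' : (0 : ℝ) < T := by exact_mod_cast hT
  have hR := RT_pos hs hν hT
  have hs' : 0 < s⁻¹ := inv_pos.2 hs
  set R := RT s ν T with hRd
  have hpt : ∀ k ∈ univ.filter (fun k : V N => k ≠ 0), gT s ν T (sym A k) * EE k ≤
      32 * R ^ 2 / c ^ 3 * ((EE k + 4 * R / c) ^ 2)⁻¹ + 16 / ν * (1 / 2) ^ T := by
    intro k hk
    have hk0 : k ≠ 0 := (mem_filter.1 hk).2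
    have hE0 := H462.EE_pos hk0
    set φ := sym A k with hφ
    have h0 : 0 ≤ φ := h.nn k
    have h1 : φ ≤ ν := h.le k
    have hp2 : 0 ≤ 32 * R ^ 2 / c ^ 3 * ((EE k + 4 * R / c) ^ 2)⁻¹ := by positivity
    have hp3 : (0 : ℝ) ≤ 16 / ν * (1 / 2) ^ T := by positivity
    have hq : (0 : ℝ) ≤ (ν - φ) / (ν + s⁻¹) := by
      have : 0 ≤ ν - φ := by linarith
      positivity
    rcases le_or_gt (ν / 2) φ with hr | hr
    · have h4 : gT s ν T φ ≤ 2 / ν * (1 / 2) ^ T := by
        unfold gT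
        have h5 : (φ + s⁻¹)⁻¹ ≤ 2 / ν := by
          rw [inv_le_comm₀ (by linarith) (by positivity), inv_div]
          linarith
        have h6 : (ν - φ) / (ν + s⁻¹) ≤ 1 / 2 := by
          rw [div_le_iff₀ (by positivity)]
          linarith
        exact mul_le_mul h5 (pow_le_pow_left₀ hq h6 T) (by positivity) (by positivity)
      have hE8 : EE k ≤ 8 := by
        unfold EE
        have h5 := (TM.H764.neg_one_le_cN k.1)
        have h6 := (TM.H764.neg_one_le_cN k.2)
        linarith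
      have h7 : gT s ν T φ * EE k ≤ 2 / ν * (1 / 2) ^ T * 8 :=
        mul_le_mul h4 hE8 hE0.le (by positivity)
      have h8 : 2 / ν * (1 / 2 : ℝ) ^ T * 8 = 16 / ν * (1 / 2) ^ T := by ring
      linarith
    · have h4 : c * EE k / 2 ≤ φ := by
        have h2 := h.ge k
        have h5 := h2.trans_lt hr
        have hcE : 0 < c * EE k := by positivity
        rw [div_lt_iff₀ (by positivity)] at h5
        have h6 : c * EE k < ν := by nlinarith
        refine le_trans ?_ h2
        rw [div_le_div_iff₀ (by norm_num) (by positivity)]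
        nlinarith
      have h7 : 0 < φ := lt_of_lt_of_le (by positivity) h4
      -- the power is at most `exp (-φ/R)`
      have h8 : ((ν - φ) / (ν + s⁻¹)) ^ T ≤ Real.exp (-(φ / R)) := by
        have h3 : (ν - φ) / (ν + s⁻¹) ≤ Real.exp (-((φ + s⁻¹) / (T * R))) := by
          rw [ratio_eq hs hν hT, add_comm]
          exact Real.add_one_le_exp _
        refine (pow_le_pow_left₀ hq h3 T).trans ?_
        rw [← Real.exp_nat_mul]
        apply Real.exp_le_exp.2
        have e : (T : ℝ) * -((φ + s⁻¹) / (T * R)) = -((φ + s⁻¹) / R) := by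
          field_simp
        rw [e]
        have : φ / R ≤ (φ + s⁻¹) / R := div_le_div_of_nonneg_right (by linarith) hR.le
        linarith
      have h9 : Real.exp (-(φ / R)) ≤ 4 * R ^ 2 / (2 * R + φ) ^ 2 := by
        have h10 : (1 + φ / (2 * R)) ^ 2 ≤ Real.exp (φ / R) := by
          have h11 := Real.add_one_le_exp (φ / (2 * R))
          have h12 : Real.exp (φ / R) = Real.exp (φ / (2 * R)) ^ 2 := by
            rw [← Real.exp_nat_mul]
            congr 1
            push_cast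
            field_simp
          rw [h12]
          refine pow_le_pow_left₀ (by positivity) (by linarith) 2
        rw [Real.exp_neg]
        have h13 : 4 * R ^ 2 / (2 * R + φ) ^ 2 = ((1 + φ / (2 * R)) ^ 2)⁻¹ := by
          have : 0 < 2 * R + φ := by positivity
          field_simp
          ring
        rw [h13]
        exact inv_anti₀ (by positivity) h10
      have h10 : gT s ν T φ * EE k ≤ 2 / c * (4 * R ^ 2 / (2 * R + φ) ^ 2) := by
        unfold gT
        have h11 : (φ + s⁻¹)⁻¹ * EE k ≤ 2 / c := by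
          rw [inv_mul_le_iff₀ (by positivity)]
          have h12 : EE k ≤ 2 / c * φ := by
            rw [div_mul_eq_mul_div, le_div_iff₀ hc]
            linarith
          have h13 : 0 ≤ 2 / c * s⁻¹ := by positivity
          linarith
        calc (φ + s⁻¹)⁻¹ * ((ν - φ) / (ν + s⁻¹)) ^ T * EE k
            = (φ + s⁻¹)⁻¹ * EE k * ((ν - φ) / (ν + s⁻¹)) ^ T := by ring
          _ ≤ _ := mul_le_mul h11 (h8.trans h9) (by positivity) (by positivity)
      have h14 : 2 / c * (4 * R ^ 2 / (2 * R + φ) ^ 2) ≤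
          32 * R ^ 2 / c ^ 3 * ((EE k + 4 * R / c) ^ 2)⁻¹ := by
        have h15 : c / 2 * (EE k + 4 * R / c) ≤ 2 * R + φ := by
          have : c / 2 * (EE k + 4 * R / c) = c * EE k / 2 + 2 * R := by
            field_simp
            ring
          linarith
        have h16 : 2 / c * (4 * R ^ 2 / (2 * R + φ) ^ 2) ≤
            2 / c * (4 * R ^ 2 / (c / 2 * (EE k + 4 * R / c)) ^ 2) := by
          gcongr
        refine h16.trans (le_of_eq ?_)
        field_simp
        ring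
      linarith
  have hsum := sum_le_sum hpt
  rw [sum_add_distrib, ← mul_sum] at hsum
  have hx0 : 0 < 4 * R / c := by positivity
  have h1 := H462.sum_inv_sq (N := N) hx0
  have h2 : ∑ k ∈ univ.filter (fun k : V N => k ≠ 0), (16 / ν * (1 / 2 : ℝ) ^ T) ≤
      16 / ν * (1 / 2) ^ T * (N : ℝ) ^ 2 := by
    calc ∑ k ∈ univ.filter (fun k : V N => k ≠ 0), (16 / ν * (1 / 2 : ℝ) ^ T)
        ≤ ∑ k : V N, (16 / ν * (1 / 2 : ℝ) ^ T) :=
          sum_le_sum_of_subset_of_nonneg (filter_subset _ _) fun k _ _ => by positivity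
      _ = _ := by
          rw [sum_const, card_univ, nsmul_eq_mul]
          have : (Fintype.card (V N) : ℝ) = (N : ℝ) ^ 2 := TM.H764.card_V
          rw [this]
          ring
  have h3 : 32 * R ^ 2 / c ^ 3 * ∑ k ∈ univ.filter (fun k : V N => k ≠ 0),
      ((EE k + 4 * R / c) ^ 2)⁻¹ ≤ 40 * R / c ^ 2 * (N : ℝ) ^ 2 := by
    calc _ ≤ 32 * R ^ 2 / c ^ 3 * (5 * (N : ℝ) ^ 2 / (4 * R / c)) :=
          mul_le_mul_of_nonneg_left h1 (by positivity)
      _ = _ := by
          field_simp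
          ring
  rw [div_le_iff₀ (by positivity)]
  refine hsum.trans ?_
  have : (40 * R / c ^ 2 + 16 / ν * (1 / 2) ^ T) * (N : ℝ) ^ 2 =
    40 * R / c ^ 2 * (N : ℝ) ^ 2 + 16 / ν * (1 / 2) ^ T * (N : ℝ) ^ 2 := by ring
  rw [this]
  linarith

end

end Vale.Agent.P159.H767
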