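import Vale.Agent.P159.H767.Cvp5

/-!
P159, module CVP (VB10 of list V, part B), Gaussian side on two cell tori `V n1`, `V n2`, window
`w : W → ℤ × ℤ`, `|w| ≤ D`, mapped to both tori by `pt`.

Input: `A1`, `A2` in `Dom`, `sym A ≤ a EE` on the small torus, and the comparison of the parts
`m < T` of the two series on the window (error `e1`). Output `cvp_tor`: comparison of charge one
means, `cvp_num`: lower bound of the difference of the variances.
-/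

set_option linter.unusedSectionVars false

namespace Vale.Agent.P159.H767

open MeasureTheory Finset Matrix
open Vale.Agent.P159.TM.H764 (EE cN sN dt)
open Vale.Agent.P159.TM.Spec (V)
open Vale.Agent.P159.H37 (qf bf gau)
open Vale.Agent.P159.H864 (TI sym fc mlt)
open Vale.Agent.P159.H462 (Dom Gam ti_Gam sym_Gam avgM ti_avgM sym_avgM)
open Vale.Agent.P159.H363 (gm ti_gm gm_mul row_sum Ch)
open Vale.Agent.P159.TM.H859 (dirE tn nz logCut)
open scoped Real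

noncomputable section

section push

variable {W Λ : Type*} [Fintype W] [Fintype Λ] [DecidableEq Λ]

/-- push forward of a function on the window -/
def psh (i : W → Λ) (u : W → ℝ) : Λ → ℝ := fun z => ∑ x, if i x = z then u x else 0

lemma sum_psh (i : W → Λ) (u : W → ℝ) (f : Λ → ℝ) :
    ∑ z, f z * psh i u z = ∑ x, f (i x) * u x := by
  unfold psh
  simp_rw [Finset.mul_sum]
  rw [Finset.sum_comm]
  refine Finset.sum_congr rfl fun x _ => ?_
  simp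

lemma sum_psh_one (i : W → Λ) (u : W → ℝ) : ∑ z, psh i u z = ∑ x, u x := by
  have := sum_psh i u fun _ => 1
  simpa using this

lemma psh_apply {i : W → Λ} (hi : Function.Injective i) (u : W → ℝ) (x : W) :
    psh i u (i x) = u x := by
  classical
  unfold psh
  simp_rw [hi.eq_iff]
  simp

lemma sum_psh_sq {i : W → Λ} (hi : Function.Injective i) (u : W → ℝ) :
    ∑ z, psh i u z ^ 2 = ∑ x, u x ^ 2 := by
  have h := sum_psh i u (psh i u)
  have e1 : ∀ z, psh i u z ^ 2 = psh i u z * psh i u z := fun z => pow_two _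
  have e2 : ∀ x, u x ^ 2 = psh i u (i x) * u x := fun x => by
    rw [psh_apply hi, pow_two]
  rw [Finset.sum_congr rfl fun z _ => e1 z, Finset.sum_congr rfl fun x _ => e2 x]
  exact h

lemma psh_ne {i : W → Λ} {u : W → ℝ} {z : Λ} (h : psh i u z ≠ 0) : ∃ x, i x = z := by
  by_contra hn
  push Not at hn
  apply h
  unfold psh
  refine Finset.sum_eq_zero fun x _ => ?_
  rw [if_neg (hn x)]

lemma qf_psh (i : W → Λ) (u : W → ℝ) (M : Matrix Λ Λ ℝ) :
    qf M (psh i u) = qf (M.submatrix i i) u := by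
  unfold qf
  have h1 : ∀ z, ∑ z', psh i u z * M z z' * psh i u z' = (∑ y, M z (i y) * u y) * psh i u z := by
    intro z
    have h2 := sum_psh i u fun z' => psh i u z * M z z'
    rw [h2, Finset.sum_mul]
    refine Finset.sum_congr rfl fun y _ => ?_
    ring
  simp_rw [h1]
  rw [sum_psh i u fun z => ∑ y, M z (i y) * u y]
  refine Finset.sum_congr rfl fun x _ => ?_
  rw [Finset.sum_mul]
  refine Finset.sum_congr rfl fun y _ => ?_
  rw [submatrix_apply]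
  ring

end push

section fl

variable {N : ℕ} [NeZero N] {A : Matrix (V N) (V N) ℝ} {ν c s : ℝ}

/-- the cut-off energy -/
def cen (a s D L : ℝ) : ℝ :=
  a * ((1 + 68 / (2 * D)) * (2 * π / Real.log L)) + s⁻¹ * (2 * (L * (2 * D)) + 1) ^ 2

lemma sum_logCut (x0 : V N) {r L : ℝ} (hr : 0 < r) (hL : 1 < L) :
    ∑ x, logCut x0 r L x ≤ (2 * (L * r) + 1) ^ 2 := by
  classical
  have h1 : ∑ x, logCut x0 r L x
      ≤ ∑ x ∈ Finset.univ.filter (fun x : V N => tn (x - x0) ≤ L * r), (1 : ℝ) := by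
    rw [← Finset.sum_filter_add_sum_filter_not Finset.univ
      (fun x : V N => tn (x - x0) ≤ L * r)]
    have h2 : ∑ x ∈ Finset.univ.filter (fun x : V N => ¬ tn (x - x0) ≤ L * r),
        logCut x0 r L x = 0 := by
      refine Finset.sum_eq_zero fun x hx => ?_
      rw [Finset.mem_filter] at hx
      exact TM.H859.logCut_eq_zero hr hL (not_le.mp hx.2).le
    rw [h2, add_zero]
    exact Finset.sum_le_sum fun x _ => TM.H859.logCut_le_one x0 r L x
  refine h1.trans ?_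
  rw [Finset.sum_const, nsmul_eq_mul, mul_one]
  exact H363.card_ball x0 (by positivity)

lemma cen_pos {a s D L : ℝ} (ha : 0 ≤ a) (hs : 0 < s) (hD : 0 < D) (hL : 1 < L) :
    0 < cen a s D L := by
  unfold cen
  have := Real.log_pos hL
  positivity

/-- **the floor of the covariance on a window** -/
theorem floor_win (h : Dom A ν c) (hs : 0 < s) {a : ℝ} (ha0 : 0 ≤ a) (ha : ∀ k, sym A k ≤ a * EE k)
    {D : ℕ} (hD : 5 ≤ D) {L : ℝ} (hL : 2 ≤ L) (hN : 2 * (L * (2 * D) + 1) ≤ N)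
    {W : Type*} [Fintype W] {w : W → ℤ × ℤ} (hinj : Function.Injective fun x => pt N (w x))
    (hw : ∀ x, |(w x).1| ≤ D ∧ |(w x).2| ≤ D) {θ μ : ℝ} (hθ : 0 ≤ θ) (hθ1 : θ ≤ 1)
    (hμ : (2 * (L * (2 * D)) + 1) ^ 2 ≤ μ * (N : ℝ) ^ 2) (hμ1 : μ ≤ 1) (u : W → ℝ) :
    (1 - θ) * (s / (1 + s * ν)) * (1 - Fintype.card W / (N : ℝ) ^ 2) * ∑ x, u x ^ 2 +
      (s / (N : ℝ) ^ 2 + θ * (1 - μ) ^ 2 / cen a s D L) * (∑ x, u x) ^ 2 ≤
      qf ((gm s A).submatrix (fun x => pt N (w x)) id *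
        ((gm s A).submatrix (fun x => pt N (w x)) id)ᵀ) u := by
  classical
  have hν := h.hν
  have hNp := H864.N_pos (N := N)
  have hD' : (5 : ℝ) ≤ D := by exact_mod_cast hD
  have hD0 : (0 : ℝ) < 2 * D := by linarith
  have hc0 : 0 < cen a s D L := cen_pos ha0 hs (by linarith) (by linarith)
  set i : W → V N := fun x => pt N (w x) with hi
  set v := psh i u with hv
  have e1 : (gm s A).submatrix i id * ((gm s A).submatrix i id)ᵀ = (Gam s A).submatrix i i := by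
    rw [← gm_mul h hs]
    ext x y
    simp [mul_apply]
  rw [e1, ← qf_psh, ← hv]
  have hGq : qf (Gam s A) v = qf (Gam0 s A) v + s / (N : ℝ) ^ 2 * (∑ x, u x) ^ 2 := by
    have e2 : Gam0 s A = Gam s A - s • avgM N := rfl
    have e3 : qf (s • avgM N) v = s / (N : ℝ) ^ 2 * (∑ x, u x) ^ 2 := by
      have e4 : qf (s • avgM N) v = s * qf (avgM N) v := by
        unfold qf
        rw [Finset.mul_sum]
        refine Finset.sum_congr rfl fun x _ => ?_
        rw [Finset.mul_sum]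
        refine Finset.sum_congr rfl fun y _ => ?_
        rw [Matrix.smul_apply, smul_eq_mul]
        ring
      rw [e4, qf_avgM, hv, sum_psh_one]
      ring
    rw [e2, H864.qf_sub_mat, e3]
    ring
  -- capacity part
  set q : V N → ℝ := logCut 0 (2 * D) L with hq
  have hqv : ∀ z, v z ≠ 0 → q z = 1 := by
    intro z hz
    obtain ⟨x, hx⟩ := psh_ne hz
    rw [hq]
    apply TM.H859.logCut_eq_one
    rw [sub_zero, ← hx]
    have h1 : tn (i x) ≤ nz (w x) := TM.H859.tn_le_nz rfl rfl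
    refine h1.trans ?_
    unfold nz
    have h2 : |((w x).1 : ℝ)| ≤ D := by
      have := (hw x).1
      exact_mod_cast this
    have h3 : |((w x).2 : ℝ)| ≤ D := by
      have := (hw x).2
      exact_mod_cast this
    rw [Real.sqrt_le_left hD0.le]
    have h4 := sq_le_sq' (by linarith [(abs_le.1 h2).1]) (abs_le.1 h2).2
    have h5 := sq_le_sq' (by linarith [(abs_le.1 h3).1]) (abs_le.1 h3).2
    nlinarith
  have hAd : (A *ᵥ q) ⬝ᵥ q ≤ a * dirE q := by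
    have h1 : (A *ᵥ q) ⬝ᵥ q = qf A q := by
      rw [H37.qf_eq, dotProduct_comm]
    have h2 : qf A q ≤ qf (a • H864.lapM) q :=
      (H864.qf_le_iff h.ti (H864.ti_lapM.smul a)).2 (fun k => by
        rw [H864.sym_smul, H864.sym_lapM]
        exact ha k) q
    have h3 : qf (a • H864.lapM) q = a * dirE q := by
      have e4 : qf (a • H864.lapM) q = a * qf H864.lapM q := by
        unfold qf
        rw [Finset.mul_sum]
        refine Finset.sum_congr rfl fun x _ => ?_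
        rw [Finset.mul_sum]
        refine Finset.sum_congr rfl fun y _ => ?_
        rw [Matrix.smul_apply, smul_eq_mul]
        ring
      rw [e4, H864.qf_lapM, TM.H41.dirE_eq]
    rw [h1]
    exact h2.trans h3.le
  have hc : (A *ᵥ q) ⬝ᵥ q + s⁻¹ * ∑ x, q x ^ 2 ≤ cen a s D L := by
    unfold cen
    refine add_le_add (hAd.trans (mul_le_mul_of_nonneg_left ?_ ha0))
      (mul_le_mul_of_nonneg_left ?_ (inv_pos.2 hs).le)
    · exact TM.H859.logCut_energy 0 (by linarith) hL hN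
    · exact H363.logCut_sq 0 hD0 (by linarith)
  have hcap := Gam0_cap h hs hqv hc0 hc
  have hm0 : 0 ≤ ((N : ℝ) ^ 2)⁻¹ * ∑ x, q x :=
    mul_nonneg (by positivity) (Finset.sum_nonneg fun x _ => TM.H859.logCut_nonneg _ _ _ _)
  have hm1 : ((N : ℝ) ^ 2)⁻¹ * ∑ x, q x ≤ μ := by
    rw [inv_mul_le_iff₀ hNp, mul_comm]
    exact (sum_logCut 0 hD0 (by linarith)).trans hμ
  have hcap2 : (1 - μ) ^ 2 / cen a s D L * (∑ x, u x) ^ 2 ≤ qf (Gam0 s A) v := by
    rw [div_mul_eq_mul_div, div_le_iff₀ hc0, mul_comm (qf _ _)]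
    refine le_trans ?_ hcap
    rw [hv, sum_psh_one]
    refine mul_le_mul_of_nonneg_right ?_ (sq_nonneg _)
    exact pow_le_pow_left₀ (by linarith) (by linarith) 2
  have hfl := Gam0_floor h hs v
  have hfl2 : s / (1 + s * ν) * ((1 - Fintype.card W / (N : ℝ) ^ 2) * ∑ x, u x ^ 2) ≤
      qf (Gam0 s A) v := by
    refine le_trans (mul_le_mul_of_nonneg_left ?_ (by positivity)) hfl
    rw [hv, sum_psh_sq hinj, sum_psh_one]
    have h1 : (∑ x, u x) ^ 2 ≤ Fintype.card W * ∑ x, u x ^ 2 := by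
      have := sq_sum_le_card_mul_sum_sq (s := (univ : Finset W)) (f := u)
      rwa [Finset.card_univ] at this
    have h2 : ((N : ℝ) ^ 2)⁻¹ * (∑ x, u x) ^ 2 ≤
        ((N : ℝ) ^ 2)⁻¹ * (Fintype.card W * ∑ x, u x ^ 2) :=
      mul_le_mul_of_nonneg_left h1 (by positivity)
    have h3 : (1 - Fintype.card W / (N : ℝ) ^ 2) * ∑ x, u x ^ 2 =
        ∑ x, u x ^ 2 - ((N : ℝ) ^ 2)⁻¹ * (Fintype.card W * ∑ x, u x ^ 2) := by
      ring
    rw [h3]
    linarith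
  rw [hGq]
  have h1θ : 0 ≤ 1 - θ := by linarith
  have k1 := mul_le_mul_of_nonneg_left hfl2 h1θ
  have k2 := mul_le_mul_of_nonneg_left hcap2 hθ
  have e5 : (1 - θ) * (s / (1 + s * ν)) * (1 - Fintype.card W / (N : ℝ) ^ 2) * ∑ x, u x ^ 2 =
      (1 - θ) * (s / (1 + s * ν) * ((1 - Fintype.card W / (N : ℝ) ^ 2) * ∑ x, u x ^ 2)) := by
    ring
  have e6 : (s / (N : ℝ) ^ 2 + θ * (1 - μ) ^ 2 / cen a s D L) * (∑ x, u x) ^ 2 =
      s / (N : ℝ) ^ 2 * (∑ x, u x) ^ 2 +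
        θ * ((1 - μ) ^ 2 / cen a s D L * (∑ x, u x) ^ 2) := by
    ring
  rw [e5, e6]
  linarith

end fl

section tor

variable {n1 n2 : ℕ} [NeZero n1] [NeZero n2] {A1 : Matrix (V n1) (V n1) ℝ}
  {A2 : Matrix (V n2) (V n2) ℝ} {ν c s : ℝ} {T : ℕ}

/-- the symbol of the part `m < T` of `Γ` -/
def lT (s ν : ℝ) (T : ℕ) (x : ℝ) : ℝ := s * (1 + s * x)⁻¹ - gT s ν T x

lemma Gam_split {n : ℕ} [NeZero n] (A : Matrix (V n) (V n) ℝ) (s ν : ℝ) (T : ℕ) (z : V n) :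
    Gam s A 0 z = fc (lT s ν T) A 0 z + fc (gT s ν T) A 0 z := by
  have h : Gam s A = fc (lT s ν T) A + fc (gT s ν T) A := by
    refine H864.sym_inj (ti_Gam _ _) ((H864.ti_fc _ _).add (H864.ti_fc _ _)) fun k => ?_
    rw [sym_Gam, H864.sym_add, H864.sym_fc, H864.sym_fc]
    unfold lT
    ring
  conv_lhs => rw [h]
  rfl

/-- the error of the window comparison -/
def eps (s ν c : ℝ) (T D : ℕ) (e1 : ℝ) : ℝ :=
  2 * e1 + (2 * D) ^ 2 * (40 * RT s ν T / c ^ 2 + 16 / ν * (1 / 2) ^ T)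

/-- **(E)** the two covariances agree on the window up to a constant -/
theorem win_E (h1 : Dom A1 ν c) (h2 : Dom A2 ν c) (hs : 0 < s) (hT : 1 ≤ T) {D : ℕ} {e1 : ℝ}
    (hlow : ∀ z : ℤ × ℤ, |z.1| ≤ 2 * D → |z.2| ≤ 2 * D →
      |fc (lT s ν T) A2 0 (pt n2 z) - fc (lT s ν T) A1 0 (pt n1 z)| ≤ e1)
    {z z' : ℤ × ℤ} (hz : |z.1| ≤ D ∧ |z.2| ≤ D) (hz' : |z'.1| ≤ D ∧ |z'.2| ≤ D) :
    |Gam s A2 (pt n2 z) (pt n2 z') - Gam s A1 (pt n1 z) (pt n1 z') -
      (Gam s A2 0 0 - Gam s A1 0 0)| ≤ eps s ν c T D e1 := by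
  have hν := h1.hν
  have hd1 : |(z' - z).1| ≤ ((2 * D : ℕ) : ℤ) := by
    have a1 := hz.1
    have a2 := hz'.1
    rw [abs_le] at *
    rw [Prod.fst_sub]
    push_cast
    constructor <;> linarith [a1.1, a1.2, a2.1, a2.2]
  have hd2 : |(z' - z).2| ≤ ((2 * D : ℕ) : ℤ) := by
    have a1 := hz.2
    have a2 := hz'.2
    rw [abs_le] at *
    rw [Prod.snd_sub]
    push_cast
    constructor <;> linarith [a1.1, a1.2, a2.1, a2.2]
  rw [(ti_Gam s A2).eq, (ti_Gam s A1).eq, pt_sub, pt_sub]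
  rw [Gam_split A2 s ν T (pt n2 (z' - z)), Gam_split A1 s ν T (pt n1 (z' - z)),
    Gam_split A2 s ν T 0, Gam_split A1 s ν T 0]
  have g1 : ∀ k, 0 ≤ sym (fc (gT s ν T) A1) k := fun k => by
    rw [H864.sym_fc]
    exact gT_nonneg hs hν (h1.nn k) (h1.le k)
  have g2 : ∀ k, 0 ≤ sym (fc (gT s ν T) A2) k := fun k => by
    rw [H864.sym_fc]
    exact gT_nonneg hs hν (h2.nn k) (h2.le k)
  have o1 := osc_le (H864.ti_fc (gT s ν T) A1) g1 hd1 hd2
  have o2 := osc_le (H864.ti_fc (gT s ν T) A2) g2 hd1 hd2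
  simp only [H864.sym_fc] at o1 o2
  have b1 := sum_gT_EE h1 hs hT
  have b2 := sum_gT_EE h2 hs hT
  have l1 := hlow (z' - z) (by push_cast at hd1; exact hd1) (by push_cast at hd2; exact hd2)
  have l0 := hlow 0 (by simp) (by simp)
  rw [pt_zero, pt_zero] at l0
  have hDD : (0 : ℝ) ≤ ((2 * D : ℕ) : ℝ) ^ 2 := by positivity
  have c1 := mul_le_mul_of_nonneg_left b1 hDD
  have c2 := mul_le_mul_of_nonneg_left b2 hDD
  have e2 : (((2 * D : ℕ) : ℝ)) ^ 2 = (2 * (D : ℝ)) ^ 2 := by push_cast; ring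
  rw [e2] at o1 o2 c1 c2
  unfold eps
  rw [abs_le] at l1 l0 ⊢
  constructor <;> linarith [l1.1, l1.2, l0.1, l0.2, o1.1, o1.2, o2.1, o2.2]

/-- **(CVP, Gaussian side)** -/
theorem cvp_tor (h1 : Dom A1 ν c) (h2 : Dom A2 ν c) (hs : 0 < s) (hT : 1 ≤ T) {a : ℝ}
    (ha0 : 0 ≤ a) (ha : ∀ k, sym A1 k ≤ a * EE k) {D : ℕ} (hD : 5 ≤ D) {L : ℝ} (hL : 2 ≤ L)
    (hN : 2 * (L * (2 * D) + 1) ≤ n1) {W : Type*} [Fintype W] {w : W → ℤ × ℤ}
    (hinj : Function.Injective w) (hw : ∀ x, |(w x).1| ≤ D ∧ |(w x).2| ≤ D) {e1 : ℝ}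
    (hlow : ∀ z : ℤ × ℤ, |z.1| ≤ 2 * D → |z.2| ≤ 2 * D →
      |fc (lT s ν T) A2 0 (pt n2 z) - fc (lT s ν T) A1 0 (pt n1 z)| ≤ e1)
    {θ μ η : ℝ} (hθ : 0 ≤ θ) (hθ1 : θ < 1) (hμ : (2 * (L * (2 * D)) + 1) ^ 2 ≤ μ * (n1 : ℝ) ^ 2)
    (hμ1 : μ ≤ 1 / 2) (hη : 2 * Fintype.card W * (ν + s⁻¹) * eps s ν c T D e1 ≤ (1 - θ) * η)
    (hη2 : η ≤ 1 / 2) (hV : 0 ≤ Gam s A2 0 0 - Gam s A1 0 0 + s / (n1 : ℝ) ^ 2)
    {ψ : (W → ℝ) → ℂ} (hch : Ch ψ) (hm : StronglyMeasurable ψ) {C : ℝ} (hC : ∀ F, ‖ψ F‖ ≤ C) :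
    ‖∫ g, ψ (fun x => (gm s A2 *ᵥ g) (pt n2 (w x))) ∂(gau (V n2))‖ ≤
      Real.exp (-(2 * π ^ 2 * (Gam s A2 0 0 - Gam s A1 0 0 + s / (n1 : ℝ) ^ 2))) *
        (Real.exp (2 * π ^ 2 * (s / (n1 : ℝ) ^ 2)) *
            ‖∫ g, ψ (fun x => (gm s A1 *ᵥ g) (pt n1 (w x))) ∂(gau (V n1))‖ +
          2 * η * Real.exp (-(2 * π ^ 2 * (θ * (1 - μ) ^ 2 / cen a s D L))) *
            √(∫ g, ‖ψ (fun x => (gm s A1 *ᵥ g) (pt n1 (w x)))‖ ^ 2 ∂(gau (V n1)))) := by
  classical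
  have hν := h1.hν
  have hc := h1.hc
  have hNp := H864.N_pos (N := n1)
  have hD' : (5 : ℝ) ≤ D := by exact_mod_cast hD
  have hn1 : (0 : ℝ) < n1 := by exact_mod_cast NeZero.pos n1
  -- the window is injective in the small torus
  have h2D : 2 * D < n1 := by
    have : (2 : ℝ) * D < n1 := by nlinarith
    exact_mod_cast this
  have hpt : ∀ z z' : ℤ × ℤ, (|z.1| ≤ D ∧ |z.2| ≤ D) → (|z'.1| ≤ D ∧ |z'.2| ≤ D) →
      pt n1 z = pt n1 z' → z = z' := by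
    intro z z' hz hz' he
    unfold pt at he
    rw [Prod.mk.injEq, ZMod.intCast_eq_intCast_iff_dvd_sub, ZMod.intCast_eq_intCast_iff_dvd_sub]
      at he
    have key : ∀ x y : ℤ, |x| ≤ D → |y| ≤ D → (n1 : ℤ) ∣ y - x → x = y := by
      intro x y hx hy hxy
      rw [abs_le] at hx hy
      have h3 : y - x = 0 := by
        apply Int.eq_zero_of_abs_lt_dvd hxy
        rw [abs_lt]
        constructor <;> omega
      omega
    exact Prod.ext (key _ _ hz.1 hz'.1 he.1) (key _ _ hz.2 hz'.2 he.2)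
  have hi1 : Function.Injective fun x => pt n1 (w x) := fun x y hxy =>
    hinj (hpt _ _ (hw x) (hw y) hxy)
  have hcard : (Fintype.card W : ℝ) / (n1 : ℝ) ^ 2 ≤ 1 / 2 := by
    have h3 : Fintype.card W ≤ ((Finset.Icc (-(D : ℤ)) D) ×ˢ (Finset.Icc (-(D : ℤ)) D)).card := by
      rw [← Finset.card_univ]
      refine Finset.card_le_card_of_injOn w (fun x _ => ?_) hinj.injOn
      simp only [Finset.coe_product, Finset.coe_Icc, Set.mem_prod, Set.mem_Icc]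
      exact ⟨abs_le.1 (hw x).1, abs_le.1 (hw x).2⟩
    rw [Finset.card_product, Int.card_Icc] at h3
    have h4 : ((D : ℤ) + 1 - -(D : ℤ)).toNat = 2 * D + 1 := by omega
    rw [h4] at h3
    have h5 : (Fintype.card W : ℝ) ≤ (2 * D + 1) * (2 * D + 1) := by exact_mod_cast h3
    rw [div_le_iff₀ hNp]
    have h6 : 2 * (2 * (D : ℝ) + 1) ≤ n1 := by nlinarith
    nlinarith
  set A₁ : Matrix W (V n1) ℝ := (gm s A1).submatrix (fun x => pt n1 (w x)) id with hA₁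
  set A₂ : Matrix W (V n2) ℝ := (gm s A2).submatrix (fun x => pt n2 (w x)) id with hA₂
  have eA1 : ∀ x y, (A₁ * A₁ᵀ) x y = Gam s A1 (pt n1 (w x)) (pt n1 (w y)) := by
    intro x y
    rw [← gm_mul h1 hs]
    simp [hA₁, mul_apply]
  have eA2 : ∀ x y, (A₂ * A₂ᵀ) x y = Gam s A2 (pt n2 (w x)) (pt n2 (w y)) := by
    intro x y
    rw [← gm_mul h2 hs]
    simp [hA₂, mul_apply]
  have hc0 : 0 < cen a s D L := cen_pos ha0 hs (by linarith) (by linarith)
  set L1 : ℝ := θ * (1 - μ) ^ 2 / cen a s D L with hL1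
  have hL10 : 0 ≤ L1 := by positivity
  set t1 : ℝ := s / (n1 : ℝ) ^ 2 + L1 with ht1
  set t2 : ℝ := Gam s A2 0 0 - Gam s A1 0 0 + t1 with ht2
  set κ : ℝ := (1 - θ) * (s / (1 + s * ν)) * (1 - Fintype.card W / (n1 : ℝ) ^ 2) with hκ
  have h1θ : 0 < 1 - θ := by linarith
  have hκ0 : (1 - θ) / (2 * (ν + s⁻¹)) ≤ κ := by
    have e3 : s / (1 + s * ν) = (ν + s⁻¹)⁻¹ := by
      field_simp
      ring
    rw [hκ, e3]
    have h4 : 1 / 2 ≤ 1 - (Fintype.card W : ℝ) / (n1 : ℝ) ^ 2 := by linarith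
    have h5 : (1 - θ) / (2 * (ν + s⁻¹)) = (1 - θ) * (ν + s⁻¹)⁻¹ * (1 / 2) := by
      have : 0 < ν + s⁻¹ := by positivity
      field_simp
    rw [h5]
    exact mul_le_mul_of_nonneg_left h4 (by positivity)
  have hκp : 0 < κ := lt_of_lt_of_le (by positivity) hκ0
  have he1 : 0 ≤ e1 := (abs_nonneg _).trans (hlow 0 (by simp) (by simp))
  have heps : 0 ≤ eps s ν c T D e1 := by
    unfold eps
    have := RT_pos hs hν hT
    positivity
  have hη0 : 0 ≤ η := by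
    have h3 : 0 ≤ 2 * Fintype.card W * (ν + s⁻¹) * eps s ν c T D e1 := by positivity
    exact nonneg_of_mul_nonneg_right (h3.trans hη) h1θ
  have key := cvp_win (A₁ := A₁) (A₂ := A₂) (t1 := t1) (t2 := t2) (κ := κ)
    (ε := eps s ν c T D e1) (η := η) (by positivity) (by rw [ht2, ht1]; linarith) hκp heps ?_ ?_ ?_
    hη2 hch hm hC
  · have f1 : ∀ g, (fun x => (gm s A1 *ᵥ g) (pt n1 (w x))) = A₁ *ᵥ g := fun g => rfl
    have f2 : ∀ g, (fun x => (gm s A2 *ᵥ g) (pt n2 (w x))) = A₂ *ᵥ g := fun g => rfl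
    simp only [f1, f2]
    refine key.trans (le_of_eq ?_)
    set X : ℝ := ‖∫ g, ψ (A₁ *ᵥ g) ∂(gau (V n1))‖
    set Y : ℝ := √(∫ g, ‖ψ (A₁ *ᵥ g)‖ ^ 2 ∂(gau (V n1)))
    have x1 : -(2 * π ^ 2 * t2) = -(2 * π ^ 2 *
        (Gam s A2 0 0 - Gam s A1 0 0 + s / (n1 : ℝ) ^ 2)) + -(2 * π ^ 2 * L1) := by
      rw [ht2, ht1]
      ring
    have x2 : 2 * π ^ 2 * t1 = 2 * π ^ 2 * (s / (n1 : ℝ) ^ 2) + 2 * π ^ 2 * L1 := by
      rw [ht1]
      ring
    have x3 : Real.exp (-(2 * π ^ 2 * L1)) * Real.exp (2 * π ^ 2 * L1) = 1 := by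
      rw [← Real.exp_add, neg_add_cancel, Real.exp_zero]
    rw [x1, x2, Real.exp_add, Real.exp_add]
    calc _ = Real.exp (-(2 * π ^ 2 * (Gam s A2 0 0 - Gam s A1 0 0 + s / (n1 : ℝ) ^ 2))) *
          (Real.exp (2 * π ^ 2 * (s / (n1 : ℝ) ^ 2)) *
            (Real.exp (-(2 * π ^ 2 * L1)) * Real.exp (2 * π ^ 2 * L1)) * X +
            2 * η * Real.exp (-(2 * π ^ 2 * L1)) * Y) := by ring
      _ = _ := by rw [x3, mul_one]
  · intro u
    exact floor_win h1 hs ha0 ha hD hL hN hi1 hw hθ hθ1.le hμ (by linarith) u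
  · intro x y
    rw [eA1, eA2]
    have e5 : t2 - t1 = Gam s A2 0 0 - Gam s A1 0 0 := by
      rw [ht2]
      ring
    rw [e5]
    exact win_E h1 h2 hs hT hlow (hw x) (hw y)
  · have h6 : 0 < 2 * (ν + s⁻¹) := by positivity
    have h7 : Fintype.card W * eps s ν c T D e1 ≤ (1 - θ) / (2 * (ν + s⁻¹)) * η := by
      rw [div_mul_eq_mul_div, le_div_iff₀ h6]
      linarith
    exact h7.trans (mul_le_mul_of_nonneg_right hκ0 hη0)

/-- **(numbers of CVP)** lower bound of the difference of the variances -/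
theorem cvp_num (h1 : Dom A1 ν c) (h2 : Dom A2 ν c) (hs : 0 < s) (hT : 1 ≤ T) {e1 a a' : ℝ}
    (hlow : |fc (lT s ν T) A2 0 0 - fc (lT s ν T) A1 0 0| ≤ e1) (ha : 0 < a)
    (ha2 : ∀ k, sym A2 k ≤ a * EE k) (hR1 : s⁻¹ + RT s ν T ≤ a)
    (hN2 : 1 ≤ (n2 : ℝ) * √(s⁻¹ / a)) (ha' : 0 < a')
    (ha1 : ∀ k, EE k ≤ RT s ν T → a' * EE k ≤ sym A1 k) (hR2 : RT s ν T ≤ a')
    (hN1 : a' ≤ RT s ν T * (n1 : ℝ) ^ 2) :
    Real.log (1 + s * RT s ν T) / (4 * π * a) -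
      Real.log (RT s ν T * (n1 : ℝ) ^ 2 / a') / (4 * π * a') -
      (1217 / a + 1203 / a' + 80 / c ^ 2 + 2 / ν * (1 / 2) ^ T) - e1 ≤
      Gam s A2 0 0 - Gam s A1 0 0 + s / (n1 : ℝ) ^ 2 := by
  have hν := h1.hν
  have hn1 : (0 : ℝ) < n1 := by exact_mod_cast NeZero.pos n1
  have v2 := vT_low (N := n2) (φ := sym A2) hs hν hT ha h2.nn h2.le ha2 hR1 hN2
  have v1 := vT_up (N := n1) (φ := sym A1) hs hν hT ha' h1.hc h1.le h1.ge ha1 hR2 hN1
  have d2 : fc (gT s ν T) A2 0 0 = (∑ k, gT s ν T (sym A2 k)) / (n2 : ℝ) ^ 2 := by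
    rw [(H864.ti_fc _ _).diag_eq]
    simp only [H864.sym_fc]
    rw [inv_mul_eq_div]
  have d1 : fc (gT s ν T) A1 0 0 =
      (∑ k ∈ univ.filter (fun k : V n1 => k ≠ 0), gT s ν T (sym A1 k)) / (n1 : ℝ) ^ 2 +
        gT s ν T 0 / (n1 : ℝ) ^ 2 := by
    rw [(H864.ti_fc _ _).diag_eq]
    simp only [H864.sym_fc]
    rw [inv_mul_eq_div, ← add_div]
    congr 1
    rw [← Finset.sum_filter_add_sum_filter_not univ (fun k : V n1 => k ≠ 0)]
    congr 1
    have : univ.filter (fun k : V n1 => ¬ k ≠ 0) = {0} := by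
      ext k
      simp
    rw [this, Finset.sum_singleton, h1.zero]
  have g0 : gT s ν T 0 ≤ s := by
    unfold gT
    rw [zero_add, inv_inv, sub_zero]
    have h3 : ν / (ν + s⁻¹) ≤ 1 := by
      rw [div_le_one (by positivity)]
      have : 0 < s⁻¹ := inv_pos.2 hs
      linarith
    have h4 : (ν / (ν + s⁻¹)) ^ T ≤ 1 := pow_le_one₀ (by positivity) h3
    calc s * (ν / (ν + s⁻¹)) ^ T ≤ s * 1 := mul_le_mul_of_nonneg_left h4 hs.le
      _ = s := mul_one s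
  have g1 : gT s ν T 0 / (n1 : ℝ) ^ 2 ≤ s / (n1 : ℝ) ^ 2 :=
    div_le_div_of_nonneg_right g0 (by positivity)
  rw [Gam_split A2 s ν T 0, Gam_split A1 s ν T 0, d2, d1]
  have hl := (abs_le.1 hlow).1
  linarith

end tor

end

end Vale.Agent.P159.H767
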