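import Vale.Agent.P159.H767.Nr15

/-!
P159, module NEAR (helper767), Et part 1: the number `eE` (entries of the pins on two tori) with the
optimal number of steps.
-/

set_option linter.unusedSectionVars false

namespace Vale.Agent.P159.H767

open Finset Matrix
open Vale.Agent.P159.H733.Torg (eE)
open Vale.Agent.P159.H640

noncomputable section

/-- term of the smooth part -/
lemma et_t1 {ν u c m w A E D X G : ℝ} (hc : 0 < c) (hw : 0 < w) (hm : w ≤ m) (hν : ν ≤ 4 * u ^ 2)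
    (hD : D * u ≤ A * E) (hDu : 0 ≤ D * u) (hX : 0 < X)
    (hg : 80 * A ^ 2 / c ^ 2 * (E ^ 2 / w) ≤ G) : 5 * ν * (2 * D) ^ 2 / (m * c ^ 2) ≤ G := by
  refine le_trans ?_ hg
  have h1 : ν * D ^ 2 ≤ 4 * (A * E) ^ 2 := by
    have h2 : (D * u) ^ 2 ≤ (A * E) ^ 2 := pow_le_pow_left₀ hDu hD 2
    have h3 := mul_le_mul_of_nonneg_right hν (sq_nonneg D)
    calc ν * D ^ 2 ≤ 4 * u ^ 2 * D ^ 2 := h3
      _ = 4 * (D * u) ^ 2 := by ring
      _ ≤ 4 * (A * E) ^ 2 := by linarith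
  have hmc : 0 < m * c ^ 2 := mul_pos (hw.trans_le hm) (by positivity)
  have hwc : 0 < w * c ^ 2 := by positivity
  calc 5 * ν * (2 * D) ^ 2 / (m * c ^ 2) = 20 * (ν * D ^ 2) / (m * c ^ 2) := by ring
    _ ≤ 20 * (4 * (A * E) ^ 2) / (m * c ^ 2) := by gcongr
    _ ≤ 20 * (4 * (A * E) ^ 2) / (w * c ^ 2) := by
        refine div_le_div_of_nonneg_left (by positivity) hwc ?_
        exact mul_le_mul_of_nonneg_right hm (by positivity)
    _ = 80 * A ^ 2 / c ^ 2 * (E ^ 2 / w) := by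
        field_simp
        ring

/-- the square root of the number of steps -/
lemma et_sq {X E T : ℝ} (hX : 0 ≤ X) (hE : 0 ≤ E) (hT : T ≤ 6 * (X ^ 2 * E ^ 2)) :
    √T ≤ 3 * (X * E) := by
  rw [Real.sqrt_le_left (by positivity)]
  refine hT.trans ?_
  have : 0 ≤ X ^ 2 * E ^ 2 := by positivity
  have e1 : (3 * (X * E)) ^ 2 = 9 * (X ^ 2 * E ^ 2) := by ring
  rw [e1]
  linarith

/-- term of the walk -/
lemma et_t2 {ν u cm Cm κ N T X E a G : ℝ} (hcm : 0 < cm) (hX : 0 < X) (hE : 0 < E) (hT : 0 < T)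
    (hT6 : T ≤ 6 * (X ^ 2 * E ^ 2)) (hu : 0 < u) (hν : u ^ 2 ≤ ν) (hκ : cm * X ≤ κ * N)
    (hu2 : 1 ≤ u ^ 2 * Real.exp a) (ha : a ≤ cm / 24 * E⁻¹)
    (hg : 24 * Real.exp Cm * (X ^ 2 * E ^ 2) * Real.exp (-(cm / 24 * E⁻¹)) ≤ G) :
    T * (4 * Real.exp Cm * Real.exp (-(κ * N / (4 * √T)))) / ν ≤ G := by
  refine le_trans ?_ hg
  have hs := et_sq hX.le hE.le hT6
  have hs0 : 0 < √T := Real.sqrt_pos.2 hT
  have hν0 : 0 < ν := lt_of_lt_of_le (by positivity) hν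
  have h1 : cm / 12 * E⁻¹ ≤ κ * N / (4 * √T) := by
    rw [le_div_iff₀ (by positivity)]
    refine le_trans ?_ hκ
    calc cm / 12 * E⁻¹ * (4 * √T) ≤ cm / 12 * E⁻¹ * (4 * (3 * (X * E))) := by gcongr
      _ = cm * X := by field_simp; norm_num
  have h2 : Real.exp (-(κ * N / (4 * √T))) ≤ Real.exp (-(cm / 12 * E⁻¹)) :=
    Real.exp_le_exp.2 (by linarith)
  have h3 : 1 / ν ≤ Real.exp (cm / 24 * E⁻¹) := by
    rw [div_le_iff₀ hν0]
    refine hu2.trans ?_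
    rw [mul_comm]
    exact mul_le_mul (Real.exp_le_exp.2 ha) hν (by positivity) (Real.exp_pos _).le
  have h4 : Real.exp (-(cm / 12 * E⁻¹)) * Real.exp (cm / 24 * E⁻¹) =
      Real.exp (-(cm / 24 * E⁻¹)) := by
    rw [← Real.exp_add]
    congr 1
    ring
  calc T * (4 * Real.exp Cm * Real.exp (-(κ * N / (4 * √T)))) / ν
      = T * (4 * Real.exp Cm) * (Real.exp (-(κ * N / (4 * √T))) * (1 / ν)) := by ring
    _ ≤ 6 * (X ^ 2 * E ^ 2) * (4 * Real.exp Cm) *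
        (Real.exp (-(cm / 12 * E⁻¹)) * Real.exp (cm / 24 * E⁻¹)) := by gcongr
    _ = _ := by
        rw [h4]
        ring

/-- term of the kernels -/
lemma et_t3 {ν u σ T X w V G : ℝ} (hX : 0 < X) (hT : 0 ≤ T) (hT6 : T ≤ 6 * w) (hV : 0 ≤ V)
    (hu : 0 < u) (hν : u ^ 2 ≤ ν) (hσ : σ ≤ 5 * V * (u ^ 2 / X ^ 2))
    (hg : 360 * V * w ^ 2 / X ^ 2 ≤ G) : 2 * (T ^ 2 * σ) / ν ≤ G := by
  refine le_trans ?_ hg
  have hν0 : 0 < ν := lt_of_lt_of_le (by positivity) hν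
  have h1 : T ^ 2 ≤ 36 * w ^ 2 := by
    calc T ^ 2 ≤ (6 * w) ^ 2 := pow_le_pow_left₀ hT hT6 2
      _ = _ := by ring
  have h2 : T ^ 2 * σ ≤ (36 * w ^ 2) * (5 * V * (u ^ 2 / X ^ 2)) := by
    refine (mul_le_mul_of_nonneg_left hσ (sq_nonneg T)).trans ?_
    exact mul_le_mul_of_nonneg_right h1 (by positivity)
  rw [div_le_iff₀ hν0]
  have h3 : 360 * V * w ^ 2 / X ^ 2 * u ^ 2 ≤ 360 * V * w ^ 2 / X ^ 2 * ν :=
    mul_le_mul_of_nonneg_left hν (by positivity)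
  have e1 : 360 * V * w ^ 2 / X ^ 2 * u ^ 2 = 2 * ((36 * w ^ 2) * (5 * V * (u ^ 2 / X ^ 2))) := by
    field_simp
    ring
  linarith

/-- **the number `eE` between two tori** -/
theorem eE_small {c cm Cm A CG c1 th ρ1 v : ℝ} (hc : 0 < c) (hcm : 0 < cm) (hA : 0 ≤ A)
    (hCG : 0 < CG) (hc1 : 0 < c1) (hct : 5 * c1 ≤ 2 * th) (hv : 4 * ρ1 ≤ v) :
    ∃ e0, 0 < e0 ∧ ∀ e : ℝ, 0 < e → e ≤ e0 → ∀ (X u ν : ℝ) (D : ℕ), e ^ (-th) ≤ X →
      X ≤ CG * e ^ (-ρ1) → 0 < u → u ^ 2 ≤ ν → ν ≤ 4 * u ^ 2 →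
      1 ≤ u ^ 2 * Real.exp (2 * e ^ (-(2 * c1))) → D * u ≤ A * e ^ (-(2 * c1)) →
      ∃ m : ℕ, 1 ≤ m ∧ ∀ (N : ℕ) (κ σ : ℝ), cm * X ≤ κ * N → σ ≤ 5 * e ^ v * (u ^ 2 / X ^ 2) →
        eE ν c κ Cm σ 1 0 N m (2 * D) ≤ 1 / 2 * (e ^ (-(10 * c1)) / X ^ 2) := by
  obtain ⟨e1, he1, n1⟩ := sm_rpow (s := c1) (A := 80 * A ^ 2 / c ^ 2) hc1
    (show (0 : ℝ) < 1 / 6 by norm_num)
  obtain ⟨e2, he2, n2⟩ := sm_rpow (s := c1 / 2) (A := 2) (by positivity)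
    (show (0 : ℝ) < cm / 24 by positivity)
  obtain ⟨e3, he3, n3⟩ := sm_exp (c := cm / 24) (th := 5 / 2 * c1) (q := 4 * ρ1 + 1)
    (by positivity) (by positivity)
  obtain ⟨e4, he4, n4⟩ := sm_rpow (s := 1) (A := 24 * Real.exp Cm * CG ^ 4) one_pos
    (show (0 : ℝ) < 1 / 6 by norm_num)
  obtain ⟨e5, he5, n5⟩ := sm_rpow (s := 20 * c1) (A := 360 * CG ^ 4) (by positivity)
    (show (0 : ℝ) < 1 / 6 by norm_num)
  refine ⟨min 1 (min e1 (min e2 (min e3 (min e4 e5)))), by positivity, ?_⟩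
  intro e he hle X u ν D hX1 hX2 hu hν1 hν2 hu2 hD
  simp only [le_min_iff] at hle
  obtain ⟨g0, g1, g2, g3, g4, g5⟩ := hle
  have f1 := n1 e he g1
  have f2 := n2 e he g2
  have f3 := n3 e he g3
  have f4 := n4 e he g4
  have f5 := n5 e he g5
  clear n1 n2 n3 n4 n5
  have hX : 0 < X := (Real.rpow_pos_of_pos he _).trans_le hX1
  obtain ⟨E, hE⟩ : ∃ E, E = e ^ (5 / 2 * c1) := ⟨_, rfl⟩
  have hE0 : 0 < E := by rw [hE]; positivity
  have hE2 : E ^ 2 = e ^ (5 * c1) := by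
    rw [hE, pw_two he]
    congr 1
    ring
  have hEi : E⁻¹ = e ^ (-(5 / 2 * c1)) := by rw [hE, Real.rpow_neg he.le]
  obtain ⟨w, hw⟩ : ∃ w, w = X ^ 2 * E ^ 2 := ⟨_, rfl⟩
  have hw1 : 1 ≤ w := by
    have h1 : (e ^ (-th)) ^ 2 ≤ X ^ 2 := pow_le_pow_left₀ (Real.rpow_nonneg he.le _) hX1 2
    rw [pw_two he] at h1
    rw [hw, hE2]
    have h2 : 1 ≤ e ^ (2 * -th) * e ^ (5 * c1) := by
      rw [← Real.rpow_add he]
      exact Real.one_le_rpow_of_pos_of_le_one_of_nonpos he g0 (by linarith)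
    exact h2.trans (mul_le_mul_of_nonneg_right h1 (Real.rpow_nonneg he.le _))
  have hw0 : 0 < w := by linarith
  -- the number of steps
  obtain ⟨m, hm⟩ : ∃ m, m = ⌈w⌉₊ := ⟨_, rfl⟩
  have m1 : w ≤ m := by rw [hm]; exact Nat.le_ceil _
  have m2 : (m : ℝ) ≤ 2 * w := by
    have : (m : ℝ) ≤ w + 1 := by rw [hm]; exact (Nat.ceil_lt_add_one hw0.le).le
    linarith
  have m3 : 1 ≤ m := by
    have : (1 : ℝ) ≤ m := hw1.trans m1
    exact_mod_cast this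
  have m3' : (1 : ℝ) ≤ m := by exact_mod_cast m3
  refine ⟨m, m3, fun N κ σ hκ hσ => ?_⟩
  have hT0 : (0 : ℝ) < ((2 * m + 1 : ℕ) : ℝ) := by positivity
  have hT6 : ((2 * m + 1 : ℕ) : ℝ) ≤ 6 * w := by
    push_cast
    linarith
  -- powers
  have hX4 : X ^ 4 ≤ CG ^ 4 * e ^ (-(4 * ρ1)) := by
    calc X ^ 4 ≤ (CG * e ^ (-ρ1)) ^ 4 := pow_le_pow_left₀ hX.le hX2 4
      _ = CG ^ 4 * e ^ (-(4 * ρ1)) := by
        rw [mul_pow, pw_four he]
        congr 2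
        ring
  have hp10 : 1 ≤ e ^ (-(10 * c1)) :=
    Real.one_le_rpow_of_pos_of_le_one_of_nonpos he g0 (by linarith)
  have hE1 : E ^ 2 ≤ 1 := by
    rw [hE2]
    exact Real.rpow_le_one he.le g0 (by linarith)
  have t1 : 5 * ν * (2 * (D : ℝ)) ^ 2 / (m * c ^ 2) ≤ 1 / 6 * (e ^ (-(10 * c1)) / X ^ 2) := by
    refine et_t1 (w := w) (E := e ^ (-(2 * c1))) (A := A) hc hw0 m1 hν2 hD (by positivity) hX ?_
    have h1 : (e ^ (-(2 * c1))) ^ 2 / w = e ^ c1 * (e ^ (-(10 * c1)) / X ^ 2) := by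
      rw [hw, hE2, pw_two he]
      have h2 : e ^ (2 * -(2 * c1)) = e ^ c1 * e ^ (-(10 * c1)) * e ^ (5 * c1) := by
        rw [← Real.rpow_add he, ← Real.rpow_add he]
        congr 1
        ring
      rw [h2]
      have : e ^ (5 * c1) ≠ 0 := (Real.rpow_pos_of_pos he _).ne'
      field_simp
    rw [h1, ← mul_assoc]
    exact mul_le_mul_of_nonneg_right f1 (by positivity)
  have t2 : ((2 * m + 1 : ℕ) : ℝ) * (4 * Real.exp Cm *
      Real.exp (-(κ * N / (4 * √((2 * m + 1 : ℕ) : ℝ))))) / ν ≤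
        1 / 6 * (e ^ (-(10 * c1)) / X ^ 2) := by
    refine et_t2 (u := u) (cm := cm) (X := X) (E := E) (a := 2 * e ^ (-(2 * c1))) hcm hX hE0 hT0
      (by rw [← hw]; exact hT6) hu hν1 hκ hu2 ?_ ?_
    · have h1 : e ^ (-(2 * c1)) = e ^ (c1 / 2) * E⁻¹ := by
        rw [hEi, ← Real.rpow_add he]
        congr 1
        ring
      rw [h1, ← mul_assoc]
      exact mul_le_mul_of_nonneg_right f2 (inv_nonneg.2 hE0.le)
    · rw [hEi]
      have h1 : X ^ 2 * E ^ 2 * e ^ (4 * ρ1 + 1) ≤ CG ^ 4 * e / X ^ 2 := by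
        rw [le_div_iff₀ (by positivity)]
        have h2 : X ^ 4 * e ^ (4 * ρ1 + 1) ≤ CG ^ 4 * e := by
          calc X ^ 4 * e ^ (4 * ρ1 + 1) ≤ CG ^ 4 * e ^ (-(4 * ρ1)) * e ^ (4 * ρ1 + 1) :=
                mul_le_mul_of_nonneg_right hX4 (Real.rpow_nonneg he.le _)
            _ = CG ^ 4 * e := by
                rw [mul_assoc, ← Real.rpow_add he]
                have : -(4 * ρ1) + (4 * ρ1 + 1) = 1 := by ring
                rw [this, Real.rpow_one]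
        calc X ^ 2 * E ^ 2 * e ^ (4 * ρ1 + 1) * X ^ 2 = E ^ 2 * (X ^ 4 * e ^ (4 * ρ1 + 1)) := by
              ring
          _ ≤ 1 * (X ^ 4 * e ^ (4 * ρ1 + 1)) :=
              mul_le_mul_of_nonneg_right hE1 (by positivity)
          _ ≤ _ := by rw [one_mul]; exact h2
      rw [Real.rpow_one] at f4
      calc 24 * Real.exp Cm * (X ^ 2 * E ^ 2) * Real.exp (-(cm / 24 * e ^ (-(5 / 2 * c1))))
          ≤ 24 * Real.exp Cm * (X ^ 2 * E ^ 2) * e ^ (4 * ρ1 + 1) :=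
            mul_le_mul_of_nonneg_left f3 (by positivity)
        _ = 24 * Real.exp Cm * (X ^ 2 * E ^ 2 * e ^ (4 * ρ1 + 1)) := by ring
        _ ≤ 24 * Real.exp Cm * (CG ^ 4 * e / X ^ 2) :=
            mul_le_mul_of_nonneg_left h1 (by positivity)
        _ = (24 * Real.exp Cm * CG ^ 4 * e) * (1 / X ^ 2) := by ring
        _ ≤ 1 / 6 * (1 / X ^ 2) := mul_le_mul_of_nonneg_right f4 (by positivity)
        _ ≤ 1 / 6 * (e ^ (-(10 * c1)) / X ^ 2) := by gcongr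
  have t3 : 2 * ((((2 * m + 1 : ℕ) : ℝ)) ^ 2 * σ) / ν ≤ 1 / 6 * (e ^ (-(10 * c1)) / X ^ 2) := by
    refine et_t3 (u := u) (X := X) (w := w) (V := e ^ v) hX hT0.le hT6
      (Real.rpow_nonneg he.le _) hu hν1 hσ ?_
    have h1 : w ^ 2 ≤ CG ^ 4 * e ^ (-(4 * ρ1)) * e ^ (10 * c1) := by
      have h2 : w ^ 2 = X ^ 4 * e ^ (10 * c1) := by
        rw [hw, hE2, mul_pow, pw_two he]
        have : e ^ (2 * (5 * c1)) = e ^ (10 * c1) := by
          congr 1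
          ring
        rw [this]
        ring
      rw [h2]
      exact mul_le_mul_of_nonneg_right hX4 (Real.rpow_nonneg he.le _)
    have h3 : e ^ v * w ^ 2 ≤ CG ^ 4 * e ^ (20 * c1) * e ^ (-(10 * c1)) := by
      calc e ^ v * w ^ 2 ≤ e ^ v * (CG ^ 4 * e ^ (-(4 * ρ1)) * e ^ (10 * c1)) :=
            mul_le_mul_of_nonneg_left h1 (Real.rpow_nonneg he.le _)
        _ = CG ^ 4 * (e ^ (v - 4 * ρ1) * e ^ (10 * c1)) := by
            have : e ^ (v - 4 * ρ1) = e ^ v * e ^ (-(4 * ρ1)) := by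
              rw [← Real.rpow_add he]
              congr 1
            rw [this]
            ring
        _ ≤ CG ^ 4 * (1 * e ^ (10 * c1)) := by
            have h4 : e ^ (v - 4 * ρ1) ≤ 1 := Real.rpow_le_one he.le g0 (by linarith)
            have h5 : 0 ≤ e ^ (10 * c1) := Real.rpow_nonneg he.le _
            gcongr
        _ = CG ^ 4 * e ^ (20 * c1) * e ^ (-(10 * c1)) := by
            rw [one_mul, mul_assoc, ← Real.rpow_add he]
            congr 2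
            ring
    calc 360 * e ^ v * w ^ 2 / X ^ 2 = 360 * (e ^ v * w ^ 2) / X ^ 2 := by ring
      _ ≤ 360 * (CG ^ 4 * e ^ (20 * c1) * e ^ (-(10 * c1))) / X ^ 2 := by gcongr
      _ = (360 * CG ^ 4 * e ^ (20 * c1)) * (e ^ (-(10 * c1)) / X ^ 2) := by ring
      _ ≤ _ := mul_le_mul_of_nonneg_right f5 (by positivity)
  have e1 : eE ν c κ Cm σ 1 0 N m (2 * D) = 5 * ν * (2 * (D : ℝ)) ^ 2 / (m * c ^ 2) +
      ((2 * m + 1 : ℕ) : ℝ) * (4 * Real.exp Cm *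
      Real.exp (-(κ * N / (4 * √((2 * m + 1 : ℕ) : ℝ))))) / ν +
      2 * ((((2 * m + 1 : ℕ) : ℝ)) ^ 2 * σ) / ν := by
    unfold H733.Torg.eE H733.Torg.tau
    rw [add_zero, mul_one, add_div, ← add_assoc]
    push_cast
    rfl
  rw [e1]
  linarith

end

end Vale.Agent.P159.H767
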