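import Vale.Agent.P159.H767.Et1
import Vale.Agent.P159.H767.Nr14
import Vale.Agent.P159.H733.Vt2

/-!
P159, module NEAR (helper767), Et part 2: the entries of the covariances of the cell fields on two
admissible tori (helper462, row 7015 (T)): `ent_ev`, `ent_H`.
-/

set_option linter.unusedSectionVars false

namespace Vale.Agent.P159.H767

open Finset Matrix
open Vale.Agent.P159.TM.Spec (V)
open Vale.Agent.P159.H972 (Par lg tn RNG Good FL)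
open Vale.Agent.P159.H864 (TI sym yt)
open Vale.Agent.P159.H363 (acl pin)
open Vale.Agent.P159.H462 (Dom)
open Vale.Agent.P159.H801 (Ev PS)
open Vale.Agent.P159.H733.Torg (ip Cv eE)
open Vale.Agent.P159.H733.Vt (zb iw Jz)
open Vale.Agent.P159.H640

noncomputable section

/-- the covariance of the cell fields on the torus `2 ^ r`, real mass `τ` -/
def Kp (b τ : ℝ) (s r : ℕ) [NeZero (2 ^ r / 2 ^ s)] :
    Matrix (V (2 ^ r / 2 ^ s)) (V (2 ^ r / 2 ^ s)) ℝ :=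
  pin (acl (2 ^ r) (2 ^ s) b τ τ) * (pin (acl (2 ^ r) (2 ^ s) b τ τ))ᵀ

/-- the numbers of the comparison of the entries, one size `e` -/
structure EtN (b2 cm Cm A CG c1 th ρ1 e : ℝ) : Prop where
  a1 : e ≤ 1
  a2 : e ^ (1 / 2 : ℝ) ≤ 1 / 4
  a3 : e ^ (1 / 2 : ℝ) ≤ 1 / b2
  a4 : 4 * A * e ^ (th - 2 * c1) ≤ 1 / 2
  a5 : 12 * (2 * A + 1) ^ 2 * e ^ (2 * c1) ≤ 1
  a6 : 4 * ρ1 ≤ 1 / 2 → ∀ (X u ν : ℝ) (D : ℕ), e ^ (-th) ≤ X →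
      X ≤ CG * e ^ (-ρ1) → 0 < u → u ^ 2 ≤ ν → ν ≤ 4 * u ^ 2 →
      1 ≤ u ^ 2 * Real.exp (2 * e ^ (-(2 * c1))) → D * u ≤ A * e ^ (-(2 * c1)) →
      ∃ m : ℕ, 1 ≤ m ∧ ∀ (N : ℕ) (κ σ : ℝ), cm * X ≤ κ * N →
        σ ≤ 5 * e ^ (1 / 2 : ℝ) * (u ^ 2 / X ^ 2) →
        eE ν (1 / b2 / 2) κ Cm σ 1 0 N m (2 * D) ≤ 1 / 2 * (e ^ (-(10 * c1)) / X ^ 2)

lemma etn_ex {b2 cm Cm A CG c1 th ρ1 : ℝ} (hb2 : 0 < b2) (hcm : 0 < cm) (hA : 0 ≤ A)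
    (hCG : 0 < CG) (hc1 : 0 < c1) (hct : 5 * c1 ≤ th) :
    ∃ e0, 0 < e0 ∧ ∀ e : ℝ, 0 < e → e ≤ e0 → EtN b2 cm Cm A CG c1 th ρ1 e := by
  obtain ⟨e2, he2, n2⟩ := sm_rpow (s := (1 / 2 : ℝ)) (A := 1) (by norm_num)
    (show (0 : ℝ) < 1 / 4 by norm_num)
  obtain ⟨e3, he3, n3⟩ := sm_rpow (s := (1 / 2 : ℝ)) (A := 1) (by norm_num)
    (show (0 : ℝ) < 1 / b2 by positivity)
  obtain ⟨e4, he4, n4⟩ := sm_rpow (s := th - 2 * c1) (A := 4 * A) (by linarith)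
    (show (0 : ℝ) < 1 / 2 by norm_num)
  obtain ⟨e5, he5, n5⟩ := sm_rpow (s := 2 * c1) (A := 12 * (2 * A + 1) ^ 2) (by linarith) one_pos
  obtain ⟨e6, he6, n6⟩ : ∃ e0, 0 < e0 ∧ ∀ e : ℝ, 0 < e → e ≤ e0 → 4 * ρ1 ≤ 1 / 2 →
      ∀ (X u ν : ℝ) (D : ℕ), e ^ (-th) ≤ X →
      X ≤ CG * e ^ (-ρ1) → 0 < u → u ^ 2 ≤ ν → ν ≤ 4 * u ^ 2 →
      1 ≤ u ^ 2 * Real.exp (2 * e ^ (-(2 * c1))) → D * u ≤ A * e ^ (-(2 * c1)) →
      ∃ m : ℕ, 1 ≤ m ∧ ∀ (N : ℕ) (κ σ : ℝ), cm * X ≤ κ * N →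
        σ ≤ 5 * e ^ (1 / 2 : ℝ) * (u ^ 2 / X ^ 2) →
        eE ν (1 / b2 / 2) κ Cm σ 1 0 N m (2 * D) ≤ 1 / 2 * (e ^ (-(10 * c1)) / X ^ 2) := by
    by_cases h : 4 * ρ1 ≤ 1 / 2
    · obtain ⟨e0, he0, h0⟩ := eE_small (c := 1 / b2 / 2) (cm := cm) (Cm := Cm) (A := A) (CG := CG)
        (c1 := c1) (th := th) (ρ1 := ρ1) (v := 1 / 2) (by positivity) hcm hA hCG hc1 (by linarith) h
      exact ⟨e0, he0, fun e he hle _ => h0 e he hle⟩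
    · exact ⟨1, one_pos, fun e _ _ h' => absurd h' h⟩
  refine ⟨min 1 (min e2 (min e3 (min e4 (min e5 e6)))), by positivity, fun e he hle => ?_⟩
  simp only [le_min_iff] at hle
  obtain ⟨g1, g2, g3, g4, g5, g6⟩ := hle
  have f2 := n2 e he g2
  have f3 := n3 e he g3
  rw [one_mul] at f2 f3
  exact ⟨g1, f2, f3, n4 e he g4, n5 e he g5, n6 e he g6⟩

/-- the numbers in the order of constants -/
lemma etn_ev {b1 b2 cm Cm A : ℝ} (hb2 : 0 < b2) (hcm : 0 < cm) (hA : 0 ≤ A) (Q : ℕ) :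
    Ev b1 b2 (9 / 10) Q fun P c1 => ∀ e, 0 < e → e ≤ P.es →
      EtN b2 cm Cm A (2 ^ (1 + 4 * P.q0)) c1 P.th (P.th + 4 * P.q0 * P.thp) e := by
  refine Ev.of ⟨0, fun W _ => ⟨1, one_pos, fun ys _ _ => ⟨0, fun X0 _ => ⟨1, one_pos,
    fun x1 _ _ => ⟨1, one_pos, fun thp _ _ => ⟨1, one_pos, fun th hth _ => ⟨0,
    fun C0 _ => ⟨th / 5, by positivity, fun c1 hc1 hc1' => ?_⟩⟩⟩⟩⟩⟩⟩⟩
  obtain ⟨e0, he0, h⟩ := etn_ex (b2 := b2) (cm := cm) (Cm := Cm) (A := A)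
    (CG := 2 ^ (1 + 4 * (Q + ⌈x1 / thp⌉₊ + 2))) (c1 := c1) (th := th)
    (ρ1 := th + 4 * ((Q + ⌈x1 / thp⌉₊ + 2 : ℕ) : ℝ) * thp) hb2 hcm hA (by positivity) hc1
    (by linarith)
  refine ⟨e0, he0, fun P hP e he hle => ?_⟩
  rw [hP.eth, hP.ethp, hP.eq0]
  exact h e he (hle.trans hP.ees)

/-- the mass in cell units -/
lemma nu_bd {τ : ℝ} {n s : ℕ} (h1 : tn n ≤ τ) (h2 : τ ≤ 4 * tn n) :
    ((2 : ℝ) ^ s / 2 ^ n) ^ 2 ≤ τ * ((2 ^ s : ℕ) : ℝ) ^ 2 ∧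
      τ * ((2 ^ s : ℕ) : ℝ) ^ 2 ≤ 4 * ((2 : ℝ) ^ s / 2 ^ n) ^ 2 := by
  have e1 : ((2 ^ s : ℕ) : ℝ) ^ 2 = 4 ^ s := by
    rw [four_sq]
    push_cast
    rfl
  have e2 : ((2 : ℝ) ^ s / 2 ^ n) ^ 2 = tn n * 4 ^ s := by
    unfold H972.tn
    rw [div_pow, ← four_sq, ← four_sq]
    field_simp
  rw [e1, e2]
  have h4 : (0 : ℝ) < 4 ^ s := by positivity
  constructor
  · exact mul_le_mul_of_nonneg_right h1 h4.le
  · rw [← mul_assoc]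
    exact mul_le_mul_of_nonneg_right h2 h4.le

/-- the cells in exponential form -/
lemma u_exp {n s : ℕ} {x : ℝ} (hsn : s ≤ n) (h : ((n - s : ℕ) : ℝ) ≤ x) :
    1 ≤ ((2 : ℝ) ^ s / 2 ^ n) ^ 2 * Real.exp (2 * x) := by
  have hx : 0 ≤ x := (Nat.cast_nonneg _).trans h
  have h1 : (2 : ℝ) ^ s / 2 ^ n = Real.exp (-((n - s : ℕ) * Real.log 2)) := by
    rw [Real.exp_neg, Real.exp_nat_mul, Real.exp_log two_pos]
    have h5 : (2 : ℝ) ^ n = 2 ^ (n - s) * 2 ^ s := by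
      rw [← pow_add, Nat.sub_add_cancel hsn]
    rw [h5]
    field_simp
  have hl : Real.log 2 ≤ 1 := by
    have := Real.log_two_lt_d9
    linarith
  have hl0 : 0 ≤ Real.log 2 := Real.log_nonneg (by norm_num)
  have h2 : ((n - s : ℕ) : ℝ) * Real.log 2 ≤ x :=
    (mul_le_of_le_one_right (Nat.cast_nonneg _) hl).trans h
  rw [h1, ← Real.exp_nat_mul, ← Real.exp_add]
  refine Real.one_le_exp ?_
  push_cast
  linarith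

/-- **the entries of the covariances on two admissible tori** -/
theorem ent_evY {b1 : ℝ} (hb1 : 0 < b1) {b2 : ℝ} (hb2 : 0 < b2) (K A : ℝ) (hA : 0 ≤ A) (Q : ℕ) :
    Ev b1 b2 (9 / 10) Q fun P c1 => ∀ C1 : ℝ, 1 ≤ C1 → C1 ≤ K * P.C0 →
      ∀ (b : ℝ) (n s : ℕ) (e y Y : ℝ), Good P b n e → Lv P C1 c1 n s e y → 16 * Y ^ 2 ≤ e →
      ∀ τ : ℝ, tn n ≤ τ → τ ≤ 4 * tn n →
      ∀ (r r' : ℕ) [NeZero (2 ^ r / 2 ^ s)] [NeZero (2 ^ r' / 2 ^ s)], P.TT n e r → P.TT n e r' →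
      yt (2 ^ r) b (4 * tn n) ≤ Y → yt (2 ^ r') b (4 * tn n) ≤ Y →
      r ≤ r' → ∀ D : ℕ, (D : ℝ) * (2 ^ s / 2 ^ n) ≤ A * e ^ (-(2 * c1)) →
      4 * D < 2 ^ r / 2 ^ s ∧
      Dom (acl (2 ^ r) (2 ^ s) b τ τ) (τ * ((2 ^ s : ℕ) : ℝ) ^ 2) (1 / b2) ∧
      Dom (acl (2 ^ r') (2 ^ s) b τ τ) (τ * ((2 ^ s : ℕ) : ℝ) ^ 2) (1 / b2) ∧
      (∀ ζ ∈ zb (2 * D), |(Kp b τ s r' 0 (ip (2 ^ r' / 2 ^ s) ζ) - Kp b τ s r' 0 0) -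
        (Kp b τ s r 0 (ip (2 ^ r / 2 ^ s) ζ) - Kp b τ s r 0 0)| ≤
          e ^ (-(10 * c1)) / (2 ^ r / 2 ^ n) ^ 2) ∧
      3 * (τ * ((2 ^ s : ℕ) : ℝ) ^ 2) * (2 * D + 1) ^ 2 *
        (e ^ (-(10 * c1)) / (2 ^ r / 2 ^ n) ^ 2) ≤ e ^ (-(16 * c1)) / (2 ^ r / 2 ^ n) ^ 2 := by
  obtain ⟨cm, Cm, hcm, hCm, h0⟩ := kn_ev hb1 b2
  refine (((h0 (1 / 2) (by norm_num) (by norm_num) (9 / 10) Q).and (sm1_ev (b1 := b1) (b2 := b2)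
    K Q)).and (etn_ev (b1 := b1) (Cm := Cm) hb2 hcm hA Q)).mono ?_
  rintro P c1 _ ⟨⟨⟨hc1, hct, hρ, H⟩, _, _, hPb1, hPb2, hsm⟩, hN⟩
  intro C1 hC1 hC1K b n s e y Y hG hL hyy τ hτ1 hτ2 r r' _ _ hT hT' hYr hYr' hrr D hD
  have hs := hsm C1 hC1 hC1K e hL.e0 hL.ees
  have hE := hN e hL.e0 hL.ees
  clear hN hsm
  have he := hL.e0
  have he1 := hE.a1
  have hsn := hL.sn hs hC1
  have hns := hL.ns hs hC1 hc1
  have hτ : 0 < τ := (H972.tn_pos n).trans_le hτ1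
  have k1 := H b n s r r' e τ Y he hL.ees hG hT hT' hτ1 hτ2 hsn hns hYr hYr' hyy
  clear H
  obtain ⟨τ0, a0, _, _, hGP⟩ := hG
  have hr := (hGP e le_rfl hL.ees).rng r (Or.inl hT)
  have hbb : b1 ≤ b ∧ b ≤ b2 := by
    have h1 := hr.1.hb1
    have h2 := hr.1.hb2
    rw [hPb1] at h1
    rw [hPb2] at h2
    exact ⟨h1, h2⟩
  have hb : 0 < b := lt_of_lt_of_le hb1 hbb.1
  have hcD : 0 < 1 / b2 := by positivity
  have hsr : s ≤ r := hsn.trans ((Nat.le_add_right _ _).trans hT.1)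
  have hsr' : s ≤ r' := hsr.trans hrr
  have hnr : n ≤ r := (Nat.le_add_right _ _).trans hT.1
  have hDw : ∀ r : ℕ, s ≤ r → ∀ [NeZero (2 ^ r / 2 ^ s)],
      Dom (acl (2 ^ r) (2 ^ s) b τ τ) (τ * ((2 ^ s : ℕ) : ℝ) ^ 2) (1 / b2) := by
    intro r hsr _
    refine H692.Dom.weak (H375.dom_acl hb (pow_dvd_pow 2 hsr) hτ le_rfl) hcD ?_
    exact one_div_le_one_div_of_le hb hbb.2
  have hd : 2 ^ r / 2 ^ s ∣ 2 ^ r' / 2 ^ s := by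
    rw [Nat.pow_div hsr two_pos, Nat.pow_div hsr' two_pos]
    exact pow_dvd_pow 2 (by omega)
  have e4c : (4 : ℝ) * c1 = 2 * (2 * c1) := by ring
  rw [e4c] at k1
  obtain ⟨m1, m2⟩ := nrs_pow k1 he he1 (by positivity) hb.le hτ hτ2 hcm hsr hsr' hnr hE.a2 hE.a3
    (hDw r hsr) (hDw r' hsr') hd dvd_rfl
  -- the sizes
  obtain ⟨u, hu⟩ : ∃ u, u = (2 : ℝ) ^ s / 2 ^ n := ⟨_, rfl⟩
  obtain ⟨X, hX⟩ : ∃ X, X = (2 : ℝ) ^ r / 2 ^ n := ⟨_, rfl⟩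
  have hu0 : 0 < u := by rw [hu]; positivity
  have hu1 : u ≤ 1 := by
    rw [hu]
    have := hL.lam hs hC1
    linarith
  obtain ⟨ν, hν⟩ : ∃ ν, ν = τ * ((2 ^ s : ℕ) : ℝ) ^ 2 := ⟨_, rfl⟩
  obtain ⟨v1, v2⟩ := nu_bd (s := s) hτ1 hτ2
  rw [← hν, ← hu] at v1 v2
  have hX1 : e ^ (-P.th) ≤ X := by
    have h1 : e ^ (-P.th) ≤ (2 : ℝ) ^ P.kE e := lg_lo he
    refine h1.trans ?_
    rw [hX, le_div_iff₀ (by positivity), ← pow_add]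
    exact pow_le_pow_right₀ one_le_two (by have := hT.1; omega)
  have hX0 : 0 < X := (Real.rpow_pos_of_pos he _).trans_le hX1
  have hX2 : X ≤ 2 ^ (1 + 4 * P.q0) * e ^ (-(P.th + 4 * P.q0 * P.thp)) := by
    rw [hX]
    exact TT_pow he he1 hT
  have hue : 1 ≤ u ^ 2 * Real.exp (2 * e ^ (-(2 * c1))) := by
    rw [hu]
    exact u_exp hsn hns
  rw [← hu] at hD
  obtain ⟨m, hm, hmain⟩ := hE.a6 (by linarith) X u ν D hX1 hX2 hu0 v1 v2 hue hD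
  have hNX : ((2 ^ r / 2 ^ s : ℕ) : ℝ) = X / u := by
    rw [Nat.cast_div (pow_dvd_pow 2 hsr) (by positivity), hX, hu]
    push_cast
    field_simp
  have hNle : ((2 ^ r / 2 ^ s : ℕ) : ℝ) ≤ ((2 ^ r' / 2 ^ s : ℕ) : ℝ) := by
    exact_mod_cast Nat.le_of_dvd (NeZero.pos _) hd
  have hκ1 : cm * X ≤ cm * u * ((2 ^ r / 2 ^ s : ℕ) : ℝ) := by
    rw [hNX]
    have : cm * u * (X / u) = cm * X := by field_simp
    rw [this]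
  have hκ2 : cm * X ≤ cm * u * ((2 ^ r' / 2 ^ s : ℕ) : ℝ) :=
    hκ1.trans (mul_le_mul_of_nonneg_left hNle (by positivity))
  have hσ1 : 5 * e ^ (1 / 2 : ℝ) * ((4 : ℝ) ^ s / 4 ^ r) = 5 * e ^ (1 / 2 : ℝ) * (u ^ 2 / X ^ 2) := by
    rw [hu, hX, div_pow, div_pow, ← four_sq, ← four_sq, ← four_sq]
    field_simp
  have hσ2 : 5 * e ^ (1 / 2 : ℝ) * ((4 : ℝ) ^ s / 4 ^ r') ≤
      5 * e ^ (1 / 2 : ℝ) * (u ^ 2 / X ^ 2) := by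
    rw [← hσ1]
    refine mul_le_mul_of_nonneg_left ?_ (by positivity)
    exact div_le_div_of_nonneg_left (by positivity) (by positivity)
      (pow_le_pow_right₀ (by norm_num) hrr)
  rw [← hν, ← hu] at m1 m2
  have h4D : 4 * D < 2 ^ r / 2 ^ s := by
    have h1 : 4 * (D : ℝ) < ((2 ^ r / 2 ^ s : ℕ) : ℝ) := by
      rw [hNX, lt_div_iff₀ hu0]
      have h2 : 4 * (D : ℝ) * u ≤ 4 * A * e ^ (-(2 * c1)) := by
        calc 4 * (D : ℝ) * u = 4 * (D * u) := by ring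
          _ ≤ 4 * (A * e ^ (-(2 * c1))) := by linarith
          _ = _ := by ring
      have h3 : e ^ (-(2 * c1)) = e ^ (P.th - 2 * c1) * e ^ (-P.th) := by
        rw [← Real.rpow_add he]
        congr 1
        ring
      have h4 : 4 * A * e ^ (-(2 * c1)) ≤ 1 / 2 * e ^ (-P.th) := by
        rw [h3, ← mul_assoc]
        exact mul_le_mul_of_nonneg_right hE.a4 (Real.rpow_nonneg he.le _)
      have h5 : 0 < e ^ (-P.th) := Real.rpow_pos_of_pos he _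
      linarith
    exact_mod_cast h1
  rw [← hX, ← hν]
  refine ⟨h4D, by rw [hν]; exact hDw r hsr, by rw [hν]; exact hDw r' hsr', ?_, ?_⟩
  · intro ζ hζ
    rw [H733.Vt.mem_zb] at hζ
    have hK1 : Cv 0 (acl (2 ^ r) (2 ^ s) b τ τ) (Kp b τ s r) :=
      H733.Vt.cv_pin m1.dom.ti m1.dom.nn
    have hK2 : Cv 0 (acl (2 ^ r') (2 ^ s) b τ τ) (Kp b τ s r') :=
      H733.Vt.cv_pin m2.dom.ti m2.dom.nn
    have hD2 : 2 * (2 * D) ≤ 2 ^ r / 2 ^ s := by omega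
    have a1 := abs_le.1 ((m1.ent le_rfl hm hK1 (H733.Torg.cv_cov 0 _) hD2 hζ.1 hζ.2).trans
      (hmain _ _ _ hκ1 hσ1.le))
    have a2 := abs_le.1 ((m2.ent le_rfl hm hK2 (H733.Torg.cv_cov 0 _) (hD2.trans
      (Nat.le_of_dvd (NeZero.pos _) hd)) hζ.1 hζ.2).trans (hmain _ _ _ hκ2 hσ2))
    rw [abs_le]
    constructor <;> linarith [a1.1, a1.2, a2.1, a2.2]
  · have hp : 0 ≤ e ^ (-(10 * c1)) / X ^ 2 := by positivity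
    have h1 : 3 * ν * (2 * (D : ℝ) + 1) ^ 2 ≤ 12 * (2 * A + 1) ^ 2 * (e ^ (-(2 * c1))) ^ 2 := by
      have h2 : u * (2 * (D : ℝ) + 1) ≤ (2 * A + 1) * e ^ (-(2 * c1)) := by
        have h3 : 1 ≤ e ^ (-(2 * c1)) :=
          Real.one_le_rpow_of_pos_of_le_one_of_nonpos he he1 (by linarith)
        calc u * (2 * (D : ℝ) + 1) = 2 * (D * u) + u := by ring
          _ ≤ 2 * (A * e ^ (-(2 * c1))) + e ^ (-(2 * c1)) := by linarith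
          _ = _ := by ring
      have h4 : (u * (2 * (D : ℝ) + 1)) ^ 2 ≤ ((2 * A + 1) * e ^ (-(2 * c1))) ^ 2 :=
        pow_le_pow_left₀ (by positivity) h2 2
      calc 3 * ν * (2 * (D : ℝ) + 1) ^ 2 ≤ 3 * (4 * u ^ 2) * (2 * (D : ℝ) + 1) ^ 2 := by
            gcongr
        _ = 12 * (u * (2 * (D : ℝ) + 1)) ^ 2 := by ring
        _ ≤ 12 * ((2 * A + 1) * e ^ (-(2 * c1))) ^ 2 := by linarith
        _ = _ := by ring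
    have h5 : 12 * (2 * A + 1) ^ 2 * (e ^ (-(2 * c1))) ^ 2 ≤ e ^ (-(6 * c1)) := by
      have h6 : (e ^ (-(2 * c1))) ^ 2 = e ^ (2 * c1) * e ^ (-(6 * c1)) := by
        rw [pw_two he, ← Real.rpow_add he]
        congr 1
        ring
      rw [h6, ← mul_assoc]
      calc 12 * (2 * A + 1) ^ 2 * e ^ (2 * c1) * e ^ (-(6 * c1)) ≤ 1 * e ^ (-(6 * c1)) :=
            mul_le_mul_of_nonneg_right hE.a5 (Real.rpow_nonneg he.le _)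
        _ = _ := one_mul _
    calc 3 * ν * (2 * (D : ℝ) + 1) ^ 2 * (e ^ (-(10 * c1)) / X ^ 2)
        ≤ e ^ (-(6 * c1)) * (e ^ (-(10 * c1)) / X ^ 2) :=
          mul_le_mul_of_nonneg_right (h1.trans h5) hp
      _ = e ^ (-(16 * c1)) / X ^ 2 := by
          rw [← mul_div_assoc, ← Real.rpow_add he]
          congr 2
          ring

/-- the same with the background of helper889's level -/
theorem ent_ev {b1 : ℝ} (hb1 : 0 < b1) {b2 : ℝ} (hb2 : 0 < b2) (K A : ℝ) (hA : 0 ≤ A) (Q : ℕ) :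
    Ev b1 b2 (9 / 10) Q fun P c1 => ∀ C1 : ℝ, 1 ≤ C1 → C1 ≤ K * P.C0 →
      ∀ (b : ℝ) (n s : ℕ) (e y : ℝ), Good P b n e → Lv P C1 c1 n s e y →
      (∀ r, P.TT n e r → yt (2 ^ r) b (4 * tn n) ≤ e ^ (-(P.thp / 20)) * y) →
      ∀ τ : ℝ, tn n ≤ τ → τ ≤ 4 * tn n →
      ∀ (r r' : ℕ) [NeZero (2 ^ r / 2 ^ s)] [NeZero (2 ^ r' / 2 ^ s)], P.TT n e r → P.TT n e r' →
      r ≤ r' → ∀ D : ℕ, (D : ℝ) * (2 ^ s / 2 ^ n) ≤ A * e ^ (-(2 * c1)) →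
      4 * D < 2 ^ r / 2 ^ s ∧
      Dom (acl (2 ^ r) (2 ^ s) b τ τ) (τ * ((2 ^ s : ℕ) : ℝ) ^ 2) (1 / b2) ∧
      Dom (acl (2 ^ r') (2 ^ s) b τ τ) (τ * ((2 ^ s : ℕ) : ℝ) ^ 2) (1 / b2) ∧
      (∀ ζ ∈ zb (2 * D), |(Kp b τ s r' 0 (ip (2 ^ r' / 2 ^ s) ζ) - Kp b τ s r' 0 0) -
        (Kp b τ s r 0 (ip (2 ^ r / 2 ^ s) ζ) - Kp b τ s r 0 0)| ≤
          e ^ (-(10 * c1)) / (2 ^ r / 2 ^ n) ^ 2) ∧
      3 * (τ * ((2 ^ s : ℕ) : ℝ) ^ 2) * (2 * D + 1) ^ 2 *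
        (e ^ (-(10 * c1)) / (2 ^ r / 2 ^ n) ^ 2) ≤ e ^ (-(16 * c1)) / (2 ^ r / 2 ^ n) ^ 2 := by
  refine ((ent_evY hb1 hb2 K A hA Q).and (sm1_ev (b1 := b1) (b2 := b2) K Q)).mono ?_
  rintro P c1 _ ⟨H, _, _, _, _, hsm⟩
  intro C1 hC1 hC1K b n s e y hG hL hY τ hτ1 hτ2 r r' _ _ hT hT' hrr D hD
  exact H C1 hC1 hC1K b n s e y _ hG hL (hL.yy (hsm C1 hC1 hC1K e hL.e0 hL.ees)) τ hτ1 hτ2 r r' hT
    hT' (hY r hT) (hY r' hT') hrr D hD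

end

end Vale.Agent.P159.H767
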