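import Vale.Agent.P159.H767.Et2
import Vale.Agent.P159.H462.Q4

/-!
P159, module NEAR (helper767), Et part 3: the window increments of the typical laws of two admissible
tori (helper462's `WinHS`), order of constants: `winHS_ev`.
-/

set_option linter.unusedSectionVars false

namespace Vale.Agent.P159.H767

open Finset Matrix
open Vale.Agent.P159.TM.Spec (V)
open Vale.Agent.P159.H972 (Par lg tn RNG Good FL)
open Vale.Agent.P159.H864 (TI sym yt)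
open Vale.Agent.P159.H363 (acl)
open Vale.Agent.P159.H462 (Dom WinHS winHS_of_ent)
open Vale.Agent.P159.H801 (Ev PS)
open Vale.Agent.P159.H640

noncomputable section

/-- small numbers of the comparison of the windows -/
lemma wn_ev {b1 b2 pf : ℝ} (A : ℝ) (Q : ℕ) :
    Ev b1 b2 pf Q fun P c1 => 32 * c1 ≤ P.th ∧ 32 * c1 ≤ P.x1 ∧ ∀ e, 0 < e → e ≤ P.es →
      A * e ^ (P.th - c1) ≤ 1 ∧ e ^ P.th ≤ 1 / 16 := by
  refine Ev.of ⟨0, fun W _ => ⟨1, one_pos, fun ys _ _ => ⟨0, fun X0 _ => ⟨1, one_pos,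
    fun x1 hx1 _ => ⟨1, one_pos, fun thp _ _ => ⟨1, one_pos, fun th hth _ => ⟨0,
    fun C0 _ => ⟨min (th / 32) (x1 / 32), by positivity, fun c1 hc1 hc1' => ?_⟩⟩⟩⟩⟩⟩⟩⟩
  have h1 : c1 ≤ th / 32 := hc1'.trans (min_le_left _ _)
  have h2 : c1 ≤ x1 / 32 := hc1'.trans (min_le_right _ _)
  obtain ⟨e1, he1, n1⟩ := sm_rpow (s := th - c1) (A := A) (by linarith) one_pos
  obtain ⟨e2, he2, n2⟩ := sm_rpow (s := th) (A := 1) hth (show (0 : ℝ) < 1 / 16 by norm_num)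
  refine ⟨min e1 e2, by positivity, fun P hP => ⟨by rw [hP.eth]; linarith,
    by rw [hP.ex1]; linarith, fun e he hle => ?_⟩⟩
  have h3 := hle.trans hP.ees
  rw [le_min_iff] at h3
  have f2 := n2 e he h3.2
  rw [one_mul] at f2
  rw [hP.eth]
  exact ⟨n1 e he h3.1, f2⟩

/-- windows in the letters `A0 log (ξ / l) / λ` plus one length -/
lemma Lv.win {P : Par} {C1 c1 e y A0 : ℝ} {n s : ℕ} (h : Lv P C1 c1 n s e y)
    (hs : Sm1 C1 c1 P.thp e) (hC1 : 1 ≤ C1) (hc1 : 0 < c1) (hA0 : 0 ≤ A0) {D0 m : ℕ}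
    (h0 : (D0 : ℝ) * (2 ^ s / 2 ^ n) ≤ A0 * (((n : ℝ) - s) * Real.log 2))
    (hm : (m : ℝ) * (2 ^ s / 2 ^ n) ≤ 1) :
    ((D0 + m : ℕ) : ℝ) * (2 ^ s / 2 ^ n) ≤ (A0 + 1) * e ^ (-(2 * c1)) := by
  have hsn := h.sn hs hC1
  have hns := h.ns hs hC1 hc1
  have he := h.e0
  have he4 := hs.a6
  have hl : Real.log 2 ≤ 1 := by
    have := Real.log_two_lt_d9
    linarith
  have hl0 : 0 ≤ Real.log 2 := Real.log_nonneg (by norm_num)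
  have h1 : ((n : ℝ) - s) * Real.log 2 ≤ e ^ (-(2 * c1)) := by
    have e1 : ((n - s : ℕ) : ℝ) = (n : ℝ) - s := Nat.cast_sub hsn
    rw [← e1]
    exact (mul_le_of_le_one_right (Nat.cast_nonneg _) hl).trans hns
  have h2 : 1 ≤ e ^ (-(2 * c1)) :=
    Real.one_le_rpow_of_pos_of_le_one_of_nonpos he (by linarith) (by linarith)
  have h3 := mul_le_mul_of_nonneg_left h1 hA0
  push_cast
  calc ((D0 : ℝ) + m) * (2 ^ s / 2 ^ n) = D0 * (2 ^ s / 2 ^ n) + m * (2 ^ s / 2 ^ n) := by ring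
    _ ≤ A0 * e ^ (-(2 * c1)) + e ^ (-(2 * c1)) := by linarith
    _ = _ := by ring

/-- **the windows of two admissible tori** -/
theorem winHS_evY {b1 : ℝ} (hb1 : 0 < b1) {b2 : ℝ} (hb2 : 0 < b2) (K A A' : ℝ) (hA : 0 ≤ A)
    (hA' : 0 ≤ A') (Q : ℕ) :
    Ev b1 b2 (9 / 10) Q fun P c1 => ∀ C1 : ℝ, 1 ≤ C1 → C1 ≤ K * P.C0 →
      ∀ (b : ℝ) (n s : ℕ) (e y Y : ℝ), Good P b n e → Lv P C1 c1 n s e y → 16 * Y ^ 2 ≤ e →
      ∀ τ : ℝ, tn n ≤ τ → τ ≤ 4 * tn n →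
      ∀ (r r' : ℕ) [NeZero (2 ^ r / 2 ^ s)] [NeZero (2 ^ r' / 2 ^ s)], P.TT n e r → P.TT n e r' →
      yt (2 ^ r) b (4 * tn n) ≤ Y → yt (2 ^ r') b (4 * tn n) ≤ Y →
      r ≤ r' → ∀ D : ℕ, (D : ℝ) * (2 ^ s / 2 ^ n) ≤ A * e ^ (-(2 * c1)) →
      4 * D < 2 ^ r / 2 ^ s ∧
      Dom (acl (2 ^ r) (2 ^ s) b τ τ) (τ * ((2 ^ s : ℕ) : ℝ) ^ 2) (1 / b2) ∧
      Dom (acl (2 ^ r') (2 ^ s) b τ τ) (τ * ((2 ^ s : ℕ) : ℝ) ^ 2) (1 / b2) ∧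
      WinHS D (acl (2 ^ r) (2 ^ s) b τ τ) (acl (2 ^ r') (2 ^ s) b τ τ) (e ^ P.th) ∧
      WinHS D (acl (2 ^ r') (2 ^ s) b τ τ) (acl (2 ^ r) (2 ^ s) b τ τ) (e ^ P.th) ∧
      A' * Real.log (1 / y) * e ^ P.th ≤ 1 ∧ e ^ P.th ≤ 1 / 16 ∧
      (n + 2 * P.xE e ≤ r →
        WinHS D (acl (2 ^ r) (2 ^ s) b τ τ) (acl (2 ^ r') (2 ^ s) b τ τ) (e ^ (3 * P.x1)) ∧
        WinHS D (acl (2 ^ r') (2 ^ s) b τ τ) (acl (2 ^ r) (2 ^ s) b τ τ) (e ^ (3 * P.x1))) := by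
  refine (((ent_evY hb1 hb2 K A hA Q).and (sm1_ev (b1 := b1) (b2 := b2) K Q)).and
    (wn_ev A' Q)).mono ?_
  rintro P c1 _ ⟨⟨H, hc1, _, _, _, hsm⟩, ht, hx, hN⟩
  intro C1 hC1 hC1K b n s e y Y hG hL hYe τ hτ1 hτ2 r r' _ _ hT hT' hYr hYr' hrr D hD
  have hs := hsm C1 hC1 hC1K e hL.e0 hL.ees
  obtain ⟨w1, w2⟩ := hN e hL.e0 hL.ees
  clear hN hsm
  have he := hL.e0
  have he1 : e ≤ 1 := by
    have := hs.a6
    linarith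
  obtain ⟨k1, k2, k3, k4, k5⟩ := H C1 hC1 hC1K b n s e y Y hG hL hYe τ hτ1 hτ2 r r' hT hT' hYr hYr'
    hrr D hD
  clear H
  have hsn := hL.sn hs hC1
  have hsr : s ≤ r := hsn.trans ((Nat.le_add_right _ _).trans hT.1)
  have hsr' : s ≤ r' := hsr.trans hrr
  have hNle : 2 ^ r / 2 ^ s ≤ 2 ^ r' / 2 ^ s :=
    Nat.div_le_div_right (Nat.pow_le_pow_right two_pos hrr)
  obtain ⟨X, hX⟩ : ∃ X, X = (2 : ℝ) ^ r / 2 ^ n := ⟨_, rfl⟩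
  rw [← hX] at k4 k5
  have hX1 : e ^ (-P.th) ≤ X := by
    have h1 : e ^ (-P.th) ≤ (2 : ℝ) ^ P.kE e := lg_lo he
    refine h1.trans ?_
    rw [hX, le_div_iff₀ (by positivity), ← pow_add]
    exact pow_le_pow_right₀ one_le_two (by have := hT.1; omega)
  have hX0 : 0 < X := (Real.rpow_pos_of_pos he _).trans_le hX1
  have hp0 : 0 ≤ e ^ (-(10 * c1)) / X ^ 2 := by positivity
  have main : ∀ η : ℝ, e ^ (-(16 * c1)) / X ^ 2 ≤ η →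
      WinHS D (acl (2 ^ r) (2 ^ s) b τ τ) (acl (2 ^ r') (2 ^ s) b τ τ) η ∧
      WinHS D (acl (2 ^ r') (2 ^ s) b τ τ) (acl (2 ^ r) (2 ^ s) b τ τ) η := by
    intro η hη
    refine ⟨winHS_of_ent k2 k3 (by omega) (fun ζ hζ => k4 ζ hζ) hp0 (k5.trans hη),
      winHS_of_ent k3 k2 (by omega) (fun ζ hζ => ?_) hp0 (k5.trans hη)⟩
    rw [abs_sub_comm]
    exact k4 ζ hζ
  have hth : e ^ (-(16 * c1)) / X ^ 2 ≤ e ^ P.th := by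
    rw [div_le_iff₀ (by positivity)]
    have h1 : (e ^ (-P.th)) ^ 2 ≤ X ^ 2 := pow_le_pow_left₀ (Real.rpow_nonneg he.le _) hX1 2
    refine le_trans ?_ (mul_le_mul_of_nonneg_left h1 (Real.rpow_nonneg he.le _))
    rw [pw_two he, ← Real.rpow_add he]
    exact Real.rpow_le_rpow_of_exponent_ge he he1 (by linarith)
  obtain ⟨m1, m2⟩ := main _ hth
  refine ⟨k1, k2, k3, m1, m2, ?_, w2, fun hr => ?_⟩
  · have h1 : A' * Real.log (1 / y) ≤ A' * e ^ (-c1) := mul_le_mul_of_nonneg_left hL.yl hA'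
    refine (mul_le_mul_of_nonneg_right h1 (Real.rpow_nonneg he.le _)).trans ?_
    rw [mul_assoc, ← Real.rpow_add he]
    have e1 : -c1 + P.th = P.th - c1 := by ring
    rw [e1]
    exact w1
  · refine main _ ?_
    have h1 : e ^ (-P.x1) ≤ (2 : ℝ) ^ P.xE e := lg_lo he
    have h2 : e ^ (-P.x1) * e ^ (-P.x1) ≤ X := by
      calc e ^ (-P.x1) * e ^ (-P.x1) ≤ 2 ^ P.xE e * 2 ^ P.xE e :=
            mul_le_mul h1 h1 (Real.rpow_nonneg he.le _) (by positivity)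
        _ = 2 ^ (2 * P.xE e) := by rw [← pow_add, two_mul]
        _ ≤ X := by
          rw [hX, le_div_iff₀ (by positivity), ← pow_add]
          exact pow_le_pow_right₀ one_le_two (by omega)
    rw [← Real.rpow_add he] at h2
    rw [div_le_iff₀ (by positivity)]
    have h3 : (e ^ (-P.x1 + -P.x1)) ^ 2 ≤ X ^ 2 :=
      pow_le_pow_left₀ (Real.rpow_nonneg he.le _) h2 2
    refine le_trans ?_ (mul_le_mul_of_nonneg_left h3 (Real.rpow_nonneg he.le _))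
    rw [pw_two he, ← Real.rpow_add he]
    exact Real.rpow_le_rpow_of_exponent_ge he he1 (by linarith)

/-- the same with the background of helper889's level -/
theorem winHS_ev {b1 : ℝ} (hb1 : 0 < b1) {b2 : ℝ} (hb2 : 0 < b2) (K A A' : ℝ) (hA : 0 ≤ A)
    (hA' : 0 ≤ A') (Q : ℕ) :
    Ev b1 b2 (9 / 10) Q fun P c1 => ∀ C1 : ℝ, 1 ≤ C1 → C1 ≤ K * P.C0 →
      ∀ (b : ℝ) (n s : ℕ) (e y : ℝ), Good P b n e → Lv P C1 c1 n s e y →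
      (∀ r, P.TT n e r → yt (2 ^ r) b (4 * tn n) ≤ e ^ (-(P.thp / 20)) * y) →
      ∀ τ : ℝ, tn n ≤ τ → τ ≤ 4 * tn n →
      ∀ (r r' : ℕ) [NeZero (2 ^ r / 2 ^ s)] [NeZero (2 ^ r' / 2 ^ s)], P.TT n e r → P.TT n e r' →
      r ≤ r' → ∀ D : ℕ, (D : ℝ) * (2 ^ s / 2 ^ n) ≤ A * e ^ (-(2 * c1)) →
      4 * D < 2 ^ r / 2 ^ s ∧
      Dom (acl (2 ^ r) (2 ^ s) b τ τ) (τ * ((2 ^ s : ℕ) : ℝ) ^ 2) (1 / b2) ∧
      Dom (acl (2 ^ r') (2 ^ s) b τ τ) (τ * ((2 ^ s : ℕ) : ℝ) ^ 2) (1 / b2) ∧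
      WinHS D (acl (2 ^ r) (2 ^ s) b τ τ) (acl (2 ^ r') (2 ^ s) b τ τ) (e ^ P.th) ∧
      WinHS D (acl (2 ^ r') (2 ^ s) b τ τ) (acl (2 ^ r) (2 ^ s) b τ τ) (e ^ P.th) ∧
      A' * Real.log (1 / y) * e ^ P.th ≤ 1 ∧ e ^ P.th ≤ 1 / 16 ∧
      (n + 2 * P.xE e ≤ r →
        WinHS D (acl (2 ^ r) (2 ^ s) b τ τ) (acl (2 ^ r') (2 ^ s) b τ τ) (e ^ (3 * P.x1)) ∧
        WinHS D (acl (2 ^ r') (2 ^ s) b τ τ) (acl (2 ^ r) (2 ^ s) b τ τ) (e ^ (3 * P.x1))) := by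
  refine ((winHS_evY hb1 hb2 K A A' hA hA' Q).and (sm1_ev (b1 := b1) (b2 := b2) K Q)).mono ?_
  rintro P c1 _ ⟨H, _, _, _, _, hsm⟩
  intro C1 hC1 hC1K b n s e y hG hL hY τ hτ1 hτ2 r r' _ _ hT hT' hrr D hD
  exact H C1 hC1 hC1K b n s e y _ hG hL (hL.yy (hsm C1 hC1 hC1K e hL.e0 hL.ees)) τ hτ1 hτ2 r r' hT
    hT' (hY r hT) (hY r' hT') hrr D hD

end

end Vale.Agent.P159.H767
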