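import Vale.Agent.P159.H767.Et3
import Vale.Agent.P159.H801.Sp1

/-!
P159, module NEAR (helper767), Et part 4: `WinHS` at the states of the two runs, in the letters of
helper801's `Base`.
-/

set_option linter.unusedSectionVars false

namespace Vale.Agent.P159.H767

open Finset Matrix
open Vale.Agent.P159.TM.Spec (V)
open Vale.Agent.P159.H972 (Par lg tn RNG Good FL)
open Vale.Agent.P159.H864 (TI sym yt)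
open Vale.Agent.P159.H363 (acl)
open Vale.Agent.P159.H462 (Dom WinHS)
open Vale.Agent.P159.H801 (Ev PS Base)
open Vale.Agent.P159.H640

noncomputable section

lemma y78_ev {b1 b2 pf : ℝ} (Q : ℕ) :
    Ev b1 b2 pf Q fun P _ => ∀ e, 0 < e → e ≤ P.es → 16 * e ^ (1 / 78 : ℝ) ≤ 1 := by
  obtain ⟨e1, he1, n1⟩ := sm_rpow (s := (1 / 78 : ℝ)) (A := 16) (by norm_num) one_pos
  exact Ev.of ⟨0, fun W _ => ⟨1, one_pos, fun ys _ _ => ⟨0, fun X0 _ => ⟨1, one_pos,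
    fun x1 _ _ => ⟨1, one_pos, fun thp _ _ => ⟨1, one_pos, fun th _ _ => ⟨0,
    fun C0 _ => ⟨1, one_pos, fun c1 _ _ => ⟨e1, he1, fun P hP e he hle =>
      n1 e he (hle.trans hP.ees)⟩⟩⟩⟩⟩⟩⟩⟩⟩

lemma base_yy {e y c : ℝ} (he : 0 < e) (he1 : e ≤ 1) (hy : 0 < y) (hye : y ^ (39 / 20 : ℝ) ≤ e)
    (hc : 4 * c ≤ 1 / 39) (hs : 16 * e ^ (1 / 78 : ℝ) ≤ 1) : 16 * (e ^ (-c) * y) ^ 2 ≤ e := by
  have h1 : y ^ 2 ≤ e ^ (40 / 39 : ℝ) := by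
    have h2 : (y ^ (39 / 20 : ℝ)) ^ (40 / 39 : ℝ) ≤ e ^ (40 / 39 : ℝ) :=
      Real.rpow_le_rpow (Real.rpow_nonneg hy.le _) hye (by norm_num)
    rw [← Real.rpow_mul hy.le] at h2
    norm_num at h2
    exact h2
  have h2 : (e ^ (-c)) ^ 2 * e ^ (40 / 39 : ℝ) ≤ e ^ (1 / 78 : ℝ) * e := by
    have e1 : e ^ (1 / 78 : ℝ) * e = e ^ (1 / 78 + 1 : ℝ) := by
      rw [Real.rpow_add he, Real.rpow_one]
    rw [pw_two he, ← Real.rpow_add he, e1]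
    exact Real.rpow_le_rpow_of_exponent_ge he he1 (by linarith)
  calc 16 * (e ^ (-c) * y) ^ 2 = 16 * ((e ^ (-c)) ^ 2 * y ^ 2) := by ring
    _ ≤ 16 * ((e ^ (-c)) ^ 2 * e ^ (40 / 39 : ℝ)) := by gcongr
    _ ≤ 16 * (e ^ (1 / 78 : ℝ) * e) := by linarith
    _ = (16 * e ^ (1 / 78 : ℝ)) * e := by ring
    _ ≤ 1 * e := mul_le_mul_of_nonneg_right hs he.le
    _ = e := one_mul e

/-- **`WinHS` at the states of the two runs** -/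
theorem winHS_base {b1 : ℝ} (hb1 : 0 < b1) {b2 : ℝ} (hb2 : 0 < b2) (K A A' : ℝ) (hA : 0 ≤ A)
    (hA' : 0 ≤ A') (Q : ℕ) :
    Ev b1 b2 (9 / 10) Q fun P c1 => ∀ C1 : ℝ, 1 ≤ C1 → C1 ≤ K * P.C0 →
      ∀ (P' : Par) (b an c : ℝ) (n j : ℕ) (ε y e1 : ℝ) (r1 : ℕ), 4 * c ≤ 1 / 39 →
      Base P P' b an c n ε y e1 r1 → Good P b n ε → ε ≤ P.es → y ^ (39 / 20 : ℝ) ≤ ε →
      Real.log (1 / y) ≤ ε ^ (-c1) → (ε * y) ^ (9 / 8 * C1) ≤ (2 : ℝ) ^ j / 2 ^ n →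
      (2 : ℝ) ^ j / 2 ^ n ≤ (ε * y) ^ C1 →
      ∀ τ : ℝ, tn n ≤ τ → τ ≤ 4 * tn n →
      ∀ (r r' : ℕ) [NeZero (2 ^ r / 2 ^ j)] [NeZero (2 ^ r' / 2 ^ j)], P.TT n ε r → P.TT n ε r' →
      r1 ≤ r → r ≤ r' → ∀ D : ℕ, (D : ℝ) * (2 ^ j / 2 ^ n) ≤ A * ε ^ (-(2 * c1)) →
      4 * D < 2 ^ r / 2 ^ j ∧
      Dom (acl (2 ^ r) (2 ^ j) b τ τ) (τ * ((2 ^ j : ℕ) : ℝ) ^ 2) (1 / b2) ∧
      Dom (acl (2 ^ r') (2 ^ j) b τ τ) (τ * ((2 ^ j : ℕ) : ℝ) ^ 2) (1 / b2) ∧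
      WinHS D (acl (2 ^ r) (2 ^ j) b τ τ) (acl (2 ^ r') (2 ^ j) b τ τ) (ε ^ P.th) ∧
      WinHS D (acl (2 ^ r') (2 ^ j) b τ τ) (acl (2 ^ r) (2 ^ j) b τ τ) (ε ^ P.th) ∧
      A' * Real.log (1 / y) * ε ^ P.th ≤ 1 ∧ ε ^ P.th ≤ 1 / 16 ∧
      (n + 2 * P.xE ε ≤ r →
        WinHS D (acl (2 ^ r) (2 ^ j) b τ τ) (acl (2 ^ r') (2 ^ j) b τ τ) (ε ^ (3 * P.x1)) ∧
        WinHS D (acl (2 ^ r') (2 ^ j) b τ τ) (acl (2 ^ r) (2 ^ j) b τ τ) (ε ^ (3 * P.x1))) := by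
  refine ((winHS_evY hb1 hb2 K A A' hA hA' Q).and (y78_ev (b1 := b1) (b2 := b2) Q)).mono ?_
  rintro P c1 _ ⟨H, hN⟩
  intro C1 hC1 hC1K P' b an c n j ε y e1 r1 hc hB hG hes hye hyl hs1 hs2 τ hτ1 hτ2 r r' _ _ hT hT'
    hr1 hrr D hD
  have he1 : ε ≤ 1 := hes.trans (P.es1.trans (by norm_num))
  exact H C1 hC1 hC1K b n j ε y (ε ^ (-c) * y) hG ⟨hB.ε0, hes, hB.y0, hye, hyl, hs1, hs2⟩
    (base_yy hB.ε0 he1 hB.y0 hye hc (hN ε hB.ε0 hes)) τ hτ1 hτ2 r r' hT hT' (hB.yt4 r hr1)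
    (hB.yt4 r' (hr1.trans hrr)) hrr D hD

end

end Vale.Agent.P159.H767
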