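import Vale.Agent.P159.H767.Mass1
import Vale.Agent.P159.H733.TorgG

/-!
P159, module torg_mass (462, row 4102), torus: the window law (increments) of `(A + β)⁻¹` is
dominated by the window law of `A⁻¹`, one sided, no additive error.
-/

set_option linter.unusedSectionVars false

namespace Vale.Agent.P159.H767

open MeasureTheory Finset Matrix
open Vale.Agent.P159.TM.H764 (EE cN sN dt)
open Vale.Agent.P159.TM.Spec (V)
open Vale.Agent.P159.TM.H459 (sn)
open Vale.Agent.P159.H37 (gau qf)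
open Vale.Agent.P159.H864 (TI sym mlt)
open Vale.Agent.P159.H462 (Dom)
open Vale.Agent.P159.H733.Torg (Fac win inc ip cov phi dk pp Cv)

noncomputable section

variable {N : ℕ} [NeZero N] {A : Matrix (V N) (V N) ℝ} {ν c β : ℝ}

/-- the size of the mass change -/
def thM (ν c β : ℝ) (D J : ℕ) : ℝ :=
  (ν + β) * J * (8 * β / ν ^ 2 + 100 * D ^ 2 * β / c ^ 2 * (1 + Real.log (1 + ν / (2 * β))))

/-- the change of the variance of one increment -/
lemma mass_sum (h : Dom A ν c) (hβ : 0 < β) {D : ℕ} {a : V N} (ha : sn a ≤ D) :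
    ((N : ℝ) ^ 2)⁻¹ * ∑ k, (phi A 0 k - phi A β k) * (2 * (1 - cN (dt k a))) ≤
      16 * β / ν ^ 2 + 200 * D ^ 2 * β / c ^ 2 * (1 + Real.log (1 + ν / (2 * β))) := by
  have hν := h.hν
  have hc := h.hc
  have hN := H864.N_pos (N := N)
  have hx : 0 < 2 * β / c := by positivity
  have hvc : 0 < ν / c := by positivity
  have hpt : ∀ k : V N, (phi A 0 k - phi A β k) * (2 * (1 - cN (dt k a))) ≤
      16 * β / ν ^ 2 + (if k ∈ H462.low N (ν / c) then
        8 * D ^ 2 * β / c ^ 2 * (EE k + 2 * β / c)⁻¹ else 0) := by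
    intro k
    have hc1 := TM.H764.cN_le_one (dt k a)
    have hc2 := TM.H764.neg_one_le_cN (dt k a)
    by_cases hk : k = 0
    · have e1 : phi A 0 k - phi A β k = 0 := by
        unfold phi
        rw [if_pos hk, if_pos hk, sub_zero]
      rw [e1, zero_mul]
      have h1 : 0 ≤ 16 * β / ν ^ 2 := by positivity
      have hE := H462.EE_nonneg k
      have h2 : (0 : ℝ) ≤ (if k ∈ H462.low N (ν / c) then
        8 * D ^ 2 * β / c ^ 2 * (EE k + 2 * β / c)⁻¹ else 0) := by
        split_ifs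
        · positivity
        · exact le_rfl
      linarith
    have hα := H733.Torg.sym_pos h hk
    have hE := H462.EE_pos hk
    set α := sym A k with hαd
    have e1 : phi A 0 k - phi A β k = β / (α * (α + β)) := by
      unfold phi
      rw [if_neg hk, if_neg hk, add_zero, ← hαd]
      field_simp
      ring
    rw [e1]
    have hp2 : (0 : ℝ) ≤ (if k ∈ H462.low N (ν / c) then
        8 * D ^ 2 * β / c ^ 2 * (EE k + 2 * β / c)⁻¹ else 0) := by
      split_ifs
      · positivity
      · exact le_rfl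
    rcases le_or_gt (ν / 2) α with hr | hr
    · have h1 : β / (α * (α + β)) ≤ β / (ν / 2 * (ν / 2)) := by
        refine div_le_div_of_nonneg_left hβ.le (by positivity) ?_
        exact mul_le_mul hr (by linarith) (by positivity) hα.le
      have h2 : β / (α * (α + β)) * (2 * (1 - cN (dt k a))) ≤ β / (ν / 2 * (ν / 2)) * 4 :=
        mul_le_mul h1 (by linarith) (by linarith) (by positivity)
      have h3 : β / (ν / 2 * (ν / 2)) * 4 = 16 * β / ν ^ 2 := by
        field_simp
        norm_num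
      linarith
    · have h2 := h.ge k
      rw [← hαd] at h2
      have h5 := h2.trans_lt hr
      have hcE : 0 < c * EE k := by positivity
      rw [div_lt_iff₀ (by positivity)] at h5
      have h6 : c * EE k < ν := by nlinarith
      have h4 : c * EE k / 2 ≤ α := by
        refine le_trans ?_ h2
        rw [div_le_div_iff₀ (by norm_num) (by positivity)]
        nlinarith
      have hlow : k ∈ H462.low N (ν / c) := by
        unfold H462.low
        rw [Finset.mem_filter]
        refine ⟨Finset.mem_univ _, hk, ?_⟩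
        rw [lt_div_iff₀ hc]
        linarith
      rw [if_pos hlow]
      have h7 : 2 * (1 - cN (dt k a)) ≤ 2 * (D : ℝ) ^ 2 * EE k := by
        have h8 := H733.Torg.one_sub_cN k a
        have h9 : (sn a : ℝ) ^ 2 ≤ (D : ℝ) ^ 2 :=
          pow_le_pow_left₀ (Nat.cast_nonneg _) (by exact_mod_cast ha) 2
        have h10 := mul_le_mul_of_nonneg_right h9 hE.le
        linarith
      have h8 : β / (α * (α + β)) ≤ β / (c * EE k / 2 * (c * EE k / 2 + β)) := by
        refine div_le_div_of_nonneg_left hβ.le (by positivity) ?_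
        exact mul_le_mul h4 (by linarith) (by positivity) hα.le
      have h9 : β / (α * (α + β)) * (2 * (1 - cN (dt k a))) ≤
          β / (c * EE k / 2 * (c * EE k / 2 + β)) * (2 * (D : ℝ) ^ 2 * EE k) :=
        mul_le_mul h8 h7 (by linarith) (by positivity)
      have h10 : β / (c * EE k / 2 * (c * EE k / 2 + β)) * (2 * (D : ℝ) ^ 2 * EE k) =
          8 * D ^ 2 * β / c ^ 2 * (EE k + 2 * β / c)⁻¹ := by
        field_simp
        ring
      have h11 : 0 ≤ 16 * β / ν ^ 2 := by positivity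
      linarith
  have hsum := Finset.sum_le_sum fun k (_ : k ∈ (univ : Finset (V N))) => hpt k
  rw [Finset.sum_add_distrib, Finset.sum_const, Finset.card_univ, nsmul_eq_mul,
    TM.H764.card_V, Finset.sum_ite_mem, Finset.univ_inter, ← Finset.mul_sum] at hsum
  have hlog := H462.sum_log (N := N) hvc hx
  have e2 : ν / c / (2 * β / c) = ν / (2 * β) := by field_simp
  rw [e2] at hlog
  have h3 : 8 * D ^ 2 * β / c ^ 2 * ∑ k ∈ H462.low N (ν / c), (EE k + 2 * β / c)⁻¹ ≤
      8 * D ^ 2 * β / c ^ 2 * (25 * (N : ℝ) ^ 2 * (1 + Real.log (1 + ν / (2 * β)))) :=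
    mul_le_mul_of_nonneg_left hlog (by positivity)
  rw [inv_mul_le_iff₀ hN]
  refine hsum.trans ?_
  have e3 : (N : ℝ) ^ 2 * (16 * β / ν ^ 2 +
      200 * D ^ 2 * β / c ^ 2 * (1 + Real.log (1 + ν / (2 * β)))) =
      (N : ℝ) ^ 2 * (16 * β / ν ^ 2) +
        8 * D ^ 2 * β / c ^ 2 * (25 * (N : ℝ) ^ 2 * (1 + Real.log (1 + ν / (2 * β)))) := by
    ring
  rw [e3]
  linarith

section main

variable {I1 I2 J : Type*} [Fintype I1] [Fintype I2] [Fintype J]

/-- all window points different from the base point -/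
theorem torg_mass' [DecidableEq J] (h : Dom A ν c) (hβ : 0 < β) {D : ℕ} (hDN : 2 * D < N)
    {z : J → ℤ × ℤ} (hz : ∀ j, (z j).1.natAbs ≤ D ∧ (z j).2.natAbs ≤ D)
    (hzi : Function.Injective z) (hz0 : ∀ j, z j ≠ 0) {b : V N} {B1 : Matrix J I1 ℝ}
    {B2 : Matrix J I2 ℝ} (h1 : B1 * B1ᵀ = win b z * cov 0 A * (win b z)ᵀ)
    (h2 : B2 * B2ᵀ = win b z * cov β A * (win b z)ᵀ) {f : (J → ℝ) → ℝ} (hf : Measurable f)
    (hf0 : ∀ v, 0 ≤ f v) {M : ℝ} (hfM : ∀ v, f v ≤ M) :
    ∫ v, f (B2 *ᵥ v) ∂(gau I2) ≤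
      Real.exp (thM ν c β D (Fintype.card J)) * ∫ v, f (B1 *ᵥ v) ∂(gau I1) := by
  have hν := h.hν
  have hc := h.hc
  have hx : Function.Injective fun j => b + ip N (z j) := by
    intro i j hij
    have h1 := add_left_cancel hij
    exact hzi (H733.Torg.ip_inj hDN (hz i).1 (hz i).2 (hz j).1 (hz j).2 h1)
  have hxb : ∀ j, b + ip N (z j) ≠ b := by
    intro j hj
    have h1 : ip N (z j) = ip N 0 := by
      rw [H733.Torg.ip_zero]
      exact add_eq_left.1 hj
    exact hz0 j (H733.Torg.ip_inj hDN (hz j).1 (hz j).2 (by simp) (by simp) h1)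
  have qw : ∀ (K : Matrix (V N) (V N) ℝ) (u : J → ℝ),
      qf (win b z * K * (win b z)ᵀ) u = qf K ((win b z)ᵀ *ᵥ u) := by
    intro K u
    rw [H37.qf_eq, H733.Torg.qf_win]
  have hcv := H733.Torg.cv_cov β A
  have hK0 : 0 ≤ sym (cov β A) 0 := by
    unfold cov
    rw [H864.sym_mlt _ (H733.Torg.phi_neg A β)]
    exact H733.Torg.phi_nonneg h hβ.le 0
  have hlow : ∀ u : J → ℝ, (ν + β)⁻¹ * ∑ j, u j ^ 2 ≤ qf (B2 * B2ᵀ) u := by
    intro u
    rw [h2, qw]
    refine le_trans ?_ (hcv.low h hβ.le hK0 _)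
    have e1 : ∑ j, u j ^ 2 ≤ ∑ y, ((win b z)ᵀ *ᵥ u) y ^ 2 := by
      rw [H733.Torg.qf_gram]
      have : win b z * (win b z)ᵀ = (1 : Matrix J J ℝ) + Matrix.of fun _ _ => 1 := by
        ext i j
        unfold win
        rw [H733.Torg.mul_incT, Matrix.add_apply, Matrix.one_apply]
        unfold inc
        simp only [Matrix.of_apply]
        rw [if_neg (hxb j), if_neg (Ne.symm (hxb i))]
        simp only [if_true]
        by_cases hij : i = j
        · rw [if_pos hij, if_pos (by rw [hij])]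
          ring
        · rw [if_neg hij, if_neg fun he => hij (hx he).symm]
          ring
      rw [this, Matrix.add_mulVec, Matrix.one_mulVec, dotProduct_add]
      have e2 : u ⬝ᵥ u = ∑ j, u j ^ 2 := by
        unfold dotProduct
        exact Finset.sum_congr rfl fun j _ => by ring
      have e3 : u ⬝ᵥ ((Matrix.of fun _ _ => (1 : ℝ)) *ᵥ u) = (∑ j, u j) ^ 2 := by
        unfold Matrix.mulVec dotProduct
        simp only [Matrix.of_apply, one_mul]
        rw [← Finset.sum_mul, pow_two]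
      rw [e2, e3]
      have := sq_nonneg (∑ j, u j)
      linarith
    have e2 : ∑ y, ((win b z)ᵀ *ᵥ u) y = 0 := by
      unfold Matrix.mulVec dotProduct
      rw [Finset.sum_comm]
      refine Finset.sum_eq_zero fun j _ => ?_
      rw [← Finset.sum_mul]
      have : ∑ y, (win b z)ᵀ y j = 0 := by
        unfold win inc
        simp only [Matrix.transpose_apply, Matrix.of_apply, Finset.sum_sub_distrib,
          Finset.sum_ite_eq', mem_univ, if_true]
        ring
      rw [this, zero_mul]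
    rw [e2]
    refine mul_le_mul_of_nonneg_left ?_ (by positivity)
    rw [zero_pow two_ne_zero, mul_zero, sub_zero]
    exact e1
  have hphi : ∀ k, 0 ≤ phi A 0 k - phi A β k := by
    intro k
    unfold phi
    by_cases hk : k = 0
    · rw [if_pos hk, if_pos hk, sub_zero]
    · rw [if_neg hk, if_neg hk, add_zero, sub_nonneg]
      exact inv_anti₀ (H733.Torg.sym_pos h hk) (by linarith)
  have hdiff : B1 * B1ᵀ - B2 * B2ᵀ = win b z * (cov 0 A - cov β A) * (win b z)ᵀ := by
    rw [h1, h2, Matrix.mul_sub, Matrix.sub_mul]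
  have hmono : ∀ u : J → ℝ, 0 ≤ qf (B1 * B1ᵀ - B2 * B2ᵀ) u := by
    intro u
    rw [hdiff, qw]
    refine (H864.psd_iff ((H733.Torg.ti_cov 0 A).sub (H733.Torg.ti_cov β A))).2 (fun k => ?_) _
    rw [H864.sym_sub]
    unfold cov
    rw [H864.sym_mlt _ (H733.Torg.phi_neg A 0), H864.sym_mlt _ (H733.Torg.phi_neg A β)]
    exact hphi k
  have htr : trace (B1 * B1ᵀ - B2 * B2ᵀ) ≤ Fintype.card J *
      (16 * β / ν ^ 2 + 200 * D ^ 2 * β / c ^ 2 * (1 + Real.log (1 + ν / (2 * β)))) := by
    have e1 : ∀ j, (B1 * B1ᵀ - B2 * B2ᵀ) j j ≤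
        16 * β / ν ^ 2 + 200 * D ^ 2 * β / c ^ 2 * (1 + Real.log (1 + ν / (2 * β))) := by
      intro j
      rw [Matrix.sub_apply, h1, h2]
      unfold win
      rw [H733.Torg.inc_TI (H733.Torg.ti_cov 0 A), H733.Torg.inc_TI (H733.Torg.ti_cov β A)]
      simp only [add_sub_cancel_left]
      unfold cov
      rw [H733.Torg.dk_mlt, H733.Torg.dk_mlt, ← mul_sub, ← Finset.sum_sub_distrib]
      have hs : sn (ip N (z j)) ≤ D := H733.Torg.sn_ip_le (hz j).1 (hz j).2
      refine le_trans (le_of_eq ?_) (mass_sum h hβ hs)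
      congr 1
      refine Finset.sum_congr rfl fun k _ => ?_
      have e5 : pp k (ip N (z j)) (ip N (z j)) = 2 * (1 - cN (dt k (ip N (z j)))) := by
        unfold pp
        rw [← H733.Torg.cs_one]
        ring
      rw [e5]
      ring
    calc trace (B1 * B1ᵀ - B2 * B2ᵀ) = ∑ j, (B1 * B1ᵀ - B2 * B2ᵀ) j j := rfl
      _ ≤ ∑ _j : J, (16 * β / ν ^ 2 +
          200 * D ^ 2 * β / c ^ 2 * (1 + Real.log (1 + ν / (2 * β)))) :=
        Finset.sum_le_sum fun j _ => e1 j
      _ = _ := by rw [Finset.sum_const, Finset.card_univ, nsmul_eq_mul]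
  have key := law_mono (show 0 < (ν + β)⁻¹ by positivity) hlow hmono htr hf hf0 hfM
  refine key.trans (le_of_eq ?_)
  congr 2
  unfold thM
  field_simp
  ring

/-- extension by `0` at the base point -/
def ext0 (z : J → ℤ × ℤ) (v : {j : J // z j ≠ 0} → ℝ) : J → ℝ :=
  fun j => if hj : z j ≠ 0 then v ⟨j, hj⟩ else 0

lemma measurable_ext0 (z : J → ℤ × ℤ) : Measurable (ext0 z) := by
  refine measurable_pi_lambda _ fun j => ?_
  by_cases hj : z j ≠ 0
  · simp only [ext0, dif_pos hj]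
    exact measurable_pi_apply _
  · simp only [ext0, dif_neg hj]
    exact measurable_const

lemma fac_row {I : Type*} [Fintype I] {z : J → ℤ × ℤ} {b : V N} {B : Matrix J I ℝ} {β : ℝ}
    (hF : Fac z β A b B) {j : J} (hj : z j = 0) (i : I) : B j i = 0 := by
  have h2 : (B * Bᵀ) j j = 0 := by
    rw [hF.eq]
    unfold win
    rw [H733.Torg.mul_incT, H733.Torg.inc_mul, H733.Torg.inc_mul, hj, H733.Torg.ip_zero, add_zero]
    ring
  rw [Matrix.mul_apply] at h2
  have h3 : ∀ i ∈ (univ : Finset I), B j i * Bᵀ i j = 0 :=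
    (Finset.sum_eq_zero_iff_of_nonneg fun i _ => mul_self_nonneg _).1 h2
  exact mul_self_eq_zero.1 (h3 i (mem_univ i))

lemma ext0_mulVec {I : Type*} [Fintype I] {z : J → ℤ × ℤ} {b : V N} {B : Matrix J I ℝ} {β : ℝ}
    (hF : Fac z β A b B) (v : I → ℝ) :
    ext0 z ((B.submatrix Subtype.val id : Matrix {j : J // z j ≠ 0} I ℝ) *ᵥ v) = B *ᵥ v := by
  funext j
  by_cases hj : z j ≠ 0
  · simp only [ext0, dif_pos hj]
    rfl
  · simp only [ext0, dif_neg hj]
    rw [not_not] at hj
    have h1 : (B *ᵥ v) j = ∑ i, B j i * v i := rfl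
    rw [h1]
    symm
    refine Finset.sum_eq_zero fun i _ => ?_
    rw [fac_row hF hj, zero_mul]

/-- **torg_mass**: the window law of `(A + β)⁻¹` is at most `exp θ` times the window law of `A⁻¹` -/
theorem torg_mass [DecidableEq J] (h : Dom A ν c) (hβ : 0 ≤ β) {D : ℕ} (hDN : 2 * D < N)
    {z : J → ℤ × ℤ} (hz : ∀ j, (z j).1.natAbs ≤ D ∧ (z j).2.natAbs ≤ D)
    (hzi : Function.Injective z) {b : V N} {B1 : Matrix J I1 ℝ} {B2 : Matrix J I2 ℝ}
    (h1 : Fac z 0 A b B1) (h2 : Fac z β A b B2) {f : (J → ℝ) → ℝ} (hf : Measurable f)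
    (hf0 : ∀ v, 0 ≤ f v) {M : ℝ} (hfM : ∀ v, f v ≤ M) :
    ∫ v, f (B2 *ᵥ v) ∂(gau I2) ≤
      Real.exp (thM ν c β D (Fintype.card J)) * ∫ v, f (B1 *ᵥ v) ∂(gau I1) := by
  have hν := h.hν
  have hc := h.hc
  have hint : 0 ≤ ∫ v, f (B1 *ᵥ v) ∂(gau I1) := integral_nonneg fun v => hf0 _
  rcases hβ.eq_or_lt with hb | hb
  · subst hb
    have e : B2 * B2ᵀ = B1 * B1ᵀ := by rw [h1.eq, h2.eq]
    rw [H552.gau_int_eq e hf]
    have e2 : thM ν c 0 D (Fintype.card J) = 0 := by
      unfold thM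
      simp
    rw [e2, Real.exp_zero, one_mul]
  set B1' : Matrix {j : J // z j ≠ 0} I1 ℝ := B1.submatrix Subtype.val id with hB1'
  set B2' : Matrix {j : J // z j ≠ 0} I2 ℝ := B2.submatrix Subtype.val id with hB2'
  have sub1 : ∀ (K : Matrix (V N) (V N) ℝ) (i j : {j : J // z j ≠ 0}),
      (win b (fun j : {j : J // z j ≠ 0} => z j.1) * K *
        (win b fun j : {j : J // z j ≠ 0} => z j.1)ᵀ) i j =
        (win b z * K * (win b z)ᵀ) i.1 j.1 := by
    intro K i j
    unfold win
    rw [H733.Torg.mul_incT, H733.Torg.inc_mul, H733.Torg.inc_mul, H733.Torg.mul_incT,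
      H733.Torg.inc_mul, H733.Torg.inc_mul]
  have k1 : B1' * B1'ᵀ = win b (fun j : {j : J // z j ≠ 0} => z j.1) * cov 0 A *
      (win b fun j : {j : J // z j ≠ 0} => z j.1)ᵀ := by
    ext i j
    rw [sub1, ← h1.eq]
    rfl
  have k2 : B2' * B2'ᵀ = win b (fun j : {j : J // z j ≠ 0} => z j.1) * cov β A *
      (win b fun j : {j : J // z j ≠ 0} => z j.1)ᵀ := by
    ext i j
    rw [sub1, ← h2.eq]
    rfl
  have key := torg_mass' h hb hDN (z := fun j : {j : J // z j ≠ 0} => z j.1) (fun j => hz j.1)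
    (fun i j hij => Subtype.ext (hzi hij)) (fun j => j.2) k1 k2 (f := fun v => f (ext0 z v))
    (hf.comp (measurable_ext0 z)) (fun v => hf0 _) (fun v => hfM _)
  simp only [hB1', hB2', ext0_mulVec h1, ext0_mulVec h2] at key
  refine key.trans (mul_le_mul_of_nonneg_right (Real.exp_le_exp.2 ?_) hint)
  have hcard : (Fintype.card {j : J // z j ≠ 0} : ℝ) ≤ Fintype.card J := by
    exact_mod_cast Fintype.card_subtype_le _
  unfold thM
  have hl : 0 ≤ Real.log (1 + ν / (2 * β)) := Real.log_nonneg (by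
    have : 0 < ν / (2 * β) := by positivity
    linarith)
  gcongr

end main

end

end Vale.Agent.P159.H767
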