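import Vale.Agent.P159.H640.Dt3

/-!
P159, module NEAR (helper767), part 1: covariances of linear functionals from values of the free
energy (second order analogue of helper640's `Dt3`).

* `lk2` : `|f''(0)| ≤ C (ε/h² + B h^(n-2))` if `|f| ≤ ε`, `|f^(n)| ≤ B` on `[0, h]`;
* `Q2 μ a b s = L(s (a + b)) - L(s (a - b))`, second derivative at `0` is `4 E[a b]`;
* `C2_pair_two` : two models, up to a known quadratic term.
-/

namespace Vale.Agent.P159.H767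

open Finset Set
open Vale.Agent.P159.TM.H104
open Vale.Agent.P159.H37 (Ev)
open Vale.Agent.P159.H640

noncomputable section

/-- Landau-Kolmogorov for the second derivative at the end point -/
theorem lk2 (n : ℕ) (hn : 3 ≤ n) : ∃ C : ℝ, 0 < C ∧ ∀ (f : ℝ → ℝ) (h ε B : ℝ), 0 < h →
    ContDiff ℝ n f → (∀ x ∈ Icc 0 h, |iteratedDeriv n f x| ≤ B) → (∀ x ∈ Icc 0 h, |f x| ≤ ε) →
    |iteratedDeriv 2 f 0| ≤ C * (ε / h ^ 2 + B * h ^ (n - 2)) := by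
  obtain ⟨c, C, hC, hc, H⟩ := fd_exists (E := ℝ) n
  refine ⟨C, hC, ?_⟩
  intro f h ε B hh hf hB hε
  have h4 := H f h B hh hf (fun x hx => by rw [Real.norm_eq_abs]; exact hB x hx) ⟨2, by omega⟩
  simp only [Real.norm_eq_abs, smul_eq_mul] at h4
  have h5 : |∑ j, c ⟨2, by omega⟩ j * f (nd n j * h)| ≤ C * ε := by
    have hε0 : 0 ≤ ε := (abs_nonneg _).trans (hε 0 ⟨le_rfl, hh.le⟩)
    calc |∑ j, c ⟨2, by omega⟩ j * f (nd n j * h)|
        ≤ ∑ j, |c ⟨2, by omega⟩ j * f (nd n j * h)| := abs_sum_le_sum_abs _ _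
      _ ≤ ∑ j, |c ⟨2, by omega⟩ j| * ε := by
          refine sum_le_sum fun j _ => ?_
          rw [abs_mul]
          exact mul_le_mul_of_nonneg_left (hε _ (nd_mem j hh.le)) (abs_nonneg _)
      _ = (∑ j, |c ⟨2, by omega⟩ j|) * ε := (sum_mul _ _ _).symm
      _ ≤ C * ε := mul_le_mul_of_nonneg_right (hc _) hε0
  have h6 : h ^ 2 * |iteratedDeriv 2 f 0| ≤ C * ε + C * (B * h ^ n) := by
    have e1 : |h ^ 2 * iteratedDeriv 2 f 0| = h ^ 2 * |iteratedDeriv 2 f 0| := by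
      rw [abs_mul, abs_of_pos (by positivity)]
    rw [← e1]
    have h7 : |h ^ 2 * iteratedDeriv 2 f 0| ≤
        |h ^ 2 * iteratedDeriv 2 f 0 - ∑ j, c ⟨2, by omega⟩ j * f (nd n j * h)| +
        |∑ j, c ⟨2, by omega⟩ j * f (nd n j * h)| := by
      have := abs_add_le (h ^ 2 * iteratedDeriv 2 f 0 - ∑ j, c ⟨2, by omega⟩ j * f (nd n j * h))
        (∑ j, c ⟨2, by omega⟩ j * f (nd n j * h))
      simpa using this
    linarith
  have e2 : h ^ n = h ^ 2 * h ^ (n - 2) := by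
    rw [← pow_add]
    congr 1
    omega
  have h8 : |iteratedDeriv 2 f 0| ≤ (C * ε + C * (B * h ^ n)) / h ^ 2 := by
    rw [le_div_iff₀ (by positivity)]
    linarith
  refine h8.trans (le_of_eq ?_)
  rw [e2]
  field_simp

section alg

variable {V : Type*} [Fintype V] {μ : (V → ℤ) → ℝ}

/-- second moments of two linear functionals -/
def C2 (μ : (V → ℤ) → ℝ) (a b : V → ℝ) : ℝ := Ex μ 0 fun h => li a h * li b h

/-- the second derivative in terms of centred moments -/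
theorem iter2 (hμ : EM μ) (J u : V → ℝ) :
    iteratedDeriv 2 (Ll μ J u) 0 = Ex μ J fun h => (li u h - Ex μ J (li u)) ^ 2 := by
  have h1 : iteratedDeriv 2 (Ll μ J u) 0 = iteratedDeriv 1 (gq μ J u) 0 := iter_Ll hμ J u 0 0
  have hf := contDiff_Fk hμ J u 0
  have hg := contDiff_gq hμ J u
  have e1 : deriv (Fk μ J u 0) = fun s => gq μ J u s * Fk μ J u 0 s := funext (deriv_Fk0 hμ J u)
  have hl : ∀ n : ℕ, Fk μ J u (n + 1) 0 = ∑ i ∈ range (n + 1),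
      (n.choose i : ℝ) * iteratedDeriv i (gq μ J u) 0 * Fk μ J u (n - i) 0 := by
    intro n
    have hgn : ContDiffAt ℝ ((n : ℕ) : WithTop ℕ∞) (gq μ J u) 0 :=
      (hg.of_le (by exact_mod_cast le_top)).contDiffAt
    have hfn : ContDiffAt ℝ ((n : ℕ) : WithTop ℕ∞) (Fk μ J u 0) 0 :=
      (hf.of_le (by exact_mod_cast le_top)).contDiffAt
    have h2 := iteratedDeriv_fun_mul hgn hfn
    rw [← e1, ← iteratedDeriv_succ', iter_Fk hμ] at h2
    rw [h2]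
    refine sum_congr rfl fun i _ => ?_
    rw [iter_Fk hμ]
  have f0 : Fk μ J u 0 0 = 1 := Fk0_zero hμ J u
  have f1 : Fk μ J u 1 0 = 0 := by
    rw [Fk_zero]
    simp only [pow_one]
    rw [Ex_sub hμ (Gr.li u) (Gr.const _), Ex_const hμ, sub_self]
  have g0 := hl 0
  have g1 := hl 1
  simp only [sum_range_succ, sum_range_zero, Nat.choose, Nat.sub_zero, Nat.sub_self] at g0 g1
  norm_num at g0 g1
  rw [f0] at g0 g1
  rw [f1] at g0 g1
  have f2 := Fk_zero (μ := μ) J u 2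
  rw [h1, ← f2, iteratedDeriv_one]
  linarith

theorem iter2_C2 (hμ : EM μ) (he : Ev μ) (u : V → ℝ) :
    iteratedDeriv 2 (Ll μ 0 u) 0 = C2 μ u u := by
  have h0 : Ex μ 0 (li u) = 0 := H114.Ex_li_zero he u
  rw [iter2 hμ, h0]
  unfold C2
  congr 1
  funext h
  ring

/-- polarisation -/
theorem C2_polar (hμ : EM μ) (a b : V → ℝ) :
    C2 μ (a + b) (a + b) - C2 μ (a - b) (a - b) = 4 * C2 μ a b := by
  unfold C2
  have ga := Gr.li a
  have gb := Gr.li b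
  have e3 : (fun h : V → ℤ => li (a + b) h * li (a + b) h) =
      fun h => ((li a h * li a h) + 2 * (li a h * li b h)) + (li b h * li b h) := by
    funext h
    rw [H640.li_add]
    ring
  have e4 : (fun h : V → ℤ => li (a - b) h * li (a - b) h) =
      fun h => ((li a h * li a h) - 2 * (li a h * li b h)) + (li b h * li b h) := by
    funext h
    rw [H640.li_sub]
    ring
  rw [e3, e4, Ex_add hμ ((ga.mul ga).add ((ga.mul gb).cmul 2)) (gb.mul gb),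
    Ex_add hμ (ga.mul ga) ((ga.mul gb).cmul 2),
    Ex_add hμ ((ga.mul ga).sub ((ga.mul gb).cmul 2)) (gb.mul gb),
    Ex_sub hμ (ga.mul ga) ((ga.mul gb).cmul 2)]
  simp only [Ex_cmul]
  ring

/-- `L(s (a + b)) - L(s (a - b))` -/
def Q2 (μ : (V → ℤ) → ℝ) (a b : V → ℝ) (s : ℝ) : ℝ := Ll μ 0 (a + b) s - Ll μ 0 (a - b) s

theorem contDiff_Q2 (hμ : EM μ) (a b : V → ℝ) (n : ℕ) : ContDiff ℝ n (Q2 μ a b) := by
  have h : ∀ u : V → ℝ, ContDiff ℝ n (Ll μ 0 u) := fun u =>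
    (contDiff_Ll hμ 0 u).of_le (by exact_mod_cast le_top)
  exact (h _).sub (h _)

theorem iter_Q2 (hμ : EM μ) (a b : V → ℝ) (n : ℕ) (s : ℝ) :
    iteratedDeriv n (Q2 μ a b) s = iteratedDeriv n (Ll μ 0 (a + b)) s -
      iteratedDeriv n (Ll μ 0 (a - b)) s := by
  have h : ∀ u : V → ℝ, ContDiffAt ℝ n (Ll μ 0 u) s := fun u =>
    ((contDiff_Ll hμ 0 u).of_le (by exact_mod_cast le_top)).contDiffAt
  have e : Q2 μ a b = fun s => Ll μ 0 (a + b) s - Ll μ 0 (a - b) s := rfl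
  rw [e, iteratedDeriv_fun_sub (h _) (h _)]

theorem iter2_Q2 (hμ : EM μ) (he : Ev μ) (a b : V → ℝ) :
    iteratedDeriv 2 (Q2 μ a b) 0 = 4 * C2 μ a b := by
  rw [iter_Q2 hμ, iter2_C2 hμ he, iter2_C2 hμ he, C2_polar hμ]

/-- derivatives of the pair function -/
theorem Q2_der (κ : ℝ) (n : ℕ) : ∃ C : ℝ, 0 ≤ C ∧ ∀ {V : Type*} [Fintype V]
    {μ : (V → ℤ) → ℝ} (_ : EM μ) (_ : Ev μ) (a b : V → ℝ) (r : ℝ), 0 < r →
    Lg μ ((4 * r) • a) - Lg μ 0 ≤ κ → Lg μ ((4 * r) • b) - Lg μ 0 ≤ κ → ∀ s : ℝ, |s| ≤ r →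
    |iteratedDeriv (n + 2) (Q2 μ a b) s| ≤ C * (1 / r) ^ (n + 2) := by
  obtain ⟨C, hC, h⟩ := der_le κ n
  refine ⟨2 * C, by positivity, ?_⟩
  intro V _ μ hμ he a b r hr ha hb s hs
  have e4 : ∀ u : V → ℝ, (2 : ℝ) • ((2 * r) • u) = (4 * r) • u := by
    intro u
    rw [smul_smul]
    congr 1
    ring
  have m1 : Lg μ ((2 * r) • (a + b)) - Lg μ 0 ≤ κ := by
    have h1 := Lg_mid hμ ((2 * r) • a) ((2 * r) • b)
    rw [← smul_add, e4, e4] at h1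
    linarith
  have m2 : Lg μ ((2 * r) • (a - b)) - Lg μ 0 ≤ κ := by
    have h1 := Lg_mid hμ ((2 * r) • a) (-((2 * r) • b))
    rw [smul_neg, e4, e4, Lg_even he, ← sub_eq_add_neg, ← smul_sub] at h1
    linarith
  have b1 := h hμ he (a + b) r hr m1 s hs
  have b2 := h hμ he (a - b) r hr m2 s hs
  rw [iter_Q2 hμ]
  rw [abs_le] at b1 b2 ⊢
  constructor <;> linarith [b1.1, b1.2, b2.1, b2.2]

/-- the variance of one functional from the energy -/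
theorem C2_le (κ : ℝ) : ∃ C : ℝ, 0 ≤ C ∧ ∀ {V : Type*} [Fintype V]
    {μ : (V → ℤ) → ℝ} (_ : EM μ) (_ : Ev μ) (a b : V → ℝ) (r : ℝ), 0 < r →
    Lg μ ((4 * r) • a) - Lg μ 0 ≤ κ → Lg μ ((4 * r) • b) - Lg μ 0 ≤ κ →
    |C2 μ a b| ≤ C * (1 / r) ^ 2 := by
  obtain ⟨C, hC, h⟩ := Q2_der κ 0
  refine ⟨C, hC, ?_⟩
  intro V _ μ hμ he a b r hr ha hb
  have h1 := h hμ he a b r hr ha hb 0 (by simpa using hr.le)
  rw [zero_add, iter2_Q2 hμ he, abs_mul, abs_of_pos (by norm_num : (0 : ℝ) < 4)] at h1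
  have : 0 ≤ |C2 μ a b| := abs_nonneg _
  linarith

lemma iter_quad (κ : ℝ) (n : ℕ) (s : ℝ) :
    iteratedDeriv n (fun s : ℝ => κ * s ^ 2) s =
      κ * (((2 : ℕ).descFactorial n : ℝ) * s ^ (2 - n)) := by
  have h : iteratedDeriv n (fun s : ℝ => κ * s ^ 2) s = κ * iteratedDeriv n (fun s : ℝ => s ^ 2) s :=
    iteratedDeriv_const_mul_field κ _
  rw [h, iteratedDeriv_pow]

/-- **`E[a b]` of two models from values**, up to a known quadratic term -/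
theorem C2_pair_two (κ : ℝ) (n : ℕ) (hn : 3 ≤ n) : ∃ C : ℝ, 0 < C ∧
    ∀ {V V' : Type} [Fintype V] [Fintype V'] {μ : (V → ℤ) → ℝ} {μ' : (V' → ℤ) → ℝ}
    (_ : EM μ) (_ : Ev μ) (_ : EM μ') (_ : Ev μ') (a b : V → ℝ) (a' b' : V' → ℝ) (r h ε θ : ℝ),
    0 < r → 0 < h → h ≤ r →
    Lg μ ((4 * r) • a) - Lg μ 0 ≤ κ → Lg μ ((4 * r) • b) - Lg μ 0 ≤ κ →
    Lg μ' ((4 * r) • a') - Lg μ' 0 ≤ κ → Lg μ' ((4 * r) • b') - Lg μ' 0 ≤ κ →
    (∀ s ∈ Icc 0 h, |Q2 μ a b s - Q2 μ' a' b' s - θ * s ^ 2| ≤ ε) →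
    |C2 μ a b - C2 μ' a' b' - θ / 2| ≤ C * (ε / h ^ 2 + (1 / r) ^ n * h ^ (n - 2)) := by
  obtain ⟨C1, hC1, H1⟩ := lk2 n hn
  obtain ⟨C2', hC2, H2⟩ := Q2_der κ (n - 2)
  refine ⟨C1 * (1 + 2 * C2'), by positivity, ?_⟩
  intro V V' _ _ μ μ' hμ he hμ' he' a b a' b' r h ε θ hr hh hhr ha hb ha' hb' hε
  have e2 : n - 2 + 2 = n := by omega
  have c1 : ContDiff ℝ n (Q2 μ a b) := contDiff_Q2 hμ a b n
  have c2 : ContDiff ℝ n (Q2 μ' a' b') := contDiff_Q2 hμ' a' b' n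
  have c3 : ContDiff ℝ n fun s : ℝ => θ * s ^ 2 := contDiff_const.mul (contDiff_id.pow 2)
  have hder : ∀ k : ℕ, k ≤ n → ∀ s, iteratedDeriv k (fun s =>
      Q2 μ a b s - Q2 μ' a' b' s - θ * s ^ 2) s =
      iteratedDeriv k (Q2 μ a b) s - iteratedDeriv k (Q2 μ' a' b') s -
        θ * (((2 : ℕ).descFactorial k : ℝ) * s ^ (2 - k)) := by
    intro k hkn s
    have d1 : ContDiffAt ℝ k (Q2 μ a b) s := (c1.of_le (by exact_mod_cast hkn)).contDiffAt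
    have d2 : ContDiffAt ℝ k (Q2 μ' a' b') s := (c2.of_le (by exact_mod_cast hkn)).contDiffAt
    have d3 : ContDiffAt ℝ k (fun s : ℝ => θ * s ^ 2) s :=
      (c3.of_le (by exact_mod_cast hkn)).contDiffAt
    have e : (fun s => Q2 μ a b s - Q2 μ' a' b' s - θ * s ^ 2) =
        fun s => (fun s => Q2 μ a b s - Q2 μ' a' b' s) s - (fun s : ℝ => θ * s ^ 2) s := rfl
    rw [e, iteratedDeriv_fun_sub (d1.sub d2) d3, iteratedDeriv_fun_sub d1 d2, iter_quad]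
  have h1 := H1 (fun s => Q2 μ a b s - Q2 μ' a' b' s - θ * s ^ 2) h ε
    (2 * (C2' * (1 / r) ^ n)) hh ((c1.sub c2).sub c3)
    (fun x hx => by
      rw [hder n le_rfl, Nat.descFactorial_eq_zero_iff_lt.2 (by omega : 2 < n)]
      have hx' : |x| ≤ r := by
        rw [abs_of_nonneg hx.1]
        exact hx.2.trans hhr
      have q1 := H2 hμ he a b r hr ha hb x hx'
      have q2 := H2 hμ' he' a' b' r hr ha' hb' x hx'
      rw [e2] at q1 q2
      simp only [Nat.cast_zero, zero_mul, mul_zero, sub_zero]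
      refine (abs_sub _ _).trans ?_
      linarith) hε
  have e3 : ((2 : ℕ).descFactorial 2 : ℝ) = 2 := by norm_num [Nat.descFactorial]
  rw [hder 2 (by omega), iter2_Q2 hμ he, iter2_Q2 hμ' he', e3, Nat.sub_self, pow_zero] at h1
  have e4 : 4 * C2 μ a b - 4 * C2 μ' a' b' - θ * (2 * 1) =
      4 * (C2 μ a b - C2 μ' a' b' - θ / 2) := by ring
  rw [e4, abs_mul, abs_of_pos (by norm_num : (0 : ℝ) < 4)] at h1
  have hε0 : 0 ≤ ε := (abs_nonneg _).trans (hε 0 ⟨le_rfl, hh.le⟩)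
  have p1 : 0 ≤ ε / h ^ 2 := by positivity
  have p2 : 0 ≤ (1 / r) ^ n * h ^ (n - 2) := by positivity
  have p3 : 0 ≤ |C2 μ a b - C2 μ' a' b' - θ / 2| := abs_nonneg _
  have p4 : C1 * (ε / h ^ 2 + 2 * (C2' * (1 / r) ^ n) * h ^ (n - 2)) ≤
      C1 * (1 + 2 * C2') * (ε / h ^ 2 + (1 / r) ^ n * h ^ (n - 2)) := by
    have q1 : 0 ≤ C1 * C2' * (ε / h ^ 2) := by positivity
    have q2 : 0 ≤ C1 * ((1 / r) ^ n * h ^ (n - 2)) := by positivity
    nlinarith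
  linarith

end alg

/-- choice of the step -/
theorem opt2 {n : ℕ} (hn : 3 ≤ n) {r ε E : ℝ} (hr : 0 < r) (hE0 : 0 < E) (hE1 : E ≤ 1)
    (hε : ε ≤ E) : ∃ h, 0 < h ∧ h ≤ r ∧
      ε / h ^ 2 + (1 / r) ^ n * h ^ (n - 2) ≤ 2 * (1 / r) ^ 2 * E ^ (1 - 2 / (n : ℝ)) := by
  have hn0 : (0 : ℝ) < n := by
    have : 0 < n := by omega
    exact_mod_cast this
  have hx0 : 0 < E ^ (1 / (n : ℝ)) := Real.rpow_pos_of_pos hE0 _
  have hx1 : E ^ (1 / (n : ℝ)) ≤ 1 := Real.rpow_le_one hE0.le hE1 (by positivity)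
  refine ⟨r * E ^ (1 / (n : ℝ)), by positivity, mul_le_of_le_one_right hr.le hx1, ?_⟩
  have e4 : (E ^ (1 / (n : ℝ))) ^ 2 = E ^ (2 / (n : ℝ)) := by
    rw [← Real.rpow_natCast, ← Real.rpow_mul hE0.le]
    congr 1
    push_cast
    ring
  have en : (E ^ (1 / (n : ℝ))) ^ (n - 2) = E ^ (1 - 2 / (n : ℝ)) := by
    rw [← Real.rpow_natCast, ← Real.rpow_mul hE0.le]
    congr 1
    rw [Nat.cast_sub (by omega)]
    push_cast
    field_simp
  have h1 : ε / (r * E ^ (1 / (n : ℝ))) ^ 2 ≤ (1 / r) ^ 2 * E ^ (1 - 2 / (n : ℝ)) := by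
    rw [mul_pow, e4]
    have e5 : E ^ (1 - 2 / (n : ℝ)) = E / E ^ (2 / (n : ℝ)) := by
      rw [Real.rpow_sub hE0, Real.rpow_one]
    rw [e5]
    have hp : 0 < E ^ (2 / (n : ℝ)) := Real.rpow_pos_of_pos hE0 _
    calc ε / (r ^ 2 * E ^ (2 / (n : ℝ))) ≤ E / (r ^ 2 * E ^ (2 / (n : ℝ))) :=
          div_le_div_of_nonneg_right hε (by positivity)
      _ = _ := by field_simp
  have h2 : (1 / r) ^ n * (r * E ^ (1 / (n : ℝ))) ^ (n - 2) =
      (1 / r) ^ 2 * E ^ (1 - 2 / (n : ℝ)) := by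
    rw [mul_pow, en, ← mul_assoc]
    congr 1
    have e6 : (1 / r) ^ n = (1 / r) ^ (n - 2) * (1 / r) ^ 2 := by
      rw [← pow_add]
      congr 1
      omega
    rw [e6, mul_right_comm, ← mul_pow, one_div_mul_cancel hr.ne', one_pow, one_mul]
  rw [h2]
  linarith

end

end Vale.Agent.P159.H767
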