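import Vale.Agent.P159.H767.Nr9

/-!
P159, module NEAR (helper767), part 10: `Nrs` with powers; the periodized form and the stiffness.
-/

set_option linter.unusedSectionVars false

namespace Vale.Agent.P159.H767

open Finset Matrix
open Vale.Agent.P159.TM.H764 (EE cN dt)
open Vale.Agent.P159.TM.H859 (dirE)
open Vale.Agent.P159.TM.Spec (V)
open Vale.Agent.P159.H37 (qf)
open Vale.Agent.P159.H972 (tn)
open Vale.Agent.P159.H864 (TI sym lapM ti_lapM sym_lapM qf_lapM)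
open Vale.Agent.P159.H363 (acl)
open Vale.Agent.P159.H462 (Dom)
open Vale.Agent.P159.H733.Torg (pz ti_pz dom_pz)
open Vale.Agent.P159.H708 (Nrs)

noncomputable section

/-! ### the periodized form -/

section pz

variable {N M : ℕ} [NeZero N] [NeZero M] {h : N ∣ M} {A : Matrix (V N) (V N) ℝ}
  {A3 : Matrix (V M) (V M) ℝ} {ν c κ C1 σ a : ℝ}

/-- the symbols of `A` and of the periodized form -/
theorem sym_pz_sub (hN : Nrs h A A3 ν c κ C1 σ) (k : V N) :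
    |sym (pz h A3) k - sym A k| ≤ ν * (N : ℝ) ^ 4 * σ / 16 * EE k := by
  have hdB := dom_pz h hN.dom2
  by_cases hk : k = 0
  · subst hk
    rw [hdB.zero, hN.dom.zero]
    have h1 := TM.H764.EE_nonneg (0 : V N)
    have h2 : 0 ≤ σ := (abs_nonneg _).trans (hN.sup 0)
    have h3 := hN.dom.hν
    rw [sub_self, abs_zero]
    positivity
  · have hν := hN.dom.hν
    have hn := H864.N_pos (N := N)
    have hσ : 0 ≤ σ := (abs_nonneg _).trans (hN.sup 0)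
    have e1 : sym (pz h A3) k - sym A k =
        ν * sym ((1 - ν⁻¹ • A) - (1 - ν⁻¹ • pz h A3)) k := by
      rw [H864.sym_sub, H864.sym_sub, H864.sym_sub, H864.sym_smul, H864.sym_smul, H864.sym_one]
      field_simp
      ring
    have h1 : |sym ((1 - ν⁻¹ • A) - (1 - ν⁻¹ • pz h A3)) k| ≤ (N : ℝ) ^ 2 * σ := by
      rw [H864.sym_def]
      refine (Finset.abs_sum_le_sum_abs _ _).trans ?_
      have h2 : ∀ z ∈ (univ : Finset (V N)),
          |((1 - ν⁻¹ • A) - (1 - ν⁻¹ • pz h A3) : Matrix (V N) (V N) ℝ) 0 z * cN (dt k z)| ≤ σ := by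
        intro z _
        rw [abs_mul]
        have h3 := hN.sup z
        have h4 : |cN (dt k z)| ≤ 1 :=
          abs_le.2 ⟨TM.H764.neg_one_le_cN _, TM.H764.cN_le_one _⟩
        calc _ ≤ σ * 1 := mul_le_mul h3 h4 (abs_nonneg _) hσ
          _ = σ := mul_one σ
      refine (Finset.sum_le_sum h2).trans (le_of_eq ?_)
      rw [Finset.sum_const, Finset.card_univ, nsmul_eq_mul, H963.cardV]
    have hE := H462.EE_gap hk
    rw [div_le_iff₀ hn] at hE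
    rw [e1, abs_mul, abs_of_pos hν]
    calc ν * |sym ((1 - ν⁻¹ • A) - (1 - ν⁻¹ • pz h A3)) k| ≤ ν * ((N : ℝ) ^ 2 * σ) :=
          mul_le_mul_of_nonneg_left h1 hν.le
      _ = ν * ((N : ℝ) ^ 2 * σ) * 16 / 16 := by ring
      _ ≤ ν * ((N : ℝ) ^ 2 * σ) * (EE k * (N : ℝ) ^ 2) / 16 := by gcongr
      _ = _ := by ring

/-- **stiffness of the periodized form** -/
theorem ha_pz (hN : Nrs h A A3 ν c κ C1 σ) (ha : ∀ u, (A *ᵥ u) ⬝ᵥ u ≤ a * dirE u) (u : V N → ℝ) :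
    (pz h A3 *ᵥ u) ⬝ᵥ u ≤ (a + ν * (N : ℝ) ^ 4 * σ / 16) * dirE u := by
  have t1 := hN.dom.ti
  have t2 := ti_pz h hN.dom2.ti
  have h1 : qf (pz h A3) u ≤ qf (A + (ν * (N : ℝ) ^ 4 * σ / 16) • lapM) u := by
    refine (H864.qf_le_iff t2 (t1.add (ti_lapM.smul _))).2 (fun k => ?_) u
    rw [H864.sym_add, H864.sym_smul, sym_lapM]
    have := (abs_le.1 (sym_pz_sub hN k)).2
    linarith
  have e1 : ∀ (D : Matrix (V N) (V N) ℝ) (c : ℝ), qf (c • D) u = c * qf D u := by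
    intro D c
    unfold H37.qf
    rw [Finset.mul_sum]
    refine Finset.sum_congr rfl fun x _ => ?_
    rw [Finset.mul_sum]
    exact Finset.sum_congr rfl fun y _ => by rw [Matrix.smul_apply, smul_eq_mul]; ring
  have e2 : ∀ D : Matrix (V N) (V N) ℝ, (D *ᵥ u) ⬝ᵥ u = qf D u := by
    intro D
    rw [H37.qf_eq, dotProduct_comm]
  rw [H37.qf_add_mat, e1, qf_lapM, ← TM.H41.dirE_eq] at h1
  have h2 := ha u
  rw [e2] at h2 ⊢
  linarith

end pz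

/-! ### powers of two -/

section pow

variable {b τ e v c1 cD cm Cm : ℝ} {n s r r' : ℕ} [NeZero (2 ^ r / 2 ^ s)]
  [NeZero (2 ^ r' / 2 ^ s)]

lemma four_sq (j : ℕ) : (4 : ℝ) ^ j = ((2 : ℝ) ^ j) ^ 2 := by
  rw [← pow_mul, mul_comm j 2, pow_mul]
  norm_num

/-- **`Nrs` with powers**: `n² σ ≤ 5 e ^ v` -/
theorem nrs_pow (h : KN (2 ^ r) (2 ^ r') (2 ^ s) b τ
      (((2 : ℝ) ^ s / 2 ^ n) ^ 2 * (e ^ v / (((4 : ℝ) ^ r + 4 ^ r') / 4 ^ n)))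
      (((2 : ℝ) ^ s / 2 ^ n) ^ 2 * e ^ (-(2 * c1))) (cm * (2 ^ s / 2 ^ n)) Cm
      (e ^ (v + 2 * c1) / (((4 : ℝ) ^ r + 4 ^ r') / 4 ^ n)))
    (he : 0 < e) (he1 : e ≤ 1) (hc1 : 0 ≤ c1) (hb : 0 ≤ b) (hτ : 0 < τ) (hτ2 : τ ≤ 4 * tn n)
    (hcm : 0 < cm) (hsr : s ≤ r) (hsr' : s ≤ r') (hnr : n ≤ r) (hv4 : e ^ v ≤ 1 / 4)
    (hvD : e ^ v ≤ cD)
    (hD1 : Dom (acl (2 ^ r) (2 ^ s) b τ τ) (τ * ((2 ^ s : ℕ) : ℝ) ^ 2) cD)
    (hD2 : Dom (acl (2 ^ r') (2 ^ s) b τ τ) (τ * ((2 ^ s : ℕ) : ℝ) ^ 2) cD)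
    (hd : 2 ^ r / 2 ^ s ∣ 2 ^ r' / 2 ^ s) (hd' : 2 ^ r' / 2 ^ s ∣ 2 ^ r' / 2 ^ s) :
    Nrs hd (acl (2 ^ r) (2 ^ s) b τ τ) (A3 (2 ^ r') (2 ^ s) b τ) (τ * ((2 ^ s : ℕ) : ℝ) ^ 2)
      (cD / 2) (cm * (2 ^ s / 2 ^ n)) Cm (5 * e ^ v * (4 ^ s / 4 ^ r)) ∧
    Nrs hd' (acl (2 ^ r') (2 ^ s) b τ τ) (A3 (2 ^ r') (2 ^ s) b τ) (τ * ((2 ^ s : ℕ) : ℝ) ^ 2)
      (cD / 2) (cm * (2 ^ s / 2 ^ n)) Cm (5 * e ^ v * (4 ^ s / 4 ^ r')) := by
  have hlN : 2 ^ s ∣ 2 ^ r := pow_dvd_pow 2 hsr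
  have hlM : 2 ^ s ∣ 2 ^ r' := pow_dvd_pow 2 hsr'
  have hev : 0 < e ^ v := Real.rpow_pos_of_pos he _
  obtain ⟨G, hG⟩ : ∃ G, G = ((4 : ℝ) ^ r + 4 ^ r') / 4 ^ n := ⟨_, rfl⟩
  rw [← hG] at h
  have hGr : (4 : ℝ) ^ r / 4 ^ n ≤ G := by
    rw [hG]
    exact div_le_div_of_nonneg_right (by have : (0 : ℝ) < 4 ^ r' := by positivity
                                         linarith) (by positivity)
  have hGr' : (4 : ℝ) ^ r' / 4 ^ n ≤ G := by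
    rw [hG]
    exact div_le_div_of_nonneg_right (by have : (0 : ℝ) < 4 ^ r := by positivity
                                         linarith) (by positivity)
  have hG1 : 1 ≤ G := by
    refine le_trans ?_ hGr
    rw [le_div_iff₀ (by positivity), one_mul]
    exact pow_le_pow_right₀ (by norm_num) hnr
  have hG0 : 0 < G := by linarith
  have he2 : e ^ (v + 2 * c1) = e ^ v * e ^ (2 * c1) := Real.rpow_add he _ _
  have he3 : e ^ (2 * c1) ≤ 1 := Real.rpow_le_one he.le he1 (by linarith)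
  have he4 : e ^ (2 * c1) * e ^ (-(2 * c1)) = 1 := by
    rw [← Real.rpow_add he, add_neg_cancel, Real.rpow_zero]
  have he5 : e ^ (v + 2 * c1) ≤ e ^ v := by
    rw [he2]
    exact mul_le_of_le_one_right hev.le he3
  have hd4 : 4 * (e ^ (v + 2 * c1) / G) ≤ 1 := by
    have h1 : e ^ (v + 2 * c1) / G ≤ e ^ v :=
      (div_le_self (Real.rpow_pos_of_pos he _).le hG1).trans he5
    linarith
  have f4 : ∀ j : ℕ, (((2 ^ j : ℕ) : ℝ)) ^ 2 = (4 : ℝ) ^ j := by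
    intro j
    rw [four_sq]
    push_cast
    rfl
  have hdc : e ^ (v + 2 * c1) / G * (τ * ((2 ^ r' : ℕ) : ℝ) ^ 2) ≤ 4 * cD := by
    rw [f4]
    have h1 : τ * (4 : ℝ) ^ r' ≤ 4 * G := by
      calc τ * (4 : ℝ) ^ r' ≤ 4 * tn n * 4 ^ r' := mul_le_mul_of_nonneg_right hτ2 (by positivity)
        _ = 4 * ((4 : ℝ) ^ r' / 4 ^ n) := by
          unfold H972.tn
          field_simp
        _ ≤ _ := mul_le_mul_of_nonneg_left hGr' (by norm_num)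
    calc e ^ (v + 2 * c1) / G * (τ * 4 ^ r') ≤ e ^ (v + 2 * c1) / G * (4 * G) :=
          mul_le_mul_of_nonneg_left h1 (by positivity)
      _ = 4 * e ^ (v + 2 * c1) := by field_simp
      _ ≤ _ := by linarith
  have hκ : 0 < cm * ((2 : ℝ) ^ s / 2 ^ n) := by positivity
  have hu2 : ((2 : ℝ) ^ s / 2 ^ n) ^ 2 = 4 ^ s / 4 ^ n := by
    rw [div_pow, ← four_sq, ← four_sq]
  have key : ∀ j : ℕ, (4 : ℝ) ^ j / 4 ^ n ≤ G →
      3 * (e ^ (v + 2 * c1) / G) * (((2 : ℝ) ^ s / 2 ^ n) ^ 2 * e ^ (-(2 * c1))) ≤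
        3 * e ^ v * (4 ^ s / 4 ^ j) := by
    intro j hj
    rw [he2, hu2]
    have e6 : 3 * (e ^ v * e ^ (2 * c1) / G) * ((4 : ℝ) ^ s / 4 ^ n * e ^ (-(2 * c1))) =
        3 * e ^ v * (4 ^ s / (4 ^ n * G)) * (e ^ (2 * c1) * e ^ (-(2 * c1))) := by
      field_simp
    rw [e6, he4, mul_one]
    refine mul_le_mul_of_nonneg_left ?_ (by positivity)
    refine div_le_div_of_nonneg_left (by positivity) (by positivity) ?_
    rw [div_le_iff₀ (by positivity)] at hj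
    linarith
  have m1 := h.nrs hd hb hlN hlM hτ hκ hD1 hD2 hd4 hdc
  have m2 := h.nrsM hd' hb hlM hτ hκ hD2 hd4 hdc
  refine ⟨nrs_mono m1 le_rfl ?_, nrs_mono m2 le_rfl ?_⟩
  · rw [f4, f4]
    have h1 : 2 * (((2 : ℝ) ^ s / 2 ^ n) ^ 2 * (e ^ v / G)) * (1 + (4 : ℝ) ^ r' / 4 ^ r) =
        2 * e ^ v * (4 ^ s / 4 ^ r) := by
      rw [hu2, hG]
      have : (0 : ℝ) < 4 ^ r + 4 ^ r' := by positivity
      field_simp
    have h2 := key r hGr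
    rw [h1]
    have h3 : 2 * e ^ v * ((4 : ℝ) ^ s / 4 ^ r) + 3 * e ^ v * (4 ^ s / 4 ^ r) =
        5 * e ^ v * (4 ^ s / 4 ^ r) := by ring
    rw [← h3]
    linarith
  · refine (key r' hGr').trans ?_
    have : 0 ≤ e ^ v * ((4 : ℝ) ^ s / 4 ^ r') := by positivity
    linarith

end pow

end

end Vale.Agent.P159.H767
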