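import Vale.Agent.P159.H767.Nr12

/-!
P159, module NEAR (helper767), part 13: the reference forms at the cells of the charged sector,
helper889's letters written out: `br_ev`.
-/

set_option linter.unusedSectionVars false

namespace Vale.Agent.P159.H767

open Finset Matrix
open Vale.Agent.P159.TM.H764 (EE cN dt)
open Vale.Agent.P159.TM.H859 (dirE)
open Vale.Agent.P159.TM.Spec (V Rng)
open Vale.Agent.P159.H972 (Par lg tn RNG Good FL)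
open Vale.Agent.P159.H864 (TI sym yt)
open Vale.Agent.P159.H363 (acl rel Nf)
open Vale.Agent.P159.H462 (Dom)
open Vale.Agent.P159.H801 (Ev PS)
open Vale.Agent.P159.H733.Torg (pz ti_pz dom_pz Two)
open Vale.Agent.P159.H640

noncomputable section

/-- the numbers of a level of the charged sector (helper889's `Cx`, without the state) -/
structure Lv (P : Par) (C1 c1 : ℝ) (n s : ℕ) (e y : ℝ) : Prop where
  e0 : 0 < e
  ees : e ≤ P.es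
  y0 : 0 < y
  ye : y ^ (39 / 20 : ℝ) ≤ e
  yl : Real.log (1 / y) ≤ e ^ (-c1)
  s1 : (e * y) ^ (9 / 8 * C1) ≤ (2 : ℝ) ^ s / 2 ^ n
  s2 : (2 : ℝ) ^ s / 2 ^ n ≤ (e * y) ^ C1

/-- small numbers of a level -/
structure Sm1 (C1 c1 thp e : ℝ) : Prop where
  a1 : 9 / (8 * Real.log 2) * C1 * (1 + 1 / c1) * e ^ c1 ≤ 1
  a2 : 16 * e ^ (1 / 39 - thp / 10) ≤ 1
  a3 : 51 * e ^ (9 / 10 - 1 / 2 : ℝ) ≤ 1 / 3
  a4 : 80 * e ^ (2 - 1 / 2 : ℝ) ≤ 1 / 3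
  a5 : 1 * e ^ (22 / 25 - 1 / 2 : ℝ) ≤ 1 / 3
  a6 : e ≤ 1 / 4

lemma sm1_ex {C1 c1 thp : ℝ} (hC1 : 1 ≤ C1) (hc1 : 0 < c1) (hthp : thp ≤ 1 / 10) :
    ∃ e0, 0 < e0 ∧ ∀ e : ℝ, 0 < e → e ≤ e0 → Sm1 C1 c1 thp e := by
  have hl2 : 0 < Real.log 2 := Real.log_pos one_lt_two
  obtain ⟨e1, he1, n1⟩ := sm_rpow (s := c1) (A := 9 / (8 * Real.log 2) * C1 * (1 + 1 / c1)) hc1
    one_pos
  obtain ⟨e2, he2, n2⟩ := sm_rpow (s := 1 / 39 - thp / 10) (A := 16) (by linarith) one_pos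
  obtain ⟨e3, he3, n3⟩ := sm_rpow (s := (9 / 10 - 1 / 2 : ℝ)) (A := 51) (by norm_num)
    (show (0 : ℝ) < 1 / 3 by norm_num)
  obtain ⟨e4, he4, n4⟩ := sm_rpow (s := (2 - 1 / 2 : ℝ)) (A := 80) (by norm_num)
    (show (0 : ℝ) < 1 / 3 by norm_num)
  obtain ⟨e5, he5, n5⟩ := sm_rpow (s := (22 / 25 - 1 / 2 : ℝ)) (A := 1) (by norm_num)
    (show (0 : ℝ) < 1 / 3 by norm_num)
  refine ⟨min (1 / 4) (min e1 (min e2 (min e3 (min e4 e5)))), by positivity, ?_⟩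
  intro e he hle
  simp only [le_min_iff] at hle
  obtain ⟨g0, g1, g2, g3, g4, g5⟩ := hle
  exact ⟨n1 e he g1, n2 e he g2, n3 e he g3, n4 e he g4, n5 e he g5, g0⟩

section lv

variable {P : Par} {C1 c1 e y : ℝ} {n s : ℕ}

lemma Lv.y1 (h : Lv P C1 c1 n s e y) (hs : Sm1 C1 c1 P.thp e) : y ≤ 1 := by
  by_contra hc
  have h1 : 1 < y ^ (39 / 20 : ℝ) := Real.one_lt_rpow (not_le.1 hc) (by norm_num)
  have h2 := h.ye
  have h3 := hs.a6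
  linarith

lemma Lv.ey (h : Lv P C1 c1 n s e y) (hs : Sm1 C1 c1 P.thp e) : e * y ≤ e ∧ 0 < e * y := by
  have h1 := h.y1 hs
  have h2 := h.e0
  have h3 := h.y0
  exact ⟨mul_le_of_le_one_right h2.le h1, mul_pos h2 h3⟩

/-- the cells -/
lemma Lv.lam (h : Lv P C1 c1 n s e y) (hs : Sm1 C1 c1 P.thp e) (hC1 : 1 ≤ C1) :
    (2 : ℝ) ^ s / 2 ^ n ≤ e := by
  obtain ⟨h1, h2⟩ := h.ey hs
  have h3 := hs.a6
  refine h.s2.trans ?_
  calc (e * y) ^ C1 ≤ (e * y) ^ (1 : ℝ) :=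
        Real.rpow_le_rpow_of_exponent_ge h2 (by linarith) hC1
    _ = e * y := Real.rpow_one _
    _ ≤ e := h1

lemma Lv.sn (h : Lv P C1 c1 n s e y) (hs : Sm1 C1 c1 P.thp e) (hC1 : 1 ≤ C1) : s ≤ n := by
  have h1 := h.lam hs hC1
  have h2 := hs.a6
  by_contra hc
  have h3 : (2 : ℝ) ^ n ≤ 2 ^ s := pow_le_pow_right₀ one_le_two (by omega)
  have h4 : 1 ≤ (2 : ℝ) ^ s / 2 ^ n := by
    rw [le_div_iff₀ (by positivity), one_mul]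
    exact h3
  linarith

/-- the number of levels between the cells and the length -/
lemma Lv.ns (h : Lv P C1 c1 n s e y) (hs : Sm1 C1 c1 P.thp e) (hC1 : 1 ≤ C1) (hc1 : 0 < c1) :
    ((n - s : ℕ) : ℝ) ≤ e ^ (-(2 * c1)) := by
  have hsn := h.sn hs hC1
  have he := h.e0
  have hl2 : 0 < Real.log 2 := Real.log_pos one_lt_two
  obtain ⟨_, h2⟩ := h.ey hs
  have h3 := hs.a6
  have h4 : (2 : ℝ) ^ s / 2 ^ n = Real.exp (-((n - s : ℕ) * Real.log 2)) := by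
    rw [Real.exp_neg, Real.exp_nat_mul, Real.exp_log two_pos]
    have h5 : (2 : ℝ) ^ n = 2 ^ (n - s) * 2 ^ s := by
      rw [← pow_add, Nat.sub_add_cancel hsn]
    rw [h5]
    field_simp
  have h5 : (e * y) ^ (9 / 8 * C1) = Real.exp (-(9 / 8 * C1 * Real.log (1 / (e * y)))) := by
    rw [Real.rpow_def_of_pos h2, one_div, Real.log_inv]
    congr 1
    ring
  have h6 := h.s1
  rw [h4, h5] at h6
  have h7 : ((n - s : ℕ) : ℝ) * Real.log 2 ≤ 9 / 8 * C1 * Real.log (1 / (e * y)) := by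
    have := Real.exp_le_exp.1 h6
    linarith
  have h8 : Real.log (1 / (e * y)) = Real.log (1 / e) + Real.log (1 / y) := by
    rw [one_div, one_div, one_div, Real.log_inv, Real.log_inv, Real.log_inv,
      Real.log_mul he.ne' h.y0.ne']
    ring
  have h9 : Real.log (1 / e) ≤ 1 / c1 * e ^ (-c1) := by
    have h10 := Real.log_le_rpow_div (x := 1 / e) (by positivity) hc1
    refine h10.trans (le_of_eq ?_)
    rw [one_div e, Real.inv_rpow he.le, ← Real.rpow_neg he.le]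
    ring
  have h10 : ((n - s : ℕ) : ℝ) * Real.log 2 ≤ 9 / 8 * C1 * ((1 + 1 / c1) * e ^ (-c1)) := by
    refine h7.trans (mul_le_mul_of_nonneg_left ?_ (by linarith))
    rw [h8]
    have := h.yl
    linarith
  have h11 : e ^ (-c1) = e ^ c1 * e ^ (-(2 * c1)) := by
    rw [← Real.rpow_add he]
    congr 1
    ring
  have h12 : ((n - s : ℕ) : ℝ) ≤ 9 / (8 * Real.log 2) * C1 * (1 + 1 / c1) * e ^ (-c1) := by
    have e1 : 9 / (8 * Real.log 2) * C1 * (1 + 1 / c1) * e ^ (-c1) =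
        9 / 8 * C1 * ((1 + 1 / c1) * e ^ (-c1)) / Real.log 2 := by
      field_simp
    rw [e1, le_div_iff₀ hl2]
    exact h10
  refine h12.trans ?_
  rw [h11]
  calc 9 / (8 * Real.log 2) * C1 * (1 + 1 / c1) * (e ^ c1 * e ^ (-(2 * c1)))
      = (9 / (8 * Real.log 2) * C1 * (1 + 1 / c1) * e ^ c1) * e ^ (-(2 * c1)) := by ring
    _ ≤ 1 * e ^ (-(2 * c1)) := mul_le_mul_of_nonneg_right hs.a1 (Real.rpow_nonneg he.le _)
    _ = _ := one_mul _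

/-- the activity -/
lemma Lv.yy (h : Lv P C1 c1 n s e y) (hs : Sm1 C1 c1 P.thp e) :
    16 * (e ^ (-(P.thp / 20)) * y) ^ 2 ≤ e := by
  have he := h.e0
  have hy := h.y0
  have h1 : y ^ 2 ≤ e ^ (40 / 39 : ℝ) := by
    have h2 : (y ^ (39 / 20 : ℝ)) ^ (40 / 39 : ℝ) ≤ e ^ (40 / 39 : ℝ) :=
      Real.rpow_le_rpow (Real.rpow_nonneg hy.le _) h.ye (by norm_num)
    rw [← Real.rpow_mul hy.le] at h2
    norm_num at h2
    exact h2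
  have h2 : (e ^ (-(P.thp / 20))) ^ 2 = e ^ (-(P.thp / 10)) := by
    rw [pw_two he]
    congr 1
    ring
  have h3 : e ^ (-(P.thp / 10)) * e ^ (40 / 39 : ℝ) = e ^ (1 / 39 - P.thp / 10) * e := by
    have h4 : e ^ (1 / 39 - P.thp / 10) * e = e ^ (1 / 39 - P.thp / 10) * e ^ (1 : ℝ) := by
      rw [Real.rpow_one]
    rw [h4, ← Real.rpow_add he, ← Real.rpow_add he]
    congr 1
    ring
  have h5 : 0 ≤ e ^ (-(P.thp / 10)) := Real.rpow_nonneg he.le _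
  calc 16 * (e ^ (-(P.thp / 20)) * y) ^ 2 = 16 * (e ^ (-(P.thp / 10)) * y ^ 2) := by
        rw [mul_pow, h2]
    _ ≤ 16 * (e ^ (-(P.thp / 10)) * e ^ (40 / 39 : ℝ)) := by gcongr
    _ = (16 * e ^ (1 / 39 - P.thp / 10)) * e := by
        rw [h3]
        ring
    _ ≤ 1 * e := mul_le_mul_of_nonneg_right hs.a2 he.le
    _ = e := one_mul e

end lv

/-- **the reference forms at the cells of the charged sector** -/
theorem br_ev {b1 : ℝ} (hb1 : 0 < b1) {b2 : ℝ} (hb2 : 0 < b2) :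
    ∃ k0 c0 Cm : ℝ, 0 < k0 ∧ 0 < c0 ∧ 0 < Cm ∧ ∀ (C1 : ℝ) (Q : ℕ), 1 ≤ C1 →
    Ev b1 b2 (9 / 10) Q fun P c1 => ∀ (b : ℝ) (n s : ℕ) (e y : ℝ), Good P b n e →
      Lv P C1 c1 n s e y →
      (∀ r, P.TT n e r → yt (2 ^ r) b (4 * tn n) ≤ e ^ (-(P.thp / 20)) * y) →
      ∀ τ : ℝ, tn n ≤ τ → τ ≤ 4 * tn n →
      ∀ (r r' : ℕ) [NeZero (2 ^ r / 2 ^ s)] [NeZero (2 ^ r' / 2 ^ s)], P.TT n e r → P.TT n e r' →
      ∀ h : 2 ^ r / 2 ^ s ∣ 2 ^ r' / 2 ^ s,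
      Two h (pz h (A3 (2 ^ r') (2 ^ s) b τ)) (A3 (2 ^ r') (2 ^ s) b τ)
        (τ * ((2 ^ s : ℕ) : ℝ) ^ 2) c0 (k0 * (2 ^ s / 2 ^ n)) Cm ∧
      Nf (pz h (A3 (2 ^ r') (2 ^ s) b τ)) ∧
      (∀ (a t : ℝ), 1 ≤ a → a ≤ 8 / 5 → τ ≤ t → FL b t a (17 * e ^ P.pf) (2 ^ r) →
        ∀ u, (pz h (A3 (2 ^ r') (2 ^ s) b τ) *ᵥ u) ⬝ᵥ u ≤ (a + e ^ (1 / 2 : ℝ)) * dirE u) ∧
      ∑ k, rel (acl (2 ^ r) (2 ^ s) b τ τ) (pz h (A3 (2 ^ r') (2 ^ s) b τ)) k ^ 2 ≤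
        (e ^ (22 / 25 : ℝ)) ^ 2 ∧
      ∑ k, rel (pz h (A3 (2 ^ r') (2 ^ s) b τ)) (acl (2 ^ r) (2 ^ s) b τ τ) k ^ 2 ≤
        (e ^ (22 / 25 : ℝ)) ^ 2 ∧
      Dom (acl (2 ^ r) (2 ^ s) b τ τ) (τ * ((2 ^ s : ℕ) : ℝ) ^ 2) c0 := by
  obtain ⟨cm, Cm, hcm, hCm, h0⟩ := ref_ev hb1 hb2
  refine ⟨cm, 1 / (2 * b2), Cm, hcm, by positivity, hCm, ?_⟩
  intro C1 Q hC1
  have hE1 : Ev b1 b2 (9 / 10) Q fun P c1 => 0 < c1 ∧ P.pf = 9 / 10 ∧ P.b1 = b1 ∧ P.b2 = b2 ∧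
      ∀ e, 0 < e → e ≤ P.es → Sm1 C1 c1 P.thp e := by
    refine Ev.of ⟨0, fun W _ => ⟨1, one_pos, fun ys _ _ => ⟨0, fun X0 _ => ⟨1, one_pos,
      fun x1 _ _ => ⟨1 / 10, by norm_num, fun thp _ hthp => ⟨1, one_pos, fun th _ _ => ⟨0,
      fun C0 _ => ⟨1, one_pos, fun c1 hc1 _ => ?_⟩⟩⟩⟩⟩⟩⟩⟩
    obtain ⟨e0, he0, h⟩ := sm1_ex hC1 hc1 hthp
    refine ⟨e0, he0, fun P hP => ⟨hc1, hP.epf, hP.eb1, hP.eb2, fun e he hle => ?_⟩⟩
    rw [hP.ethp]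
    exact h e he (hle.trans hP.ees)
  refine ((h0 (22 / 25) (by norm_num) (by norm_num) (9 / 10) Q).and hE1).mono ?_
  rintro P c1 hA ⟨⟨_, _, _, H⟩, hc1, hpf, hPb1, hPb2, hsm⟩
  intro b n s e y hG hL hY τ hτ1 hτ2 r r' _ _ hT hT' h
  have hs := hsm e hL.e0 hL.ees
  have he := hL.e0
  have he4 := hs.a6
  have hsn := hL.sn hs hC1
  have hns := hL.ns hs hC1 hc1
  have hyy := hL.yy hs
  obtain ⟨R, _⟩ := H b n s r r' e τ (e ^ (-(P.thp / 20)) * y) he hL.ees hG hT hT' hτ1 hτ2 hsn hns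
    (hY r hT) (hY r' hT') hyy h dvd_rfl
  have hsr : s ≤ r := hsn.trans ((Nat.le_add_right _ _).trans hT.1)
  refine ⟨R.two, Nf.of_dom R.two.dom, ?_, R.hs, R.hs', R.dom⟩
  intro a t ha1 ha2 hτt hF u
  have hτ : 0 < τ := (H972.tn_pos n).trans_le hτ1
  obtain ⟨τ0, a0, _, _, hGP⟩ := hG
  have hr := (hGP e le_rfl hL.ees).rng r (Or.inl hT)
  have hb : 0 < b := by
    have h2 := hr.1.hb1
    rw [hPb1] at h2
    linarith
  have hlam := hL.lam hs hC1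
  have hlam2 : τ * ((2 ^ s : ℕ) : ℝ) ^ 2 ≤ 4 * e ^ 2 := by
    have h1 : ((2 ^ s : ℕ) : ℝ) ^ 2 = 4 ^ s := by
      rw [four_sq]
      push_cast
      rfl
    have h2 : τ * (4 : ℝ) ^ s ≤ 4 * ((2 : ℝ) ^ s / 2 ^ n) ^ 2 := by
      calc τ * (4 : ℝ) ^ s ≤ 4 * tn n * 4 ^ s := mul_le_mul_of_nonneg_right hτ2 (by positivity)
        _ = _ := by
          unfold H972.tn
          rw [div_pow, ← four_sq, ← four_sq]
          field_simp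
    rw [h1]
    refine h2.trans ?_
    gcongr
  have hη : 17 * e ^ P.pf ≤ 1 := by
    have h1 : e ^ (9 / 10 : ℝ) = e ^ (9 / 10 - 1 / 2 : ℝ) * e ^ (1 / 2 : ℝ) := by
      rw [← Real.rpow_add he]
      norm_num
    have h2 : e ^ (1 / 2 : ℝ) ≤ 1 := Real.rpow_le_one he.le (by linarith) (by norm_num)
    have h3 := hs.a3
    have h4 : 0 ≤ e ^ (9 / 10 - 1 / 2 : ℝ) := Real.rpow_nonneg he.le _
    rw [hpf, h1]
    nlinarith
  have h1 := fun u => H375.acl_topT hb (pow_dvd_pow 2 hsr) hτ hτt ha1 (by linarith) hη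
    (by nlinarith) hF u
  refine (R.ha _ h1 u).trans (mul_le_mul_of_nonneg_right ?_ (H640.dirE_nonneg u))
  have e1 : e ^ (9 / 10 : ℝ) = e ^ (9 / 10 - 1 / 2 : ℝ) * e ^ (1 / 2 : ℝ) := by
    rw [← Real.rpow_add he]
    norm_num
  have e2 : e ^ 2 = e ^ (2 - 1 / 2 : ℝ) * e ^ (1 / 2 : ℝ) := by
    rw [← Real.rpow_add he, ← Real.rpow_natCast]
    norm_num
  have e3 : e ^ (22 / 25 : ℝ) = e ^ (22 / 25 - 1 / 2 : ℝ) * e ^ (1 / 2 : ℝ) := by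
    rw [← Real.rpow_add he]
    norm_num
  have hp : 0 ≤ e ^ (1 / 2 : ℝ) := Real.rpow_nonneg he.le _
  have k1 := mul_le_mul_of_nonneg_right hs.a3 hp
  have k2 := mul_le_mul_of_nonneg_right hs.a4 hp
  have k3 := mul_le_mul_of_nonneg_right hs.a5 hp
  have k4 : 20 * (τ * ((2 ^ s : ℕ) : ℝ) ^ 2) ≤ 20 * (4 * e ^ 2) :=
    mul_le_mul_of_nonneg_left hlam2 (by norm_num)
  rw [hpf]
  rw [mul_assoc, ← e1] at k1
  rw [mul_assoc, ← e2] at k2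
  rw [one_mul, ← e3] at k3
  linarith

end

end Vale.Agent.P159.H767
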