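import Vale.Agent.P159.H767.Nr1
import Vale.Agent.P159.H640.Dt11

/-!
P159, module NEAR (helper767), part 2: the neutral model, second order.

* `Q2_nwt` : the pair function `Q2` of `nwt` in the letters of `L0`, up to an explicit quadratic term;
* `P2_two` : two tori; `P2_far` : distant pairs; `OT.Pfar2`, `near_P2` : cells.
-/

set_option linter.unusedSectionVars false

namespace Vale.Agent.P159.H767

open Finset Set
open Vale.Agent.P159.TM.H104 (EM Lg li Gr)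
open Vale.Agent.P159.H37
open Vale.Agent.P159.H145 (LM L0 OscZ cs mt em_mt mt_symm mt_mulVec per_wT Zn_pos LM_sub_L0 Un_eq
  LM_eq torn pair_src cs_zero)
open Vale.Agent.P159.H963 (nwt Pn ntr gw_wT mf_smul em_nwt ev_nwt)
open Vale.Agent.P159.TM.Spec (V)
open Vale.Agent.P159.TM.SpecC (Tor wT)
open Vale.Agent.P159.TM.H459 (sn sd ball mem_ball card_ball_le sd_symm sd_tri)
open Vale.Agent.P159.TM.H705 (pt dB bx sn_pt_sub)
open Vale.Agent.P159.H358 (src li_src val_shift)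
open Vale.Agent.P159.H864 (cl cl1_val AM)
open Vale.Agent.P159.H612 (Far)
open Vale.Agent.P159.H640

noncomputable section

section gen

variable {N : ℕ} [NeZero N] {b τ : ℝ}

theorem vr_diff (F G : Tor N → ℝ) : vr (F + G) - vr (F - G) =
    4 * (∑ x, F x * G x - (∑ x, F x) * (∑ x, G x) / Fintype.card (Tor N)) := by
  unfold vr
  have e1 : ∑ x, (F + G) x ^ 2 - ∑ x, (F - G) x ^ 2 = 4 * ∑ x, F x * G x := by
    rw [← Finset.sum_sub_distrib, Finset.mul_sum]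
    refine Finset.sum_congr rfl fun x _ => ?_
    simp only [Pi.add_apply, Pi.sub_apply]
    ring
  have e2 : ∑ x, (F + G) x = ∑ x, F x + ∑ x, G x := by
    rw [← Finset.sum_add_distrib]
    rfl
  have e3 : ∑ x, (F - G) x = ∑ x, F x - ∑ x, G x := by
    rw [← Finset.sum_sub_distrib]
    rfl
  rw [e2, e3]
  have e4 : (∑ x, F x + ∑ x, G x) ^ 2 / (Fintype.card (Tor N) : ℝ) -
      (∑ x, F x - ∑ x, G x) ^ 2 / (Fintype.card (Tor N) : ℝ) =
      4 * ((∑ x, F x) * (∑ x, G x) / (Fintype.card (Tor N) : ℝ)) := by ring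
  linarith

/-- the odd pair function of the neutral functional -/
def P2 (w : (Tor N → ℤ) → ℝ) (M : Matrix (Tor N) (Tor N) ℝ) (F G : Tor N → ℝ) : ℝ :=
  L0 w M (F + G) - L0 w M (F - G)

theorem Q2_nwt (hb : 0 ≤ b) (hτ : 0 < τ) (x₀ : Tor N) (a c : Tor N → ℝ) (s : ℝ) :
    Q2 (nwt N b τ x₀) ((Pn : Matrix (Tor N) (Tor N) ℝ).mulVec a)
      ((Pn : Matrix (Tor N) (Tor N) ℝ).mulVec c) s =
      P2 (wT b N) (mt N τ) ((s / τ) • a) ((s / τ) • c) +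
        2 / τ * (∑ x, a x * c x - (∑ x, a x) * (∑ x, c x) / Fintype.card (Tor N)) * s ^ 2 := by
  unfold Q2 Ll P2
  rw [← Matrix.mulVec_add, ← Matrix.mulVec_sub, zero_add, zero_add,
    Lg_nwt hb hτ, Lg_nwt hb hτ, smul_add, smul_sub]
  have h := vr_diff a c
  have e : s ^ 2 * vr (a + c) / (2 * τ) - s ^ 2 * vr (a - c) / (2 * τ) =
      2 / τ * (∑ x, a x * c x - (∑ x, a x) * (∑ x, c x) / Fintype.card (Tor N)) * s ^ 2 := by
    have : s ^ 2 * vr (a + c) / (2 * τ) - s ^ 2 * vr (a - c) / (2 * τ) =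
        s ^ 2 * (vr (a + c) - vr (a - c)) / (2 * τ) := by ring
    rw [this, h]
    field_simp
    ring
  linarith

theorem L0_neg (hb : 0 ≤ b) (hτ : 0 < τ) (G : Tor N → ℝ) :
    L0 (wT b N) (mt N τ) (-G) = L0 (wT b N) (mt N τ) G := by
  have q1 := Lg_nwt (N := N) hb hτ 0 G (-τ)
  have q2 := Lg_nwt (N := N) hb hτ 0 G τ
  have q3 : (-τ / τ) • G = -G := by
    rw [neg_div, div_self hτ.ne', neg_smul, one_smul]
  rw [q3] at q1
  rw [div_self hτ.ne', one_smul] at q2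
  rw [neg_smul, Lg_even (ev_nwt hb τ 0), q2] at q1
  have : (-τ) ^ 2 = τ ^ 2 := by ring
  rw [this] at q1
  linarith

/-- **distant pairs** -/
theorem P2_far (hb : 0 ≤ b) (hτ : 0 < τ) {ω ε : ℝ}
    (hO : OscZ (wT b N) (mt N τ) ω) (hω : ω ≤ 1 / 2) (F G : Tor N → ℝ)
    (hFG : ∑ x, F x * G x = 0)
    (h1 : ∀ c ∈ Icc (0 : ℝ) 1, |Lg (wt N b τ) (τ • cs 0 c + τ • F + τ • G) -
        Lg (wt N b τ) (τ • cs 0 c + τ • F) - Lg (wt N b τ) (τ • cs 0 c + τ • G) +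
        Lg (wt N b τ) (τ • cs 0 c)| ≤ ε)
    (h2 : ∀ c ∈ Icc (0 : ℝ) 1, |Lg (wt N b τ) (τ • cs 0 c + τ • F + τ • -G) -
        Lg (wt N b τ) (τ • cs 0 c + τ • F) - Lg (wt N b τ) (τ • cs 0 c + τ • -G) +
        Lg (wt N b τ) (τ • cs 0 c)| ≤ ε) :
    |P2 (wT b N) (mt N τ) F G| ≤ 2 * ε + 16 * ω ^ 2 := by
  have b1 : bf (mt N τ) F G = 0 := by rw [H145.bf_mt, hFG, mul_zero]
  have b2 : bf (mt N τ) F (-G) = 0 := by
    rw [H145.bf_mt]
    have : ∑ x, F x * (-G) x = -∑ x, F x * G x := by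
      rw [← Finset.sum_neg_distrib]
      exact Finset.sum_congr rfl fun x _ => by simp
    rw [this, hFG]
    ring
  have k1 := abs_le.1 (pair_src (ε := ε) mt_symm (em_mt hb hτ) hO hω 0 F G b1 fun c hc => by
    rw [mt_mulVec, mt_mulVec, mt_mulVec]
    exact h1 c hc)
  have k2 := abs_le.1 (pair_src (ε := ε) mt_symm (em_mt hb hτ) hO hω 0 F (-G) b2 fun c hc => by
    rw [mt_mulVec, mt_mulVec, mt_mulVec]
    exact h2 c hc)
  rw [zero_add, zero_add] at k1 k2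
  rw [L0_neg hb hτ, ← sub_eq_add_neg] at k2
  unfold P2
  rw [abs_le]
  constructor <;> linarith [k1.1, k1.2, k2.1, k2.2]

/-- **pair functions of two tori** -/
theorem P2_two {M : ℕ} [NeZero M] (hb : 0 ≤ b) (hτ : 0 < τ) {ω ε : ℝ}
    (hO : OscZ (wT b N) (mt N τ) ω) (hO' : OscZ (wT b M) (mt M τ) ω) (hω : ω ≤ 1 / 2)
    (F G : Tor N → ℝ) (F' G' : Tor M → ℝ)
    (h : ∀ p q : ℝ, ((p = 1 ∧ q = 1) ∨ (p = 1 ∧ q = -1)) →
      ∀ c ∈ Icc (0 : ℝ) 1,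
      |(LM (wT b N) (mt N τ) (cs (p • F + q • G) c) - LM (wT b N) (mt N τ) (cs 0 c)) -
      (LM (wT b M) (mt M τ) (cs (p • F' + q • G') c) - LM (wT b M) (mt M τ) (cs 0 c))| ≤ ε) :
    |P2 (wT b N) (mt N τ) F G - P2 (wT b M) (mt M τ) F' G'| ≤ 2 * (ε + 8 * ω ^ 2) := by
  have key : ∀ p q : ℝ, ((p = 1 ∧ q = 1) ∨ (p = 1 ∧ q = -1)) →
      |Un (wT b N) (mt N τ) (p • F + q • G) -
      Un (wT b M) (mt M τ) (p • F' + q • G')| ≤ ε + 8 * ω ^ 2 := fun p q hpq =>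
    torn mt_symm (em_mt hb hτ) mt_symm (em_mt hb hτ) hO hO' hω _ _ (h p q hpq)
  have k1 := abs_le.1 (key 1 1 (Or.inl ⟨rfl, rfl⟩))
  have k2 := abs_le.1 (key 1 (-1) (Or.inr ⟨rfl, rfl⟩))
  simp only [one_smul, neg_smul, ← sub_eq_add_neg] at k1 k2
  rw [Un_eq mt_symm (em_mt hb hτ), Un_eq mt_symm (em_mt hb hτ)] at k1 k2
  unfold P2
  rw [abs_le]
  constructor <;> linarith [k1.1, k1.2, k2.1, k2.2]

end gen

section ot

variable {N : ℕ} [NeZero N] {b τ : ℝ} {ξ : ℕ} {c C ω : ℝ}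

/-- **distant sources** `s u`, `s v` -/
theorem pair2 (h : OT N b τ ξ c C ω) {u v : V N → ℝ} {A D : ℝ} (hA : 0 < A) (hD : 0 < D)
    (hu : ∑ x, u x ^ 2 ≤ A ^ 2 * (1 / (ξ : ℝ) ^ 2)) (hv : ∑ x, v x ^ 2 ≤ A ^ 2 * (1 / (ξ : ℝ) ^ 2))
    (hRu : Rs (wt N b τ) ((4 : ℝ) • u) ≤ 1) (hRv : Rs (wt N b τ) ((4 : ℝ) • v) ≤ 1)
    (hs : ∀ x z, u x ≠ 0 → v z ≠ 0 → D * ξ ≤ sd x z) :
    |P2 (wT b N) (mt N τ) ((1 / τ) • u) ((1 / τ) • v)| ≤
      2 * (Real.exp (17 / 2) * A * A * (C * Real.exp (-(c * D)))) + 16 * ω ^ 2 := by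
  have hb := h.hb
  have hτ := h.τ0
  have hξ := h.ξ0
  -- one sign
  have key : ∀ v : V N → ℝ, ∑ x, v x ^ 2 ≤ A ^ 2 * (1 / (ξ : ℝ) ^ 2) →
      Rs (wt N b τ) ((4 : ℝ) • v) ≤ 1 → (∀ x z, u x ≠ 0 → v z ≠ 0 → D * ξ ≤ sd x z) → ∀ κ : ℝ,
      |Lg (wt N b τ) (τ • cs 0 κ + u + v) - Lg (wt N b τ) (τ • cs 0 κ + u) -
        Lg (wt N b τ) (τ • cs 0 κ + v) + Lg (wt N b τ) (τ • cs 0 κ)| ≤
        Real.exp (17 / 2) * A * A * (C * Real.exp (-(c * D))) := by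
    intro v hv hRv hs κ
    have hfar := h.far u v A A D hA hA hD.le hu hv hs
    refine hfar.lg (τ • cs 0 κ) 17 fun p hp q hq => ?_
    have e1 : τ • cs 0 κ + p • u + q • v = τ • cs ((p / τ) • u + (q / τ) • v) κ := by
      ext x
      simp only [cs, Pi.add_apply, Pi.smul_apply, Pi.zero_apply, smul_eq_mul]
      field_simp
      ring
    rw [e1]
    have k1 := tq hb hτ h.osc h.hω ((p / τ) • u) ((q / τ) • v) κ
    have k3 : ∀ (J : V N → ℝ) (p : ℝ), p ∈ Icc (0 : ℝ) 1 →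
        Rs (wt N b τ) ((4 * τ) • ((p / τ) • J)) ≤ Rs (wt N b τ) ((4 : ℝ) • J) := by
      intro J p hp
      rw [smul_smul]
      refine Rs_ray hb hτ J ?_
      have : 4 * τ * (p / τ) = 4 * p := by field_simp
      rw [this, abs_of_nonneg (by linarith [hp.1])]
      linarith [hp.2]
    linarith [h.hω, k3 u p hp, k3 v q hq]
  have e : ∀ v : V N → ℝ, τ • ((1 / τ) • v) = v := by
    intro v
    rw [smul_smul, mul_one_div_cancel hτ.ne', one_smul]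
  refine P2_far hb hτ h.osc h.hω _ _ ?_ ?_ ?_
  · refine Finset.sum_eq_zero fun x _ => ?_
    have h2 := H612.dis_of_sup h.hξ hD hs x
    rcases h2 with h2 | h2 <;> simp [h2]
  · intro κ _
    rw [e, e]
    exact key v hv hRv hs κ
  · intro κ _
    rw [e, smul_neg, e]
    refine key (-v) ?_ ?_ ?_ κ
    · simpa using hv
    · rw [smul_neg, H789.Rs_neg H789.ev_wt]
      exact hRv
    · intro x z hx hz
      exact hs x z hx fun h2 => hz (by rw [Pi.neg_apply, h2, neg_zero])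

end ot

/-! ### cells -/

section cells

variable {N l : ℕ} [NeZero N] [NeZero (N / l)] {b τ : ℝ} {ξ : ℕ} {c C ω : ℝ}

/-- the quadratic coefficient of a pair of cells -/
theorem ec_quad (hl : l ∣ N) (a a' : V (N / l)) :
    ∑ x, ec N l a x * ec N l a' x - (∑ x, ec N l a x) * (∑ x, ec N l a' x) /
      Fintype.card (Tor N) = (if a = a' then ((l : ℝ) ^ 2)⁻¹ else 0) - ((N : ℝ) ^ 2)⁻¹ := by
  have hl0 : (l : ℝ) ≠ 0 := by
    have := H864.l_pos hl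
    positivity
  have s1 : ∀ a : V (N / l), ∑ x, ec N l a x = 1 := by
    intro a
    have h := sum_ec hl a (fun _ => 1)
    simp only [mul_one] at h
    rw [h, Finset.sum_const, nsmul_eq_mul, card_cl hl]
    field_simp
  have s2 : (Fintype.card (Tor N) : ℝ) = (N : ℝ) ^ 2 := H963.cardV N
  rw [s1, s1, s2, mul_one, one_div]
  congr 1
  split_ifs with h
  · rw [h, ← sum_ec_sq hl a']
    exact Finset.sum_congr rfl fun x _ => (pow_two _).symm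
  · refine Finset.sum_eq_zero fun x _ => ?_
    unfold ec
    by_cases h1 : cl x = a
    · have h2 : cl x ≠ a' := fun h2 => h (h1.symm.trans h2)
      rw [if_neg h2, mul_zero]
    · rw [if_neg h1, zero_mul]

/-- `Q2` of two cells -/
theorem Q2_cells (hb : 0 ≤ b) (hτ : 0 < τ) (hl : l ∣ N) (a a' : V (N / l)) (s : ℝ) :
    Q2 (nwt N b τ 0) (ne N l a) (ne N l a') s =
      P2 (wT b N) (mt N τ) ((s / τ) • ec N l a) ((s / τ) • ec N l a') +
        2 / τ * ((if a = a' then ((l : ℝ) ^ 2)⁻¹ else 0) - ((N : ℝ) ^ 2)⁻¹) * s ^ 2 := by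
  unfold ne
  rw [Q2_nwt hb hτ, ec_quad hl]

/-- **distant cells** in the neutral model -/
theorem Pfar2 (h : OT N b τ ξ c C ω) (hl : l ∣ ξ) (hξN : ξ ∣ N) (a a' : V (N / l)) {s D : ℝ}
    (hs0 : 0 ≤ s) (hs : s ≤ rr b (ξ / l)) (hD : 0 < D)
    (hsup : ∀ x z : V N, cl x = a → cl z = a' → D * ξ ≤ sd x z) :
    |P2 (wT b N) (mt N τ) ((s / τ) • ec N l a) ((s / τ) • ec N l a')| ≤
      2 * (Real.exp (17 / 2) * (ξ / l) * (ξ / l) * (C * Real.exp (-(c * D)))) + 16 * ω ^ 2 := by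
  have hl0 : 0 < l := Nat.pos_of_dvd_of_pos hl h.hξ
  have hlR : (0 : ℝ) < l := by exact_mod_cast hl0
  have hξR := h.ξ0
  have hk : 1 ≤ ξ / l := Nat.div_pos (Nat.le_of_dvd h.hξ hl) hl0
  have hr := rr_pos h.hb hk
  have hr2 := rr_le h.hb hk
  have e : ∀ a : V (N / l), (s / τ) • ec N l a = (1 / τ) • (s • ec N l a) := by
    intro a
    rw [smul_smul]
    congr 1
    ring
  rw [e, e]
  have hsq : ∀ a : V (N / l), ∑ x, (s • ec N l a) x ^ 2 ≤ ((ξ : ℝ) / l) ^ 2 * (1 / (ξ : ℝ) ^ 2) := by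
    intro a
    rw [ec_sq hl hξN h.hξ]
    refine mul_le_mul_of_nonneg_right ?_ (by positivity)
    rw [mul_pow]
    have : s ^ 2 ≤ 1 := by nlinarith
    calc s ^ 2 * ((ξ : ℝ) / l) ^ 2 ≤ 1 * ((ξ : ℝ) / l) ^ 2 :=
          mul_le_mul_of_nonneg_right this (by positivity)
      _ = _ := one_mul _
  have hR : ∀ a : V (N / l), Rs (wt N b τ) ((4 : ℝ) • (s • ec N l a)) ≤ 1 := by
    intro a
    rw [smul_smul]
    refine h.cellR hl hξN a ?_
    rw [abs_of_nonneg (by positivity)]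
    linarith
  refine pair2 h (by positivity) hD (hsq a) (hsq a') (hR a) (hR a') ?_
  intro x z hx hz
  refine hsup x z ?_ ?_
  · by_contra h2
    exact hx (by simp [ec, h2])
  · by_contra h2
    exact hz (by simp [ec, h2])

end cells

section two

variable {N M l ξ ρ r : ℕ} [NeZero N] [NeZero M] [NeZero (N / l)] [NeZero (M / l)]
  {b τ c C c8 C8 ω X : ℝ}

/-- **pair functions of two near cells** -/
theorem near_P2 (hN : OT N b τ ξ c C ω) (hM : OT M b τ ξ c C ω) (h8 : L8 N M b τ ξ c8 C8)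
    (hl : l ∣ ξ) (hξN : ξ ∣ N) (hξM : ξ ∣ M) (hρ : 0 < ρ) (hr : ξ + 1 ≤ r)
    (hn : cn (ρ * ξ) r ≤ N) (hn' : cn (ρ * ξ) r ≤ M)
    (hX : Rs (wt N b τ) ((4 * τ) • chT N (ρ * ξ) r) ≤ 8 * X)
    (hX' : Rs (wt M b τ) ((4 * τ) • chT M (ρ * ξ) r) ≤ 8 * X)
    {c0 c1 : ℕ × ℕ} (h0 : Nw l (ρ * ξ) r c0) (h1 : Nw l (ρ * ξ) r c1) {s : ℝ}
    (hs : |s| ≤ rr b (ξ / l)) :
    |P2 (wT b N) (mt N τ) ((s / τ) • ec N l (pt (N / l) c0)) ((s / τ) • ec N l (pt (N / l) c1)) -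
      P2 (wT b M) (mt M τ) ((s / τ) • ec M l (pt (M / l) c0))
        ((s / τ) • ec M l (pt (M / l) c1))| ≤
      2 * (eC N ξ l ρ X c C + eC M ξ l ρ X c C + 2 * e8 ξ l ρ r c8 C8 + 8 * ω ^ 2) := by
  refine P2_two hN.hb hN.τ0 hN.osc hM.osc hN.hω _ _ _ _ ?_
  intro p q hpq κ hκ
  have hp : |p| ≤ 1 := by rcases hpq with h | h <;> simp [h.1]
  have hq : |q| ≤ 1 := by rcases hpq with h | h <;> simp [h.2]
  exact near_LM hN hM h8 hl hξN hξM hρ hr hn hn' hX hX' h0 h1 hκ.1 hκ.2 hs hp hq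

end two

end

end Vale.Agent.P159.H767
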