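import Vale.Agent.P159.H767.Nr5
import Vale.Agent.P159.H640.Dt15

/-!
P159, module NEAR (helper767), part 6: the numbers.

* `s0_low` : `1 - t N² yt² ≤ s0` (quadratic in the activity);
* `Cl2` : closeness of the step kernels on near and far pairs of cells; `sk_mid`;
* `kernels` : all inputs of `near_acl` in the range of the cluster theorems.
-/

set_option linter.unusedSectionVars false

namespace Vale.Agent.P159.H767

open Finset Matrix
open Vale.Agent.P159.TM.H104 (EM Lg li Gr Ex)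
open Vale.Agent.P159.H37
open Vale.Agent.P159.H145 (OscZ mt)
open Vale.Agent.P159.H963 (gw_wT mf_smul)
open Vale.Agent.P159.TM.Spec (V Rng)
open Vale.Agent.P159.TM.SpecC (Tor wT)
open Vale.Agent.P159.TM.H459 (sn sd)
open Vale.Agent.P159.TM.H705 (pt)
open Vale.Agent.P159.H864 (TI yt)
open Vale.Agent.P159.H363 (acl)
open Vale.Agent.P159.H612 (GA ph1 ph2 ZC pv pav_mono pav_const)
open Vale.Agent.P159.H43 (Lc)
open Vale.Agent.P159.H640

noncomputable section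

section low

variable {N : ℕ} [NeZero N] {b t : ℝ}

/-- the second derivative of `log Z(c)` is smallest at `c = 0` -/
theorem ph2_ge (hb : 0 ≤ b) (ht : 0 < t) (c : ℝ) :
    -Lc (wT b N) (t • (1 : Matrix (Tor N) (Tor N) ℝ)) ≤ ph2 N b t c := by
  have hE := H789.em_wt (N := N) hb ht
  have h1 := H789.qf_mono hE (H789.ev_wt (N := N)) (H789.pk_wt (N := N) hb ht)
    (fun _ : Tor N => t * c) (fun _ => t)
  rw [H789.qf_Cm hE] at h1
  have h2 : Lc (wT b N) (t • (1 : Matrix (Tor N) (Tor N) ℝ)) =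
      t * (N : ℝ) ^ 2 - qf (Gm (wt N b t)) (fun _ => t) := by
    unfold H43.Lc
    have e1 : (t • (1 : Matrix (Tor N) (Tor N) ℝ)).mulVec 1 = fun _ => t := by
      rw [smul_mulVec, one_mulVec]
      funext x
      simp
    have e2 : qf (t • (1 : Matrix (Tor N) (Tor N) ℝ)) 1 = t * (N : ℝ) ^ 2 := by
      rw [qf_smul_one]
      simp only [Pi.one_apply, one_pow, Finset.sum_const, Finset.card_univ, nsmul_eq_mul, mul_one]
      rw [H612.card_tor]
    rw [e1, e2]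
    rfl
  rw [h2]
  unfold H612.ph2
  linarith

/-- the derivative of `log Z(c)` is at most `Lc` -/
theorem ph1_abs (hb : 0 ≤ b) (ht : 0 < t) (c : ℝ) :
    |ph1 N b t c| ≤ Lc (wT b N) (t • (1 : Matrix (Tor N) (Tor N) ℝ)) := by
  set L := Lc (wT b N) (t • (1 : Matrix (Tor N) (Tor N) ℝ)) with hL
  have hper : Function.Periodic (fun c => Real.log (ZC N b t c)) 1 := by
    intro c
    show Real.log (ZC N b t (c + 1)) = Real.log (ZC N b t c)
    rw [H612.ZC_per hb ht c]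
  have hd := fun c => H612.hasDerivAt_log_ZC (N := N) hb ht c
  have hd1 := fun c => H612.hasDerivAt_ph1 (N := N) hb ht c
  have hc0 := H612.cont_ph1 (N := N) hb ht
  have hcont : Continuous (fun c => Real.log (ZC N b t c)) :=
    continuous_iff_continuousAt.2 fun c => (hd c).continuousAt
  have hL0 : 0 ≤ L := by
    -- the average of the second derivative
    obtain ⟨θ, hθ, h0⟩ := exists_hasDerivAt_eq_slope (ph1 N b t) (ph2 N b t)
      (a := 0) (b := 1) one_pos hc0.continuousOn fun x _ => hd1 x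
    have h1 : ph1 N b t 1 = ph1 N b t 0 := by
      have h1 := (hd (0 + 1)).comp_add_const 0 1
      have e : (fun c => Real.log (ZC N b t (c + 1))) = fun c => Real.log (ZC N b t c) :=
        funext fun c => hper c
      rw [e, zero_add] at h1
      exact h1.unique (hd 0)
    rw [h1, sub_self, zero_div] at h0
    have := ph2_ge (N := N) hb ht θ
    rw [h0] at this
    linarith
  have hstep : ∀ x y : ℝ, x ≤ y → ph1 N b t x - L * (y - x) ≤ ph1 N b t y := by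
    intro x y hxy
    rcases hxy.eq_or_lt with rfl | hlt
    · simp
    · obtain ⟨θ, _, h0⟩ := exists_hasDerivAt_eq_slope (ph1 N b t) (ph2 N b t)
        hlt hc0.continuousOn fun x _ => hd1 x
      have h1 := ph2_ge (N := N) hb ht θ
      rw [h0, le_div_iff₀ (by linarith)] at h1
      linarith
  have hp1 : ph1 N b t (c + 1) = ph1 N b t c := by
    have h1 := (hd (c + 1)).comp_add_const c 1
    have e : (fun c => Real.log (ZC N b t (c + 1))) = fun c => Real.log (ZC N b t c) :=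
      funext fun c => hper c
    rw [e] at h1
    exact h1.unique (hd c)
  obtain ⟨θ, hθ, h0⟩ := exists_hasDerivAt_eq_zero (f := fun c => Real.log (ZC N b t c))
    (f' := ph1 N b t) (a := c) (b := c + 1) (by linarith) hcont.continuousOn (hper c).symm
    fun x _ => hd x
  have k1 := hstep c θ hθ.1.le
  have k2 := hstep θ (c + 1) hθ.2.le
  rw [h0] at k1 k2
  rw [hp1] at k2
  have a1 : L * (θ - c) ≤ L * 1 := mul_le_mul_of_nonneg_left (by linarith [hθ.2]) hL0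
  have a2 : L * (c + 1 - θ) ≤ L * 1 := mul_le_mul_of_nonneg_left (by linarith [hθ.1]) hL0
  rw [abs_le]
  constructor <;> linarith

/-- **the mass of the averaged kernel, quadratic in the activity** -/
theorem s0_low (hb : 0 ≤ b) (ht : 0 < t) : 1 - t * (N : ℝ) ^ 2 * yt N b t ^ 2 ≤ s0 N b t := by
  have hw := gw_wT (N := N) hb
  have hM := mf_smul (N := N) ht
  have hN := H864.N_pos (N := N)
  have hA : 0 < t * (N : ℝ) ^ 2 := by positivity
  have h1c := H612.cont_ph1 (N := N) hb ht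
  have hL : Lc (wT b N) (t • (1 : Matrix (Tor N) (Tor N) ℝ)) = t * (N : ℝ) ^ 2 * yt N b t :=
    H879.Lc_wT b t
  unfold s0
  rw [H612.row_GA hb ht]
  have h2 : (pv N b t fun c => ph1 N b t c ^ 2) ≤ (t * (N : ℝ) ^ 2 * yt N b t) ^ 2 := by
    have := pav_mono hw hM (f := fun c => ph1 N b t c ^ 2)
      (g := fun _ => (t * (N : ℝ) ^ 2 * yt N b t) ^ 2) (h1c.pow 2) continuous_const
      fun c => by
        rw [← hL]
        have := ph1_abs (N := N) hb ht c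
        rw [← sq_abs]
        exact pow_le_pow_left₀ (abs_nonneg _) this 2
    rw [pav_const hw hM] at this
    exact this
  have h3 : (pv N b t fun c => ph1 N b t c ^ 2) / (t * (N : ℝ) ^ 2) ≤
      t * (N : ℝ) ^ 2 * yt N b t ^ 2 := by
    rw [div_le_iff₀ hA]
    refine h2.trans (le_of_eq ?_)
    ring
  linarith

theorem s0_le_one (hb : 0 ≤ b) (ht : 0 < t) : s0 N b t ≤ 1 := by
  have hw := gw_wT (N := N) hb
  have hM := mf_smul (N := N) ht
  have hN := H864.N_pos (N := N)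
  have hA : 0 < t * (N : ℝ) ^ 2 := by positivity
  have h1c := H612.cont_ph1 (N := N) hb ht
  unfold s0
  rw [H612.row_GA hb ht]
  have h1 : 0 ≤ pv N b t fun c => ph1 N b t c ^ 2 := by
    have := pav_mono hw hM (f := fun _ => 0) (g := fun c => ph1 N b t c ^ 2) continuous_const
      (h1c.pow 2) fun c => sq_nonneg _
    rw [pav_const hw hM] at this
    exact this
  have h3 : 0 ≤ (pv N b t fun c => ph1 N b t c ^ 2) / (t * (N : ℝ) ^ 2) := div_nonneg h1 hA.le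
  linarith

end low

/-! ### closeness on pairs of cells -/

section mid

/-- near pairs of cells are close, distant pairs small -/
def Cl2 (N M l : ℕ) [NeZero N] [NeZero M] [NeZero (N / l)] [NeZero (M / l)] (b τ δ : ℝ) : Prop :=
  ∃ (S : Finset (ℕ × ℕ)) (q : ℕ × ℕ),
    Set.InjOn (fun c => (pt (N / l) c : V (N / l))) (S : Set (ℕ × ℕ)) ∧
    Set.InjOn (fun c => (pt (M / l) c : V (M / l))) (S : Set (ℕ × ℕ)) ∧
    (∀ d ∈ S, |Sk N l b τ (pt (N / l) q) (pt (N / l) d) -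
      Sk M l b τ (pt (M / l) q) (pt (M / l) d)| ≤ δ) ∧
    (∀ c', c' ∉ S.image (pt (N / l)) → Sk N l b τ (pt (N / l) q) c' ≤ δ) ∧
    (∀ c', c' ∉ S.image (pt (M / l)) → Sk M l b τ (pt (M / l) q) c' ≤ δ)

lemma Cl2.mono {N M l : ℕ} [NeZero N] [NeZero M] [NeZero (N / l)] [NeZero (M / l)] {b τ δ δ' : ℝ}
    (h : Cl2 N M l b τ δ) (hδ : δ ≤ δ') : Cl2 N M l b τ δ' := by
  obtain ⟨S, q, h1, h2, h3, h4, h5⟩ := h
  exact ⟨S, q, h1, h2, fun d hd => (h3 d hd).trans hδ, fun c hc => (h4 c hc).trans hδ,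
    fun c hc => (h5 c hc).trans hδ⟩


/-- **the step kernels of the cells on two tori**, explicit error -/
theorem sk_mid (n : ℕ) (hn3 : 3 ≤ n) (b2 a : ℝ) {c C c8 C8 : ℝ} (hc : 0 < c) (hC : 1 ≤ C)
    (hc8 : 0 < c8) (hC8 : 0 < C8) : ∃ K c' : ℝ, ∃ B : ℕ, 0 < K ∧ 0 < c' ∧ 1 ≤ B ∧
    ∀ {N M l ξ ρ : ℕ} [NeZero N] [NeZero M] [NeZero (N / l)] [NeZero (M / l)]
      {b τ ω y E : ℝ}, b ≤ b2 →
    OT N b τ ξ c C ω → OT M b τ ξ c C ω → L8 N M b τ ξ c8 C8 →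
    l ∣ ξ → ξ ∣ N → ξ ∣ M → 8 ≤ ρ → B * ρ ^ 2 * ξ ≤ N → B * ρ ^ 2 * ξ ≤ M →
    0 ≤ y → (N : ℝ) * y ≤ ξ → (M : ℝ) * y ≤ ξ → QA N b τ ξ y a → QA M b τ ξ y a →
    0 < E → E ≤ 1 → K * (H640.ZZ N M ξ l ρ c' + ω ^ 2) ≤ E →
    Cl2 N M l b τ (K * (((l : ℝ) / ξ) ^ 2 * (1 + Real.log ((ξ : ℝ) / l))) *
      E ^ (1 - 2 / (n : ℝ))) ∧
    (∀ x y : V (N / l), Sk N l b τ x y ≤
      K * (((l : ℝ) / ξ) ^ 2 * (1 + Real.log ((ξ : ℝ) / l)))) ∧
    (∀ x y : V (M / l), Sk M l b τ x y ≤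
      K * (((l : ℝ) / ξ) ^ 2 * (1 + Real.log ((ξ : ℝ) / l)))) := by
  obtain ⟨K1, hK1, H⟩ := Sk_core n hn3
  obtain ⟨K2, hK2, H2⟩ := Sk_sup
  obtain ⟨B0, hB0⟩ := exists_nat_ge (403 / c8)
  have hB : 403 ≤ c8 * ((B0 + 1 : ℕ) : ℝ) := by
    rw [div_le_iff₀ hc8] at hB0
    push_cast
    nlinarith
  have hC0 : 0 < C := by linarith
  have hKp : 0 < K0 C C8 (100 + 98 * |a|) := by
    unfold K0
    positivity
  set Kb : ℝ := 2 * |b2| + 3 / 2 with hKb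
  have hKb0 : 0 < Kb := by positivity
  refine ⟨K0 C C8 (100 + 98 * |a|) + K1 * Kb + (K2 * Kb + 1), min (c / 8) 1,
    2 * (B0 + 1) + 6, by positivity, lt_min (by positivity) one_pos, by omega, ?_⟩
  intro N M l ξ ρ _ _ _ _ b τ ω y E hb2 hN hM h8 hl hξN hξM hρ hBN hBM hy hNy hMy hQN hQM hE0 hE1
    hE
  have hb := hN.hb
  have hτ := hN.τ0
  have hξR := hN.ξ0
  have hξ := hN.hξ
  have hl0 : 0 < l := Nat.pos_of_dvd_of_pos hl hξ
  have hlR : (0 : ℝ) < l := by exact_mod_cast hl0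
  have hlξ : l ≤ ξ := Nat.le_of_dvd hξ hl
  have hk : 1 ≤ ξ / l := Nat.div_pos hlξ hl0
  have hρ0 : 0 < ρ := by omega
  obtain ⟨w1, w2⟩ := win_fit (B0 := B0) hξ hρ
  have hXN := Rs_chT (r := (B0 + 1) * ρ ^ 2 * ξ) hb hτ hξ hρ0 hy (yρ_le hξ hy hBN hNy) hQN
  have hXM := Rs_chT (r := (B0 + 1) * ρ ^ 2 * ξ) hb hτ hξ hρ0 hy (yρ_le hξ hy hBM hMy) hQM
  have hNξ : ξ ≤ N := Nat.le_of_dvd (NeZero.pos N) hξN
  have c1 : min (c / 8) 1 ≤ c / 8 := min_le_left _ _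
  have c2 : min (c / 8) 1 ≤ 1 := min_le_right _ _
  have e1 := err_near (M := M) (ω := ω) (c' := min (c / 8) 1) hξ hl0 hlξ hρ0 hNξ hC0 hc hC8 hB c1 c2
    (100 + 98 * |a|)
  have e2 := err_far (M := M) (l := l) (ρ := ρ) (ω := ω) (c' := min (c / 8) 1) hξ hNξ hC0 c1
  have hZω : 0 ≤ H640.ZZ N M ξ l ρ (min (c / 8) 1) + ω ^ 2 :=
    add_nonneg (H640.ZZ_nonneg _ _ _ _ _ _) (sq_nonneg _)
  have p1 : 0 ≤ K1 * Kb := by positivity
  have p4 : 0 ≤ K2 * Kb + 1 := by positivity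
  have p2 : 0 ≤ 6 * (4 * C * Real.exp ((4 * (100 + 98 * |a|) + 17) / 2) + 24 * C8) + 48 := by
    positivity
  have p3 : 0 ≤ 2 * Real.exp (17 / 2) * C + 16 := by positivity
  have f1 : 6 * (eC N ξ l ρ (100 + 98 * |a|) c C + eC M ξ l ρ (100 + 98 * |a|) c C +
      2 * e8 ξ l ρ ((B0 + 1) * ρ ^ 2 * ξ) c8 C8 + 8 * ω ^ 2) ≤ E := by
    refine e1.trans (le_trans (mul_le_mul_of_nonneg_right ?_ hZω) hE)
    unfold K0
    linarith
  have f2 : 2 * (Real.exp (17 / 2) * ((ξ : ℝ) / l) * ((ξ : ℝ) / l) *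
      (C * Real.exp (-(c * ((ρ : ℝ) / 8))))) + 16 * ω ^ 2 ≤ E := by
    refine e2.trans (le_trans (mul_le_mul_of_nonneg_right ?_ hZω) hE)
    unfold K0
    linarith
  have f3 : 2 * (eC N ξ l ρ (100 + 98 * |a|) c C + eC M ξ l ρ (100 + 98 * |a|) c C +
      2 * e8 ξ l ρ ((B0 + 1) * ρ ^ 2 * ξ) c8 C8 + 8 * ω ^ 2) ≤ E := by
    rcases le_or_gt 0 (eC N ξ l ρ (100 + 98 * |a|) c C + eC M ξ l ρ (100 + 98 * |a|) c C +
      2 * e8 ξ l ρ ((B0 + 1) * ρ ^ 2 * ξ) c8 C8 + 8 * ω ^ 2) with h0 | h0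
    · linarith
    · linarith
  have hlog : 0 ≤ Real.log ((ξ : ℝ) / l) := Real.log_nonneg (q_ge hξ hl0 hlξ)
  have hL := Lb_le (b := b) (b2 := b2) hξ hl hl0 hb2
  rw [← hKb] at hL
  have hEp : 0 ≤ E ^ (1 - 2 / (n : ℝ)) := Real.rpow_nonneg hE0.le _
  have hq2 : 0 ≤ ((l : ℝ) / ξ) ^ 2 := sq_nonneg _
  have g1 : K1 * (((l : ℝ) / ξ) ^ 2 * (Lb b (ξ / l) + 1) * E ^ (1 - 2 / (n : ℝ))) ≤
      (K0 C C8 (100 + 98 * |a|) + K1 * Kb + (K2 * Kb + 1)) *
        (((l : ℝ) / ξ) ^ 2 * (1 + Real.log ((ξ : ℝ) / l))) * E ^ (1 - 2 / (n : ℝ)) := by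
    calc K1 * (((l : ℝ) / ξ) ^ 2 * (Lb b (ξ / l) + 1) * E ^ (1 - 2 / (n : ℝ)))
        ≤ K1 * (((l : ℝ) / ξ) ^ 2 * (Kb * (1 + Real.log ((ξ : ℝ) / l))) *
          E ^ (1 - 2 / (n : ℝ))) := by gcongr
      _ = K1 * Kb * (((l : ℝ) / ξ) ^ 2 * (1 + Real.log ((ξ : ℝ) / l))) *
          E ^ (1 - 2 / (n : ℝ)) := by ring
      _ ≤ _ := by
        refine mul_le_mul_of_nonneg_right (mul_le_mul_of_nonneg_right ?_ (by positivity)) hEp
        linarith
  have gs : ∀ (N : ℕ) [NeZero N] [NeZero (N / l)], OT N b τ ξ c C ω → ξ ∣ N →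
      ∀ x y : V (N / l), Sk N l b τ x y ≤ (K0 C C8 (100 + 98 * |a|) + K1 * Kb + (K2 * Kb + 1)) *
        (((l : ℝ) / ξ) ^ 2 * (1 + Real.log ((ξ : ℝ) / l))) := by
    intro N _ _ hN hξN x y
    refine (H2 hN hl hξN x y).trans ?_
    have hNR : (ξ : ℝ) ≤ N := by exact_mod_cast Nat.le_of_dvd (NeZero.pos N) hξN
    have h1 : (l : ℝ) ^ 2 / (N : ℝ) ^ 2 ≤ ((l : ℝ) / ξ) ^ 2 := by
      rw [div_pow]
      exact div_le_div_of_nonneg_left (by positivity) (by positivity)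
        (pow_le_pow_left₀ hξR.le hNR 2)
    calc K2 * (((l : ℝ) / ξ) ^ 2 * (Lb b (ξ / l) + 1)) + (l : ℝ) ^ 2 / (N : ℝ) ^ 2
        ≤ K2 * (((l : ℝ) / ξ) ^ 2 * (Kb * (1 + Real.log ((ξ : ℝ) / l)))) +
          ((l : ℝ) / ξ) ^ 2 * (1 + Real.log ((ξ : ℝ) / l)) := by
          refine add_le_add (by gcongr) (h1.trans ?_)
          exact le_mul_of_one_le_right hq2 (by linarith)
      _ = (K2 * Kb + 1) * (((l : ℝ) / ξ) ^ 2 * (1 + Real.log ((ξ : ℝ) / l))) := by ring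
      _ ≤ _ := by
        refine mul_le_mul_of_nonneg_right ?_ (by positivity)
        linarith
  obtain ⟨m1, m2, m3⟩ := H hN hM h8 hl hξN hξM hρ w2 (w1.trans hBN) (w1.trans hBM) hXN hXM hE0 hE1
    f3 f2
  have hR8 : 8 * l ≤ ρ * ξ := Nat.mul_le_mul hρ hlξ
  refine ⟨⟨Sc l (ρ * ξ) ((B0 + 1) * ρ ^ 2 * ξ), q0 l (ρ * ξ) ((B0 + 1) * ρ ^ 2 * ξ),
    pt_inj hl0 (hl.trans hξN) hR8 (w1.trans hBN), pt_inj hl0 (hl.trans hξM) hR8 (w1.trans hBM),
    fun d hd => (m1 d hd).trans g1, fun c hc => (m2 c hc).trans g1,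
    fun c hc => (m3 c hc).trans g1⟩, gs N hN hξN, gs M hM hξM⟩

end mid

end

end Vale.Agent.P159.H767
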