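import Vale.Agent.P159.H767.Nr7

/-!
P159, module NEAR (helper767), part 8: `kernels`, the data `KN` in the range of the cluster
theorems, every real mass `τ ∈ [1/ξ², 4/ξ²]`.
-/

set_option linter.unusedSectionVars false

namespace Vale.Agent.P159.H767

open Finset Matrix
open Vale.Agent.P159.TM.Spec (V Rng)
open Vale.Agent.P159.TM.SpecC (wT)
open Vale.Agent.P159.TM.H459 (sn sd)
open Vale.Agent.P159.H145 (OscZ mt)
open Vale.Agent.P159.H864 (yt)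
open Vale.Agent.P159.H612 (GA)
open Vale.Agent.P159.H640

noncomputable section

/-- small numbers -/
lemma gy_small {G Y : ℝ} (hG : 1 ≤ G) (hY : 0 ≤ Y) (h : 8 * (G * Y) ≤ 1) :
    4 * G * Y ^ 2 ≤ 1 / 2 := by
  have h1 : Y ≤ G * Y := le_mul_of_one_le_left hY hG
  have h2 : G * Y * Y ≤ 1 / 8 * Y := mul_le_mul_of_nonneg_right (by linarith) hY
  have e : 4 * G * Y ^ 2 = 4 * (G * Y * Y) := by ring
  rw [e]
  linarith

lemma low_of {N : ℕ} [NeZero N] {b τ Y G q : ℝ} (hb : 0 < b) (hτ : 0 < τ) (hq : 0 < q)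
    (hτ2 : τ ≤ 4 / q ^ 2) (hG : (N : ℝ) ^ 2 / q ^ 2 ≤ G) (hY : yt N b τ ≤ Y) :
    1 - 4 * G * Y ^ 2 ≤ s0 N b τ := by
  have h1 := s0_low (N := N) hb.le hτ
  have h0 := H864.yt_nonneg (N := N) hb.le hτ
  have hG0 : 0 ≤ G := le_trans (by positivity) hG
  have h2 : τ * (N : ℝ) ^ 2 * yt N b τ ^ 2 ≤ 4 * G * Y ^ 2 := by
    have h3 : τ * (N : ℝ) ^ 2 ≤ 4 * G := by
      calc τ * (N : ℝ) ^ 2 ≤ 4 / q ^ 2 * (N : ℝ) ^ 2 :=
            mul_le_mul_of_nonneg_right hτ2 (by positivity)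
        _ = 4 * ((N : ℝ) ^ 2 / q ^ 2) := by ring
        _ ≤ _ := mul_le_mul_of_nonneg_left hG (by norm_num)
    exact mul_le_mul h3 (pow_le_pow_left₀ h0 hY 2) (sq_nonneg _) (by positivity)
  linarith

/-- **the step kernels of the cells on two tori**: constants of the range only -/
theorem kernels {b1 : ℝ} (hb1 : 0 < b1) (b2 a : ℝ) :
    ∃ W₀ cm Cm : ℝ, 0 < cm ∧ 0 < Cm ∧ ∀ W : ℝ, W₀ ≤ W → ∃ ys : ℝ, ∃ X : ℕ, 0 < ys ∧ 1 ≤ X ∧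
    ∀ n : ℕ, 3 ≤ n → ∃ K c : ℝ, ∃ B : ℕ, 0 < K ∧ 0 < c ∧ 1 ≤ B ∧
    ∀ (N M l ξ ρ : ℕ) [NeZero N] [NeZero M] [NeZero (N / l)] [NeZero (M / l)] (b y Y τ E : ℝ),
      2 ∣ ξ → Rng b1 b2 a W ys X N b ξ y → Rng b1 b2 a W ys X N b (ξ / 2) y →
      Rng b1 b2 a W ys X M b ξ y → Rng b1 b2 a W ys X M b (ξ / 2) y →
      (N : ℝ) * y ≤ c * ξ → (M : ℝ) * y ≤ c * ξ →
      1 / (ξ : ℝ) ^ 2 ≤ τ → τ ≤ 4 / (ξ : ℝ) ^ 2 →
      l ∣ ξ → 8 ≤ ρ → B * ρ ^ 2 * ξ ≤ N → B * ρ ^ 2 * ξ ≤ M →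
      yt N b τ ≤ Y → yt M b τ ≤ Y → 8 * (((N : ℝ) ^ 2 + (M : ℝ) ^ 2) / (ξ : ℝ) ^ 2 * Y) ≤ 1 →
      0 < E → E ≤ 1 →
      K * (H640.ZZ N M ξ l ρ c + (((N : ℝ) ^ 2 + (M : ℝ) ^ 2) / (ξ : ℝ) ^ 2 * Y) ^ 2) ≤ E →
      KN N M l b τ (K * (((l : ℝ) / ξ) ^ 2 * (1 + Real.log ((ξ : ℝ) / l))) * E ^ (1 - 2 / (n : ℝ)))
        (K * (((l : ℝ) / ξ) ^ 2 * (1 + Real.log ((ξ : ℝ) / l)))) (cm * l / ξ) Cm
        (4 * (((N : ℝ) ^ 2 + (M : ℝ) ^ 2) / (ξ : ℝ) ^ 2) * Y ^ 2) := by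
  obtain ⟨W1, c1, C1, ys1, X1, hc1, hC1, hys1, hX1, hfar⟩ := H612.lb4t hb1 b2 a
  obtain ⟨W2, hhat⟩ := H358.hat_t hb1 b2 a
  obtain ⟨W3, cm, Cm, ys3, X3, hcm, hCm, hys3, hX3, hker⟩ := H612.nker hb1 b2 a
  refine ⟨max W1 (max W2 W3), cm, 2 * Real.exp cm * Cm, hcm, by positivity, fun W hW => ?_⟩
  have hW1 : W1 ≤ W := (le_max_left _ _).trans hW
  have hW2 : W2 ≤ W := ((le_max_left _ _).trans (le_max_right _ _)).trans hW
  have hW3 : W3 ≤ W := ((le_max_right _ _).trans (le_max_right _ _)).trans hW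
  obtain ⟨c2, C2, ys2, X2, hc2, hC2, hys2, hX2, hHA⟩ := hhat W hW2
  have hs2 : 0 < √(√C2) := Real.sqrt_pos.2 (Real.sqrt_pos.2 hC2)
  refine ⟨min ys1 (min ys2 ys3), max X1 (max X2 X3), lt_min hys1 (lt_min hys2 hys3),
    hX1.trans (le_max_left _ _), ?_⟩
  intro n hn3
  obtain ⟨K, c', B, hK, hc', hB, H⟩ := sk_mid n hn3 b2 a (c := c1) (C := C1) (c8 := c2 / 4)
    (C8 := 9 * √(√C2)) hc1 hC1 (by positivity) (by positivity)
  set cc := min (min (min c1 c2) cm) (min c' 1) with hcc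
  have hcc0 : 0 < cc := lt_min (lt_min (lt_min hc1 hc2) hcm) (lt_min hc' one_pos)
  have k1 : cc ≤ c1 := ((min_le_left _ _).trans (min_le_left _ _)).trans (min_le_left _ _)
  have k2 : cc ≤ c2 := ((min_le_left _ _).trans (min_le_left _ _)).trans (min_le_right _ _)
  have k5 : cc ≤ cm := (min_le_left _ _).trans (min_le_right _ _)
  have k3 : cc ≤ c' := (min_le_right _ _).trans (min_le_left _ _)
  have k4 : cc ≤ 1 := (min_le_right _ _).trans (min_le_right _ _)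
  refine ⟨4 * K, cc, B, by positivity, hcc0, hB, ?_⟩
  intro N M l ξ ρ _ _ _ _ b y Y τ E h2ξ hR hR2 hS hS2 hNy hMy hτ1 hτ2 hl hρ hBN hBM hYN hYM hQ1
    hE0 hE1 hE
  obtain ⟨l', rfl⟩ := h2ξ
  have e2 : 2 * l' / 2 = l' := Nat.mul_div_cancel_left l' (by norm_num)
  rw [e2] at hR2 hS2
  have hb : 0 < b := lt_of_lt_of_le hb1 hR.hb1
  have hl'0 : 0 < l' := lt_of_lt_of_le (hX1.trans (le_max_left X1 _)) hR2.hX
  have hξ : 0 < 2 * l' := by omega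
  have hξR : (0 : ℝ) < ((2 * l' : ℕ) : ℝ) := by exact_mod_cast hξ
  have hτ : 0 < τ := lt_of_lt_of_le (by positivity) hτ1
  have hy : 0 ≤ y := hR.y0
  have tr1 : ∀ {N : ℕ} [NeZero N] {ξ : ℕ},
      Rng b1 b2 a W (min ys1 (min ys2 ys3)) (max X1 (max X2 X3)) N b ξ y →
      Rng b1 b2 a W ys1 X1 N b ξ y := fun h => rng_thr h (min_le_left _ _) (le_max_left _ _)
  have tr2 : ∀ {N : ℕ} [NeZero N] {ξ : ℕ},
      Rng b1 b2 a W (min ys1 (min ys2 ys3)) (max X1 (max X2 X3)) N b ξ y →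
      Rng b1 b2 a W ys2 X2 N b ξ y := fun h => rng_thr h
        ((min_le_right _ _).trans (min_le_left _ _)) ((le_max_left _ _).trans (le_max_right _ _))
  have tr3 : ∀ {N : ℕ} [NeZero N] {ξ : ℕ},
      Rng b1 b2 a W (min ys1 (min ys2 ys3)) (max X1 (max X2 X3)) N b ξ y →
      Rng b1 b2 a W ys3 X3 N b ξ y := fun h => rng_thr h
        ((min_le_right _ _).trans (min_le_right _ _)) ((le_max_right _ _).trans (le_max_right _ _))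
  have lec : ∀ {N : ℕ} {q : ℝ}, (N : ℝ) * y ≤ cc * ((2 * l' : ℕ) : ℝ) → cc ≤ q →
      (N : ℝ) * y ≤ q * ((2 * l' : ℕ) : ℝ) := fun h hq =>
    h.trans (mul_le_mul_of_nonneg_right hq hξR.le)
  set G : ℝ := ((N : ℝ) ^ 2 + (M : ℝ) ^ 2) / ((2 * l' : ℕ) : ℝ) ^ 2 with hG
  set Q : ℝ := G * Y with hQ
  have hY0 : 0 ≤ Y := (H864.yt_nonneg (N := N) hb.le hτ).trans hYN
  have hG0 : 0 ≤ G := by positivity
  have hQ0 : 0 ≤ Q := by positivity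
  have hGN : (N : ℝ) ^ 2 / ((2 * l' : ℕ) : ℝ) ^ 2 ≤ G := by
    rw [hG]
    refine div_le_div_of_nonneg_right ?_ (by positivity)
    have : 0 ≤ (M : ℝ) ^ 2 := sq_nonneg _
    linarith
  have hGM : (M : ℝ) ^ 2 / ((2 * l' : ℕ) : ℝ) ^ 2 ≤ G := by
    rw [hG]
    refine div_le_div_of_nonneg_right ?_ (by positivity)
    have : 0 ≤ (N : ℝ) ^ 2 := sq_nonneg _
    linarith
  have hQN : (N : ℝ) ^ 2 / ((2 * l' : ℕ) : ℝ) ^ 2 * Y ≤ Q := mul_le_mul_of_nonneg_right hGN hY0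
  have hQM : (M : ℝ) ^ 2 / ((2 * l' : ℕ) : ℝ) ^ 2 * Y ≤ Q := mul_le_mul_of_nonneg_right hGM hY0
  have ot : ∀ (N : ℕ) [NeZero N],
      Rng b1 b2 a W (min ys1 (min ys2 ys3)) (max X1 (max X2 X3)) N b (2 * l') y →
      (N : ℝ) * y ≤ cc * ((2 * l' : ℕ) : ℝ) → yt N b τ ≤ Y →
      (N : ℝ) ^ 2 / ((2 * l' : ℕ) : ℝ) ^ 2 * Y ≤ Q → OT N b τ (2 * l') c1 C1 (2 * Q) := by
    intro N _ hR hNy hY hQN
    exact {
      hb := hb.le
      hξ := hξ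
      h1 := hτ1
      h2 := hτ2
      hC := hC1
      far := fun u v A B D hA hB hD hu hv hs =>
        hfar W hW1 N b (2 * l') y (tr1 hR) (lec hNy k1) u v A B D hA hB hD hu hv hs τ hτ1
      osc := osc_yt hb hτ hξ hτ2 hY hQN (by linarith)
      hω0 := by positivity
      hω := by linarith }
  have h8 : L8 N M b τ (2 * l') (c2 / 4) (9 * √(√C2)) :=
    L8_of hb.le hτ hξ hC2 hy (hHA N b hb.le l' y τ (tr2 hR2) (tr2 hR) hτ1 hτ2)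
      (hHA M b hb.le l' y τ (tr2 hS2) (tr2 hS) hτ1 hτ2) (lec hNy k2)
  have hZ : H640.ZZ N M (2 * l') l ρ c' ≤ H640.ZZ N M (2 * l') l ρ cc := by
    unfold H640.ZZ
    refine mul_le_mul_of_nonneg_left (Real.exp_le_exp.2 ?_) (by positivity)
    have : (0 : ℝ) ≤ ρ := Nat.cast_nonneg _
    nlinarith
  have hZ0 := H640.ZZ_nonneg N M (2 * l') l ρ cc
  obtain ⟨r1, r2, r3⟩ := H (y := y) (ω := 2 * Q) (E := E) hR.hb2 (ot N hR hNy hYN hQN)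
    (ot M hS hMy hYM hQM) h8 hl hR.hd hS.hd hρ hBN hBM hy
    (by have := lec hNy k4; rwa [one_mul] at this) (by have := lec hMy k4; rwa [one_mul] at this)
    (QA_of hb hl'0 hR2.hyp.qu hτ hτ2) (QA_of hb hl'0 hS2.hyp.qu hτ hτ2) hE0 hE1 (by
      refine le_trans ?_ hE
      have e5 : K * (H640.ZZ N M (2 * l') l ρ c' + (2 * Q) ^ 2) =
        K * H640.ZZ N M (2 * l') l ρ c' + 4 * K * Q ^ 2 := by ring
      have e6 : 4 * K * (H640.ZZ N M (2 * l') l ρ cc + Q ^ 2) =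
        4 * K * H640.ZZ N M (2 * l') l ρ cc + 4 * K * Q ^ 2 := by ring
      rw [e5, e6]
      have := mul_le_mul_of_nonneg_left hZ hK.le
      have := mul_nonneg hK.le hZ0
      linarith)
  have hl0 : 0 < l := Nat.pos_of_dvd_of_pos hl hξ
  have hlξ : l ≤ 2 * l' := Nat.le_of_dvd hξ hl
  have hlog : 0 ≤ Real.log (((2 * l' : ℕ) : ℝ) / l) := Real.log_nonneg (q_ge hξ hl0 hlξ)
  have hEp : 0 ≤ E ^ (1 - 2 / (n : ℝ)) := Real.rpow_nonneg hE0.le _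
  have hX0 : 0 ≤ ((l : ℝ) / ((2 * l' : ℕ) : ℝ)) ^ 2 * (1 + Real.log (((2 * l' : ℕ) : ℝ) / l)) := by
    positivity
  have hKK : K * (((l : ℝ) / ((2 * l' : ℕ) : ℝ)) ^ 2 * (1 + Real.log (((2 * l' : ℕ) : ℝ) / l))) ≤
      4 * K * (((l : ℝ) / ((2 * l' : ℕ) : ℝ)) ^ 2 *
        (1 + Real.log (((2 * l' : ℕ) : ℝ) / l))) := mul_le_mul_of_nonneg_right (by linarith) hX0
  -- the averaged kernel
  have hG1 : 1 ≤ G := by
    refine le_trans ?_ hGN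
    rw [le_div_iff₀ (by positivity), one_mul]
    have : ((2 * l' : ℕ) : ℝ) ≤ N := by exact_mod_cast Nat.le_of_dvd (NeZero.pos N) hR.hd
    exact pow_le_pow_left₀ hξR.le this 2
  have mom : ∀ (N : ℕ) [NeZero N] [NeZero (N / l)], (N : ℝ) ^ 2 / ((2 * l' : ℕ) : ℝ) ^ 2 ≤ G →
      Rng b1 b2 a W (min ys1 (min ys2 ys3)) (max X1 (max X2 X3)) N b (2 * l') y →
      (N : ℝ) * y ≤ cc * ((2 * l' : ℕ) : ℝ) → yt N b τ ≤ Y →
      (N : ℝ) ^ 2 / ((2 * l' : ℕ) : ℝ) ^ 2 * Y ≤ Q →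
      ∑ z, Sg N l b τ 0 z * Real.exp (cm * l / ((2 * l' : ℕ) : ℝ) * sn z) ≤
        2 * Real.exp cm * Cm := by
    intro N _ _ hGq hR hNy hY hQN
    have hos : OscZ (wT b N) (mt N τ) (2 * Q) :=
      osc_yt hb hτ hξ hτ2 hY hQN (by linarith)
    obtain ⟨_, _, _, _, g1, _, _, g2, _, _⟩ := hker W hW3 N b (2 * l') y (tr3 hR) (lec hNy k5) τ
      (2 * Q) hτ1 hτ2 hos (by linarith)
    have g3 : 1 / 2 ≤ s0 N b τ := by
      have h1 := low_of hb hτ hξR hτ2 hGq hY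
      have h2 := gy_small hG1 hY0 hQ1
      linarith
    exact Sg_mom hb.le (hl.trans hR.hd) hτ g3 hξ hlξ hcm g2
  refine ⟨r1.mono ?_, fun x y => (r2 x y).trans hKK, fun x y => (r3 x y).trans hKK,
    low_of hb hτ hξR hτ2 hGN hYN, low_of hb hτ hξR hτ2 hGM hYM, mom N hGN hR hNy hYN hQN, mom M hGM hS hMy hYM hQM⟩
  exact mul_le_mul_of_nonneg_right hKK hEp

end

end Vale.Agent.P159.H767
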