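import Vale.Agent.P159.H889.Vstp


/-!
P159 (helper767), START, part 1 of V: the numbers.
-/

set_option linter.unusedSectionVars false

namespace Vale.Agent.P159.H767.Pt

open Vale.Agent.P159.H972 (Par lg tn)
open Vale.Agent.P159.H889 (lam nu Mw QP hS)

noncomputable section

/-! ### powers of `e` -/

/-- absorbing constants -/
lemma ab {e d C p q : ℝ} (he : 0 < e) (he1 : e ≤ 1) (hb : 2 ^ 100 * e ^ d ≤ 1)
    (hC : C ≤ 2 ^ 60) (hpq : q ≤ p - d) : C * e ^ p ≤ e ^ q / 2 ^ 40 := by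
  have h1 : e ^ p = e ^ d * e ^ (p - d) := by
    rw [← Real.rpow_add he]
    congr 1
    ring
  have h2 : e ^ (p - d) ≤ e ^ q := Real.rpow_le_rpow_of_exponent_ge he he1 hpq
  have h3 : 0 < e ^ (p - d) := Real.rpow_pos_of_pos he _
  have h4 : 0 < e ^ p := Real.rpow_pos_of_pos he _
  rw [le_div_iff₀ (by positivity)]
  calc C * e ^ p * 2 ^ 40 ≤ 2 ^ 60 * e ^ p * 2 ^ 40 := by gcongr
    _ = (2 ^ 100 * e ^ d) * e ^ (p - d) := by rw [h1]; ring
    _ ≤ 1 * e ^ (p - d) := by gcongr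
    _ ≤ _ := by rw [one_mul]; exact h2

lemma ab' {e d C p q : ℝ} (he : 0 < e) (he1 : e ≤ 1) (hb : 2 ^ 100 * e ^ d ≤ 1)
    (hC : C ≤ 2 ^ 60) (hpq : q ≤ p - d) : C * e ^ p ≤ e ^ q := by
  have h1 := ab he he1 hb hC hpq
  have h2 : 0 < e ^ q := Real.rpow_pos_of_pos he _
  have h3 : e ^ q / 2 ^ 40 ≤ e ^ q := div_le_self h2.le (by norm_num)
  exact h1.trans h3

/-- monotone -/
lemma xm {e p q : ℝ} (he : 0 < e) (he1 : e ≤ 1) (h : q ≤ p) : e ^ p ≤ e ^ q :=
  Real.rpow_le_rpow_of_exponent_ge he he1 h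

lemma xp {e : ℝ} (he : 0 < e) (p : ℝ) : 0 < e ^ p := Real.rpow_pos_of_pos he p

/-- products -/
lemma xa {e p q r : ℝ} (he : 0 < e) (h : p + q = r) : e ^ p * e ^ q = e ^ r := by
  rw [← Real.rpow_add he, h]

/-- products of upper bounds -/
lemma xmul {e x y p q r : ℝ} (he : 0 < e) (hx : x ≤ e ^ p) (hy0 : 0 ≤ y) (hy : y ≤ e ^ q)
    (h : p + q = r) : x * y ≤ e ^ r := by
  rw [← xa he h]
  exact mul_le_mul hx hy hy0 (xp he p).le

/-! ### the numbers of a state -/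

/-- the numbers -/
structure NN (P : Par) (κ c1 d e : ℝ) : Prop where
  adm : P.Adm
  dd : d = P.thp / 10 ^ 9
  he : 0 < e
  es : e ≤ P.es
  big : 2 ^ 100 * e ^ d ≤ 1
  th1 : P.th ≤ d
  th2 : κ * P.th ≤ d
  tau : P.thp ≤ 1 / 1000
  qp : 5 * (P.th + 4 * P.q0 * P.thp) ≤ 1 / 200
  c : e ^ (-(c1 / 2)) + Real.log (1 / e) ≤ e ^ (-c1)
  c0 : 0 < c1
  q3 : 3 ≤ P.q0

/-- the length of the windows -/
def LL (P : Par) (e : ℝ) : ℕ := (P.w e + 19) / 20

section
variable {P : Par} {κ c1 d e : ℝ}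

lemma NN.e1 (h : NN P κ c1 d e) : e ≤ 1 := h.es.trans (P.es1.trans (by norm_num))

lemma NN.d0 (h : NN P κ c1 d e) : 0 < d := by
  rw [h.dd]
  have := P.thp0
  positivity

lemma NN.tau_eq (h : NN P κ c1 d e) : P.thp = 10 ^ 9 * d := by
  rw [h.dd]
  field_simp

lemma NN.l0 (h : NN P κ c1 d e) : 0 < Real.log (1 / e) := by
  apply Real.log_pos
  rw [lt_div_iff₀ h.he]
  have h1 := h.es
  have h2 := P.es1
  linarith

/-- `e ^ p` in logarithms -/
lemma NN.pw (h : NN P κ c1 d e) (p : ℝ) : e ^ p = Real.exp (-(p * Real.log (1 / e))) := by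
  rw [Real.rpow_def_of_pos h.he, one_div, Real.log_inv]
  congr 1
  ring

/-- the logarithm is huge -/
lemma NN.l1 (h : NN P κ c1 d e) : 60 ≤ d * Real.log (1 / e) := by
  have h1 := h.big
  rw [h.pw d] at h1
  have h2 : Real.exp (-(d * Real.log (1 / e))) ≤ Real.exp (-60) := by
    have h3 : Real.exp (60 : ℝ) ≤ 2 ^ 100 := by
      have h4 : Real.exp (60 : ℝ) = Real.exp 1 ^ 60 := by
        rw [← Real.exp_nat_mul]
        norm_num
      rw [h4]
      calc Real.exp 1 ^ 60 ≤ (2.7182818286 : ℝ) ^ 60 := by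
            have := Real.exp_one_lt_d9
            gcongr
        _ ≤ _ := by norm_num
    have h5 : Real.exp (-(d * Real.log (1 / e))) ≤ 1 / 2 ^ 100 := by
      rw [le_div_iff₀ (by positivity)]
      linarith
    refine h5.trans ?_
    rw [Real.exp_neg, ← one_div]
    apply one_div_le_one_div_of_le (Real.exp_pos _) h3
  rw [Real.exp_le_exp] at h2
  linarith

/-- the window, lower bound -/
lemma NN.w_lo (h : NN P κ c1 d e) : P.thp * Real.log (1 / e) ≤ P.w e * Real.log 2 := by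
  have h1 : P.thp * Real.logb 2 (1 / e) ≤ P.w e := Nat.le_ceil _
  have h2 : 0 < Real.log 2 := Real.log_pos one_lt_two
  calc P.thp * Real.log (1 / e) = P.thp * Real.logb 2 (1 / e) * Real.log 2 := by
        unfold Real.logb
        field_simp
    _ ≤ _ := mul_le_mul_of_nonneg_right h1 h2.le

/-- the window, upper bound -/
lemma NN.w_hi (h : NN P κ c1 d e) :
    P.w e * Real.log 2 ≤ P.thp * Real.log (1 / e) + Real.log 2 := by
  have h0 : 0 ≤ P.thp * Real.logb 2 (1 / e) := by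
    have := P.thp0
    have h3 : 0 ≤ Real.logb 2 (1 / e) := Real.logb_nonneg one_lt_two (by
      rw [le_div_iff₀ h.he]
      have := h.e1
      linarith)
    positivity
  have h1 : (P.w e : ℝ) ≤ P.thp * Real.logb 2 (1 / e) + 1 := (Nat.ceil_lt_add_one h0).le
  have h2 : 0 < Real.log 2 := Real.log_pos one_lt_two
  calc (P.w e : ℝ) * Real.log 2 ≤ (P.thp * Real.logb 2 (1 / e) + 1) * Real.log 2 :=
        mul_le_mul_of_nonneg_right h1 h2.le
    _ = _ := by
        unfold Real.logb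
        field_simp

/-- `K`, upper bound -/
lemma NN.k_hi (h : NN P κ c1 d e) :
    P.kE e * Real.log 2 ≤ P.th * Real.log (1 / e) + Real.log 2 := by
  have h0 : 0 ≤ P.th * Real.logb 2 (1 / e) := by
    have := P.th0
    have h3 : 0 ≤ Real.logb 2 (1 / e) := Real.logb_nonneg one_lt_two (by
      rw [le_div_iff₀ h.he]
      have := h.e1
      linarith)
    positivity
  have h1 : (P.kE e : ℝ) ≤ P.th * Real.logb 2 (1 / e) + 1 := (Nat.ceil_lt_add_one h0).le
  have h2 : 0 < Real.log 2 := Real.log_pos one_lt_two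
  calc (P.kE e : ℝ) * Real.log 2 ≤ (P.th * Real.logb 2 (1 / e) + 1) * Real.log 2 :=
        mul_le_mul_of_nonneg_right h1 h2.le
    _ = _ := by
        unfold Real.logb
        field_simp

/-- the integers -/
lemma NN.ints (h : NN P κ c1 d e) : 10 ^ 6 ≤ P.w e ∧ 10 ^ 6 * P.kE e ≤ P.w e := by
  have h1 := h.w_lo
  have h2 := h.k_hi
  have h3 := h.l1
  have h4 := h.tau_eq
  have h5 := h.th1
  have h6 := Real.log_two_lt_d9
  have h7 := Real.log_two_gt_d9
  have h8 := h.l0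
  have h9 : 10 ^ 9 * (d * Real.log (1 / e)) ≤ P.w e * Real.log 2 := by
    rw [h4] at h1
    linarith
  constructor
  · have h10 : (10 ^ 6 : ℝ) * Real.log 2 ≤ P.w e * Real.log 2 := by
      have : (10 ^ 6 : ℝ) * Real.log 2 ≤ 10 ^ 6 * 1 := by
        apply mul_le_mul_of_nonneg_left _ (by norm_num)
        linarith
      linarith
    have h11 : (10 ^ 6 : ℝ) ≤ P.w e := le_of_mul_le_mul_right h10 (by linarith)
    exact_mod_cast h11
  · have h10 : ((10 : ℝ) ^ 6 * P.kE e) * Real.log 2 ≤ P.w e * Real.log 2 := by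
      have h12 : P.th * Real.log (1 / e) ≤ d * Real.log (1 / e) :=
        mul_le_mul_of_nonneg_right h5 h8.le
      calc ((10 : ℝ) ^ 6 * P.kE e) * Real.log 2 = 10 ^ 6 * (P.kE e * Real.log 2) := by ring
        _ ≤ 10 ^ 6 * (d * Real.log (1 / e) + 1) := by
            apply mul_le_mul_of_nonneg_left _ (by norm_num)
            linarith
        _ ≤ _ := by linarith
    have h11 : (10 : ℝ) ^ 6 * P.kE e ≤ P.w e := le_of_mul_le_mul_right h10 (by linarith)
    exact_mod_cast h11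

lemma LL1 (P : Par) (e : ℝ) : P.w e ≤ 20 * LL P e ∧ 20 * LL P e ≤ P.w e + 19 := by
  unfold LL
  omega

/-- `M = 2 ^ L`, lower bound -/
lemma NN.M_lo (h : NN P κ c1 d e) : e ^ (-(P.thp / 20)) ≤ (2 : ℝ) ^ LL P e := by
  rw [h.pw, ← Real.rpow_natCast, Real.rpow_def_of_pos two_pos, Real.exp_le_exp]
  have h1 := h.w_lo
  have h2 : (P.w e : ℝ) ≤ 20 * LL P e := by exact_mod_cast (LL1 P e).1
  have h3 : 0 < Real.log 2 := Real.log_pos one_lt_two
  have h4 : (P.w e : ℝ) * Real.log 2 ≤ 20 * LL P e * Real.log 2 :=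
    mul_le_mul_of_nonneg_right h2 h3.le
  linarith

/-- `M = 2 ^ L`, upper bound -/
lemma NN.M_hi (h : NN P κ c1 d e) : (2 : ℝ) ^ LL P e ≤ 2 * e ^ (-(P.thp / 20)) := by
  rw [h.pw, ← Real.rpow_natCast, Real.rpow_def_of_pos two_pos]
  have h1 := h.w_hi
  have h2 : 20 * (LL P e : ℝ) ≤ P.w e + 19 := by exact_mod_cast (LL1 P e).2
  have h3 : 0 < Real.log 2 := Real.log_pos one_lt_two
  have h4 : 20 * (LL P e : ℝ) * Real.log 2 ≤ (P.w e + 19) * Real.log 2 :=
    mul_le_mul_of_nonneg_right h2 h3.le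
  calc Real.exp (Real.log 2 * LL P e)
      ≤ Real.exp (Real.log 2 + -(-(P.thp / 20) * Real.log (1 / e))) := by
        rw [Real.exp_le_exp]
        linarith
    _ = _ := by
        rw [Real.exp_add, Real.exp_log two_pos]

/-- positive powers of `M` -/
lemma NN.Mp (h : NN P κ c1 d e) {p q : ℝ} (hp : 0 ≤ p) (hp1 : p ≤ 60)
    (hq : q ≤ -(p * P.thp / 20) - d) : ((2 : ℝ) ^ LL P e) ^ p ≤ e ^ q := by
  have h1 : (0 : ℝ) ≤ 2 ^ LL P e := by positivity
  have h2 := Real.rpow_le_rpow h1 h.M_hi hp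
  refine h2.trans ?_
  rw [Real.mul_rpow (by norm_num) (xp h.he _).le, ← Real.rpow_mul h.he.le]
  refine ab' h.he h.e1 h.big ?_ (hq.trans ?_)
  · calc (2 : ℝ) ^ p ≤ 2 ^ (60 : ℝ) := Real.rpow_le_rpow_of_exponent_le (by norm_num) hp1
      _ = 2 ^ 60 := by norm_num
  · apply le_of_eq
    ring

/-- negative powers of `M` -/
lemma NN.Mn (h : NN P κ c1 d e) {p q : ℝ} (hp : 0 ≤ p) (hq : q ≤ p * P.thp / 20) :
    ((2 : ℝ) ^ LL P e) ^ (-p) ≤ e ^ q := by
  have h1 : (0 : ℝ) < e ^ (-(P.thp / 20)) := xp h.he _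
  have h2 := Real.rpow_le_rpow_of_nonpos h1 h.M_lo (show -p ≤ 0 by linarith)
  refine h2.trans ?_
  rw [← Real.rpow_mul h.he.le]
  refine xm h.he h.e1 (hq.trans (le_of_eq ?_))
  ring

/-- `K`, upper bound -/
lemma NN.K_hi (h : NN P κ c1 d e) : (2 : ℝ) ^ P.kE e ≤ e ^ (-(2 * d)) := by
  rw [h.pw, ← Real.rpow_natCast, Real.rpow_def_of_pos two_pos, Real.exp_le_exp]
  have h1 := h.k_hi
  have h2 := h.l1
  have h3 := Real.log_two_lt_d9
  have h4 : P.th * Real.log (1 / e) ≤ d * Real.log (1 / e) :=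
    mul_le_mul_of_nonneg_right h.th1 h.l0.le
  linarith

/-- `2 ^ (-w / 20)` -/
lemma NN.w20 (h : NN P κ c1 d e) {x : ℝ} (hx : (P.w e : ℝ) ≤ x) :
    (2 : ℝ) ^ (-(x / 20)) ≤ e ^ (P.thp / 20) := by
  rw [h.pw, Real.rpow_def_of_pos two_pos, Real.exp_le_exp]
  have h1 := h.w_lo
  have h3 : 0 < Real.log 2 := Real.log_pos one_lt_two
  have h4 : (P.w e : ℝ) * Real.log 2 ≤ x * Real.log 2 :=
    mul_le_mul_of_nonneg_right hx h3.le
  linarith

/-- the drop of NORMAL -/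
lemma NN.w200 (h : NN P κ c1 d e) :
    e ^ (P.thp / 138 + d) ≤ Real.exp (-(1 / 200 * P.w e)) := by
  rw [h.pw, Real.exp_le_exp]
  have h1 := h.w_hi
  have h2 := h.l1
  have h3 := Real.log_two_gt_d9
  have h4 := h.l0
  have h5 : 0 < P.thp := P.thp0
  have h6 : (P.w e : ℝ) ≤ (P.thp * Real.log (1 / e) + Real.log 2) / Real.log 2 := by
    rw [le_div_iff₀ (by linarith)]
    exact h1
  have h7 : (P.thp * Real.log (1 / e) + Real.log 2) / Real.log 2 ≤
      200 / 138 * (P.thp * Real.log (1 / e)) + 1 := by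
    rw [div_le_iff₀ (by linarith)]
    have h8 : 0 < P.thp * Real.log (1 / e) := by positivity
    nlinarith
  linarith

/-- the growth factor -/
lemma NN.g0 (h : NN P κ c1 d e) {x : ℝ} (hx : |x| ≤ 1 / 10 ^ 7) :
    e ^ (6 * d) ≤ Real.exp (x * LL P e * Real.log 2) ∧
      Real.exp (x * LL P e * Real.log 2) ≤ e ^ (-(6 * d)) := by
  have h1 := h.w_hi
  have h2 : 20 * (LL P e : ℝ) ≤ P.w e + 19 := by exact_mod_cast (LL1 P e).2
  have h3 : 0 < Real.log 2 := Real.log_pos one_lt_two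
  have h4 : 20 * (LL P e : ℝ) * Real.log 2 ≤ (P.w e + 19) * Real.log 2 :=
    mul_le_mul_of_nonneg_right h2 h3.le
  have h5 := h.l1
  have h6 := h.tau_eq
  have h7 := Real.log_two_lt_d9
  have h8 : (LL P e : ℝ) * Real.log 2 ≤ P.thp / 20 * Real.log (1 / e) + 1 := by linarith
  have h9 : |x * LL P e * Real.log 2| ≤ 6 * d * Real.log (1 / e) := by
    rw [abs_mul, abs_mul, abs_of_pos h3, abs_of_nonneg (show (0 : ℝ) ≤ (LL P e : ℝ) from Nat.cast_nonneg _), mul_assoc]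
    calc |x| * ((LL P e : ℝ) * Real.log 2)
        ≤ 1 / 10 ^ 7 * (P.thp / 20 * Real.log (1 / e) + 1) := by
          apply mul_le_mul hx h8 (by positivity) (by norm_num)
      _ ≤ _ := by
          rw [h6]
          linarith
  rw [h.pw, h.pw, Real.exp_le_exp, Real.exp_le_exp]
  have h10 := abs_le.1 h9
  constructor <;> linarith

/-- `Q` -/
lemma NN.Q1 (h : NN P κ c1 d e) : 1 ≤ QP P e := by
  unfold QP
  apply Real.one_le_rpow_of_pos_of_le_one_of_nonpos h.he h.e1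
  have := P.thp0
  have := P.th0
  have : 0 ≤ 4 * (P.q0 : ℝ) * P.thp := by positivity
  linarith

lemma NN.Q5 (h : NN P κ c1 d e) : QP P e ^ 5 ≤ e ^ (-(1 / 200) : ℝ) := by
  unfold QP
  rw [← Real.rpow_natCast, ← Real.rpow_mul h.he.le]
  apply xm h.he h.e1
  have := h.qp
  push_cast
  linarith

lemma NN.Q3 (h : NN P κ c1 d e) : QP P e ^ 3 ≤ e ^ (-(1 / 200) : ℝ) :=
  (pow_le_pow_right₀ h.Q1 (by norm_num)).trans h.Q5

lemma NN.Q2 (h : NN P κ c1 d e) : QP P e ^ 2 ≤ e ^ (-(1 / 200) : ℝ) :=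
  (pow_le_pow_right₀ h.Q1 (by norm_num)).trans h.Q5

/-- losses -/
lemma NN.Lth (h : NN P κ c1 d e) : e ^ (-P.th) ≤ e ^ (-d) :=
  xm h.he h.e1 (by have := h.th1; linarith)

lemma NN.Lka (h : NN P κ c1 d e) : e ^ (-(κ * P.th)) ≤ e ^ (-d) :=
  xm h.he h.e1 (by have := h.th2; linarith)

end

end

end Vale.Agent.P159.H767.Pt
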