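import Vale.Agent.P159.H316.St1
import Vale.Agent.P159.H767.Pt1a

/-!
P159 (helper767), START, part 1 of V: cells, reference numbers, contexts.
-/

set_option linter.unusedSectionVars false

namespace Vale.Agent.P159.H767.Pt

open Vale.Agent.P159.TM.Spec (V)
open Vale.Agent.P159.H864 (yt yt_nonneg)
open Vale.Agent.P159.H972 (Par Good YBn lg tn yt_mass)
open Vale.Agent.P159.H889 (Cx Cw SV TV VB lam nu Dc QP Mw hS CH2 lam_pos lam_exp Lg)
open Vale.Agent.P159.H316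

noncomputable section

/-! ### cells -/

/-- the cells `2 ^ s` of the level `m` with `lam = x ^ β` up to a factor `2` -/
def cs (β : ℝ) (m : ℕ) (x : ℝ) : ℕ := ⌊(m : ℝ) + β * Real.log x / Real.log 2⌋₊

lemma log_lam (j i : ℕ) : Real.log (lam j i) = ((i : ℝ) - j) * Real.log 2 := by
  rw [lam_exp, Real.log_exp]
  unfold Lg
  ring

lemma cs_bd {β x : ℝ} {m : ℕ} (hx : 0 < x) (h : -(β * Real.log x) ≤ m * Real.log 2) :
    1 / 2 * x ^ β ≤ lam m (cs β m x) ∧ lam m (cs β m x) ≤ x ^ β := by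
  have hl2 : 0 < Real.log 2 := Real.log_pos one_lt_two
  obtain ⟨v, hv⟩ : ∃ v : ℝ, v = (m : ℝ) + β * Real.log x / Real.log 2 := ⟨_, rfl⟩
  have hvl : v * Real.log 2 = m * Real.log 2 + β * Real.log x := by
    rw [hv]
    field_simp
  have hv0 : 0 ≤ v := by
    have h1 : 0 * Real.log 2 ≤ v * Real.log 2 := by
      rw [hvl]
      linarith
    exact le_of_mul_le_mul_right h1 hl2
  have hcs : cs β m x = ⌊v⌋₊ := by
    unfold cs
    rw [hv]
  have hf1 : ((⌊v⌋₊ : ℕ) : ℝ) ≤ v := Nat.floor_le hv0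
  have hf2 : v < (⌊v⌋₊ : ℝ) + 1 := Nat.lt_floor_add_one v
  have hxb : 0 < x ^ β := Real.rpow_pos_of_pos hx _
  rw [hcs]
  constructor
  · rw [← Real.log_le_log_iff (by positivity) (lam_pos _ _), log_lam,
      Real.log_mul (by norm_num) hxb.ne', Real.log_rpow hx, one_div, Real.log_inv]
    have h4 : (v - 1 - m) * Real.log 2 ≤ ((⌊v⌋₊ : ℝ) - m) * Real.log 2 :=
      mul_le_mul_of_nonneg_right (by linarith) hl2.le
    have h5 : (v - 1 - m) * Real.log 2 = v * Real.log 2 - Real.log 2 - m * Real.log 2 := by ring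
    rw [h5, hvl] at h4
    linarith
  · rw [← Real.log_le_log_iff (lam_pos _ _) hxb, log_lam, Real.log_rpow hx]
    have h4 : ((⌊v⌋₊ : ℝ) - m) * Real.log 2 ≤ (v - m) * Real.log 2 :=
      mul_le_mul_of_nonneg_right (by linarith) hl2.le
    rw [sub_mul v, hvl] at h4
    linarith

lemma cs_mono {β β' x x' : ℝ} {m m' : ℕ}
    (h : m * Real.log 2 + β * Real.log x ≤ m' * Real.log 2 + β' * Real.log x') :
    cs β m x ≤ cs β' m' x' := by
  have hl2 : 0 < Real.log 2 := Real.log_pos one_lt_two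
  unfold cs
  apply Nat.floor_mono
  have e1 : ∀ (u : ℕ) (g z : ℝ), ((u : ℝ) + g * z / Real.log 2) * Real.log 2 =
      u * Real.log 2 + g * z := by
    intro u g z
    field_simp
  have h1 : ((m : ℝ) + β * Real.log x / Real.log 2) * Real.log 2 ≤
      ((m' : ℝ) + β' * Real.log x' / Real.log 2) * Real.log 2 := by
    rw [e1, e1]
    exact h
  exact le_of_mul_le_mul_right h1 hl2

lemma cs_ns {β x : ℝ} {m : ℕ} (hm : 4 ≤ m) (h : 4 * -(β * Real.log x) ≤ m * Real.log 2) :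
    m ≤ 2 * cs β m x := by
  have hl2 : 0 < Real.log 2 := Real.log_pos one_lt_two
  obtain ⟨v, hv⟩ : ∃ v : ℝ, v = (m : ℝ) + β * Real.log x / Real.log 2 := ⟨_, rfl⟩
  have hvl : v * Real.log 2 = m * Real.log 2 + β * Real.log x := by
    rw [hv]
    field_simp
  have hm4 : (4 : ℝ) ≤ m := by exact_mod_cast hm
  have hv1 : 3 / 4 * (m : ℝ) ≤ v := by
    have h4 : 3 / 4 * (m : ℝ) * Real.log 2 ≤ v * Real.log 2 := by
      rw [hvl]
      linarith
    exact le_of_mul_le_mul_right h4 hl2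
  have hcs : cs β m x = ⌊v⌋₊ := by
    unfold cs
    rw [hv]
  have hf2 : v < (⌊v⌋₊ : ℝ) + 1 := Nat.lt_floor_add_one v
  rw [hcs]
  have h3 : (m : ℝ) ≤ 2 * (⌊v⌋₊ : ℝ) := by linarith
  exact_mod_cast h3

/-! ### data -/

/-- the data of part 1 -/
structure Dt (P : Par) (b : ℝ) (a : ℕ → ℝ) (C1 c1 A1 κ d : ℝ) (N0 n : ℕ) (e : ℝ) : Prop where
  h : In1 P b a C1 c1 A1 κ N0
  nn : NN P κ c1 d e
  C24 : 24 ≤ C1
  hn : N0 ≤ n
  n4 : 4 ≤ n
  G : ∀ m, n ≤ m → m ≤ n + 2 * P.w e → Good P b m e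
  ye : y0 P b n e ^ (47 / 25 : ℝ) ≤ e
  yl : Real.log (1 / y0 P b n e) ≤ e ^ (-(c1 / 2))
  nm : Nmd P b (1 / 200) n e

/-- the reference number of the level `n` -/
def YY (P : Par) (b : ℝ) (n : ℕ) (e : ℝ) : ℝ := e ^ (-P.th) * y0 P b n e

/-- the reference number of the level `n + j L` -/
def yj (P : Par) (b : ℝ) (n : ℕ) (e : ℝ) (j : ℕ) : ℝ := 2 * ((4 : ℝ) ^ (j * LL P e) * YY P b n e)

/-- the cells of the level `n + j L` -/
def sj (P : Par) (b C1 : ℝ) (n : ℕ) (e : ℝ) (j : ℕ) : ℕ :=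
  cs (71 / 64 * C1) (n + j * LL P e) (e * yj P b n e j)

section
variable {P : Par} {b : ℝ} {a : ℕ → ℝ} {C1 c1 A1 κ d : ℝ} {N0 n : ℕ} {e : ℝ}

lemma Dt.y00 (D : Dt P b a C1 c1 A1 κ d N0 n e) : 0 < y0 P b n e :=
  (D.h.dx0 n e D.hn D.nn.he D.nn.es D.ye).1

lemma Dt.dx (D : Dt P b a C1 c1 A1 κ d N0 n e) :
    -Real.log (e * y0 P b n e) ≤ 1 / (64 * C1) * n :=
  (D.h.dx0 n e D.hn D.nn.he D.nn.es D.ye).2

lemma Dt.yup (D : Dt P b a C1 c1 A1 κ d N0 n e) : y0 P b n e ≤ e ^ (25 / 47 : ℝ) := by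
  have h1 := Real.rpow_le_rpow (Real.rpow_nonneg D.y00.le _) D.ye
    (show (0 : ℝ) ≤ 25 / 47 by norm_num)
  rwa [← Real.rpow_mul D.y00.le, show (47 / 25 : ℝ) * (25 / 47) = 1 by norm_num,
    Real.rpow_one] at h1

lemma Dt.y01 (D : Dt P b a C1 c1 A1 κ d N0 n e) : y0 P b n e ≤ 1 := by
  refine D.yup.trans ?_
  have h1 := xm D.nn.he D.nn.e1 (show (0 : ℝ) ≤ 25 / 47 by norm_num)
  rwa [Real.rpow_zero] at h1

lemma Dt.yl1 (D : Dt P b a C1 c1 A1 κ d N0 n e) : Real.log (1 / y0 P b n e) ≤ e ^ (-c1) :=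
  D.yl.trans (xm D.nn.he D.nn.e1 (by have := D.nn.c0; linarith))

lemma Dt.YY0 (D : Dt P b a C1 c1 A1 κ d N0 n e) : 0 < YY P b n e :=
  mul_pos (xp D.nn.he _) D.y00

lemma Dt.YYlo (D : Dt P b a C1 c1 A1 κ d N0 n e) : y0 P b n e ≤ YY P b n e := by
  unfold YY
  have h1 : 1 ≤ e ^ (-P.th) := by
    apply Real.one_le_rpow_of_pos_of_le_one_of_nonpos D.nn.he D.nn.e1
    have := P.th0
    linarith
  calc y0 P b n e = 1 * y0 P b n e := (one_mul _).symm
    _ ≤ _ := mul_le_mul_of_nonneg_right h1 D.y00.le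

lemma Dt.YYhi (D : Dt P b a C1 c1 A1 κ d N0 n e) : YY P b n e ≤ e ^ (-d) * y0 P b n e :=
  mul_le_mul_of_nonneg_right D.nn.Lth D.y00.le

/-- all tori at the level `n` -/
lemma Dt.cor (D : Dt P b a C1 c1 A1 κ d N0 n e) {r : ℕ} (hr : n + P.kE e ≤ r) :
    yt (2 ^ r) b (4 * tn n) ≤ YY P b n e := by
  have h0 := xp D.nn.he (1 / 4 : ℝ)
  refine D.h.cor n e (y0 P b n e) D.hn D.nn.he D.nn.es (D.G n le_rfl (by omega)) D.y00 ?_ ?_
    le_rfl r hr
  · have h1 := D.yup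
    have h2 := xm D.nn.he D.nn.e1 (show (1 / 4 : ℝ) ≤ 25 / 47 by norm_num)
    linarith
  · have h1 := D.yl1
    have h2 := xp D.nn.he (-c1)
    linarith

/-- all tori at a later level -/
lemma Dt.corm (D : Dt P b a C1 c1 A1 κ d N0 n e) {m r : ℕ} (hm : n ≤ m) (hr : m + P.kE e ≤ r) :
    yt (2 ^ r) b (4 * tn m) ≤ (4 : ℝ) ^ (m - n) * YY P b n e := by
  have h1 : 0 < tn m := H972.tn_pos m
  have h2 : tn n = (4 : ℝ) ^ (m - n) * tn m := by
    unfold tn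
    have h5 : (4 : ℝ) ^ m = 4 ^ (m - n) * 4 ^ n := by
      rw [← pow_add, Nat.sub_add_cancel hm]
    rw [h5]
    field_simp
  have h3 : (1 : ℝ) ≤ (4 : ℝ) ^ (m - n) := one_le_pow₀ (by norm_num)
  have h4 : 4 * tn m ≤ 4 * tn n := by
    rw [h2]
    nlinarith
  have h5 := yt_mass (N := 2 ^ r) D.h.b0 (show 0 < 4 * tn m by positivity) h4
  have h6 : 4 * tn n / (4 * tn m) = (4 : ℝ) ^ (m - n) := by
    rw [h2]
    field_simp
  rw [h6] at h5
  exact h5.trans (mul_le_mul_of_nonneg_left (D.cor (by omega)) (by positivity))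

lemma Dt.yjlo (D : Dt P b a C1 c1 A1 κ d N0 n e) (j : ℕ) : 2 * y0 P b n e ≤ yj P b n e j := by
  unfold yj
  have h1 : (1 : ℝ) ≤ (4 : ℝ) ^ (j * LL P e) := one_le_pow₀ (by norm_num)
  have h2 := D.YYlo
  have h3 := D.YY0
  have h4 : YY P b n e ≤ (4 : ℝ) ^ (j * LL P e) * YY P b n e := by
    nlinarith
  linarith

lemma Dt.yj0 (D : Dt P b a C1 c1 A1 κ d N0 n e) (j : ℕ) : 0 < yj P b n e j := by
  have := D.yjlo j
  have := D.y00
  linarith

/-- `4 ^ (j L)`, upper bound -/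
lemma NN.four (h : NN P κ c1 d e) {j : ℕ} (hj : j ≤ 20) :
    (4 : ℝ) ^ (j * LL P e) ≤ e ^ (-(2 * P.thp + d)) := by
  have e1 : (4 : ℝ) ^ (j * LL P e) = ((2 : ℝ) ^ LL P e) ^ ((2 * j : ℕ) : ℝ) := by
    rw [Real.rpow_natCast, ← pow_mul, show (4 : ℝ) = 2 ^ 2 by norm_num, ← pow_mul]
    congr 1
    ring
  rw [e1]
  have hj' : ((2 * j : ℕ) : ℝ) ≤ 40 := by exact_mod_cast (by omega : 2 * j ≤ 40)
  apply h.Mp (Nat.cast_nonneg _) (by linarith)
  have h1 := P.thp0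
  have h2 : ((2 * j : ℕ) : ℝ) * P.thp ≤ 40 * P.thp := mul_le_mul_of_nonneg_right hj' h1.le
  linarith

lemma Dt.yjhi (D : Dt P b a C1 c1 A1 κ d N0 n e) {j : ℕ} (hj : j ≤ 20) :
    yj P b n e j ≤ e ^ (-(3 * P.thp)) * y0 P b n e := by
  unfold yj
  have h1 := D.nn.four hj
  have h2 := D.YYhi
  have h3 : (4 : ℝ) ^ (j * LL P e) * YY P b n e ≤
      e ^ (-(2 * P.thp + d)) * (e ^ (-d) * y0 P b n e) :=
    mul_le_mul h1 h2 D.YY0.le (xp D.nn.he _).le
  have h4 : 2 * e ^ (-(2 * P.thp + 2 * d)) ≤ e ^ (-(3 * P.thp)) := by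
    apply ab' D.nn.he D.nn.e1 D.nn.big (by norm_num)
    have h5 := D.nn.tau_eq
    have h6 := D.nn.d0
    linarith
  calc 2 * ((4 : ℝ) ^ (j * LL P e) * YY P b n e)
      ≤ 2 * (e ^ (-(2 * P.thp + d)) * (e ^ (-d) * y0 P b n e)) := by linarith
    _ = 2 * e ^ (-(2 * P.thp + 2 * d)) * y0 P b n e := by
        rw [← xa D.nn.he (show -(2 * P.thp + d) + -d = -(2 * P.thp + 2 * d) by ring)]
        ring
    _ ≤ _ := mul_le_mul_of_nonneg_right h4 D.y00.le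

lemma Dt.yjhi' (D : Dt P b a C1 c1 A1 κ d N0 n e) {j : ℕ} (hj : j ≤ 20) :
    yj P b n e j ≤ e ^ (1 / 2 + 1 / 50 : ℝ) := by
  have h1 := D.yjhi hj
  have h2 := D.yup
  have h3 : e ^ (-(3 * P.thp)) * y0 P b n e ≤ e ^ (-(3 * P.thp)) * e ^ (25 / 47 : ℝ) :=
    mul_le_mul_of_nonneg_left h2 (xp D.nn.he _).le
  refine h1.trans (h3.trans ?_)
  rw [xa D.nn.he rfl]
  apply xm D.nn.he D.nn.e1
  have := D.nn.tau
  have := P.thp0
  norm_num
  linarith

/-- the integers of the windows -/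
lemma Dt.int (D : Dt P b a C1 c1 A1 κ d N0 n e) {j : ℕ} (hj : j ≤ 20) :
    j * LL P e ≤ 2 * P.w e := by
  have h1 := (LL1 P e).2
  have h2 := D.nn.ints.1
  have h3 : j * LL P e ≤ 20 * LL P e := Nat.mul_le_mul_right _ hj
  omega

/-- the context with arbitrary cells near `(e y) ^ β` -/
lemma Dt.cx_of (D : Dt P b a C1 c1 A1 κ d N0 n e) {m s : ℕ} {y β : ℝ} (hm : n ≤ m)
    (hm2 : m ≤ n + 2 * P.w e) (hy : e ^ (P.thp / 50) * y0 P b n e ≤ y)
    (hy1 : y ≤ e ^ (1 / 2 + 1 / 50 : ℝ))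
    (hv : ∀ r, P.TT m e r → yt (2 ^ r) b (4 * tn m) ≤ e ^ (-(P.thp / 20)) * y)
    (hβ0 : C1 ≤ β) (hβ : β ≤ 71 / 64 * C1) (hs : 1 / 2 * (e * y) ^ β ≤ lam m s)
    (hs' : lam m s ≤ (e * y) ^ β) (hns : m ≤ 2 * s) : Cx P b C1 c1 m s e y := by
  have he := D.nn.he
  have he1 := D.nn.e1
  have h0 : 0 < y := lt_of_lt_of_le (mul_pos (xp he _) D.y00) hy
  have hC := D.C24
  have hey : 0 < e * y := mul_pos he h0
  have hy2 : y ≤ 1 := by
    refine hy1.trans ?_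
    have h1 := xm he he1 (show (0 : ℝ) ≤ 1 / 2 + 1 / 50 by norm_num)
    rwa [Real.rpow_zero] at h1
  have hey1 : e * y ≤ e := by
    calc e * y ≤ e * 1 := mul_le_mul_of_nonneg_left hy2 he.le
      _ = e := mul_one _
  have hey2 : e * y ≤ 1 := hey1.trans he1
  refine ⟨D.G m hm hm2, D.h.b1, D.h.b2, he, D.nn.es, h0, ?_, ?_, hv, ?_, ?_, hns⟩
  · have h1 := Real.rpow_le_rpow h0.le hy1 (show (0 : ℝ) ≤ 39 / 20 by norm_num)
    rw [← Real.rpow_mul he.le] at h1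
    refine h1.trans ?_
    have h2 := xm he he1 (show (1 : ℝ) ≤ (1 / 2 + 1 / 50) * (39 / 20) by norm_num)
    rwa [Real.rpow_one] at h2
  · have h1 : Real.log (1 / y) ≤ Real.log (1 / (e ^ (P.thp / 50) * y0 P b n e)) := by
      apply Real.log_le_log (by positivity)
      exact one_div_le_one_div_of_le (mul_pos (xp he _) D.y00) hy
    have h2 : Real.log (1 / (e ^ (P.thp / 50) * y0 P b n e)) =
        P.thp / 50 * Real.log (1 / e) + Real.log (1 / y0 P b n e) := by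
      rw [one_div, Real.log_inv, Real.log_mul (xp he _).ne' D.y00.ne', Real.log_rpow he, one_div,
        one_div, Real.log_inv, Real.log_inv]
      ring
    have h3 := D.yl
    have h4 := D.nn.c
    have h5 := D.nn.l0
    have h6 := D.nn.tau
    have h7 : P.thp / 50 * Real.log (1 / e) ≤ 1 * Real.log (1 / e) :=
      mul_le_mul_of_nonneg_right (by linarith) h5.le
    linarith
  · refine le_trans ?_ hs
    have h1 : (e * y) ^ (9 / 8 * C1) ≤ (e * y) ^ (β + 1 / 64 * C1) :=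
      Real.rpow_le_rpow_of_exponent_ge hey hey2 (by linarith)
    have h2 : (e * y) ^ (1 / 64 * C1) ≤ 1 / 2 := by
      have h3 : (e * y) ^ (1 / 64 * C1) ≤ (e * y) ^ (3 / 8 : ℝ) :=
        Real.rpow_le_rpow_of_exponent_ge hey hey2 (by linarith)
      have h4 : (e * y) ^ (3 / 8 : ℝ) ≤ e ^ (3 / 8 : ℝ) :=
        Real.rpow_le_rpow hey.le hey1 (by norm_num)
      have h5 : e ^ (3 / 8 : ℝ) ≤ e ^ d := by
        apply xm he he1
        have h6 := D.nn.tau_eq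
        have h7 := D.nn.tau
        have h8 := D.nn.d0
        linarith
      have h6 := D.nn.big
      have h7 : e ^ d ≤ 1 / 2 := by
        have h8 := xp he d
        linarith
      linarith
    rw [Real.rpow_add hey] at h1
    have h3 := xp hey β
    calc (e * y) ^ (9 / 8 * C1) ≤ (e * y) ^ β * (e * y) ^ (1 / 64 * C1) := h1
      _ ≤ (e * y) ^ β * (1 / 2) := mul_le_mul_of_nonneg_left h2 h3.le
      _ = _ := by ring
  · exact hs'.trans (Real.rpow_le_rpow_of_exponent_ge hey hey2 hβ0)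

/-- the logarithm of the reference numbers -/
lemma Dt.logx (D : Dt P b a C1 c1 A1 κ d N0 n e) {y : ℝ}
    (hy : e ^ (P.thp / 50) * y0 P b n e ≤ y) :
    -Real.log (e * y) ≤ 1 / (32 * C1) * n := by
  have he := D.nn.he
  have h0 : 0 < e ^ (P.thp / 50) * y0 P b n e := mul_pos (xp he _) D.y00
  have hy0 : 0 < y := lt_of_lt_of_le h0 hy
  have h1 : Real.log (e * (e ^ (P.thp / 50) * y0 P b n e)) ≤ Real.log (e * y) :=
    Real.log_le_log (by positivity) (mul_le_mul_of_nonneg_left hy he.le)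
  rw [Real.log_mul he.ne' h0.ne', Real.log_mul (xp he _).ne' D.y00.ne', Real.log_rpow he] at h1
  have h2 := D.dx
  rw [Real.log_mul he.ne' D.y00.ne'] at h2
  have h3 : Real.log (y0 P b n e) ≤ 0 := Real.log_nonpos D.y00.le D.y01
  have h4 : Real.log e ≤ 0 := Real.log_nonpos he.le D.nn.e1
  have h5 := D.nn.tau
  have h6 := P.thp0
  have h7 : -(P.thp / 50 * Real.log e) ≤ -(1 * Real.log e) := by nlinarith
  have h8 : 1 / (32 * C1) * (n : ℝ) = 2 * (1 / (64 * C1) * n) := by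
    have := D.C24
    field_simp
    ring
  rw [h8]
  linarith

/-- the cells are admissible -/
lemma Dt.cells (D : Dt P b a C1 c1 A1 κ d N0 n e) {m : ℕ} {y β : ℝ} (hm : n ≤ m)
    (hy : e ^ (P.thp / 50) * y0 P b n e ≤ y) (hβ0 : 0 ≤ β) (hβ : β ≤ 71 / 64 * C1) :
    (1 / 2 * (e * y) ^ β ≤ lam m (cs β m (e * y)) ∧ lam m (cs β m (e * y)) ≤ (e * y) ^ β) ∧
      m ≤ 2 * cs β m (e * y) := by
  have he := D.nn.he
  have h0 : 0 < e ^ (P.thp / 50) * y0 P b n e := mul_pos (xp he _) D.y00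
  have hy0 : 0 < y := lt_of_lt_of_le h0 hy
  have h1 := D.logx hy
  have hC := D.C24
  have hmn : (n : ℝ) ≤ m := by exact_mod_cast hm
  have hl2 := Real.log_two_gt_d9
  have h2 : 4 * -(β * Real.log (e * y)) ≤ m * Real.log 2 := by
    have h3 : β * -Real.log (e * y) ≤ 71 / 64 * C1 * (1 / (32 * C1) * n) := by
      have hn0 : (0 : ℝ) ≤ 1 / (32 * C1) * n := by positivity
      rcases le_or_gt 0 (-Real.log (e * y)) with h4 | h4
      · exact mul_le_mul hβ h1 h4 (by linarith)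
      · have h5 : β * -Real.log (e * y) ≤ 0 := mul_nonpos_of_nonneg_of_nonpos hβ0 h4.le
        have h6 : 0 ≤ 71 / 64 * C1 * (1 / (32 * C1) * n) := by positivity
        linarith
    have h4 : 71 / 64 * C1 * (1 / (32 * C1) * (n : ℝ)) = 71 / 2048 * n := by
      field_simp
      ring
    rw [h4] at h3
    have hm0 : (0 : ℝ) ≤ m := Nat.cast_nonneg _
    nlinarith
  refine ⟨cs_bd (mul_pos he hy0) ?_, cs_ns (D.n4.trans hm) h2⟩
  have hm0 : (0 : ℝ) ≤ m * Real.log 2 := by positivity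
  rcases le_or_gt 0 (-(β * Real.log (e * y))) with h4 | h4 <;> linarith

end

end

end Vale.Agent.P159.H767.Pt
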