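import Vale.Agent.P159.H767.Pt1b

/-!
P159 (helper767), START, part 1 of V: the contexts of the twenty windows, one general step.
-/

set_option linter.unusedSectionVars false

namespace Vale.Agent.P159.H767.Pt

open Vale.Agent.P159.TM.Spec (V)
open Vale.Agent.P159.H864 (yt yt_nonneg)
open Vale.Agent.P159.H972 (Par Good YBn lg tn)
open Vale.Agent.P159.H889 (Cx Cw SV TV VB lam nu Dc QP Mw hS CH2 lam_pos nu_pos SB)
open Vale.Agent.P159.H316

noncomputable section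

variable {P : Par} {b : ℝ} {a : ℕ → ℝ} {C1 c1 A1 κ d : ℝ} {N0 n : ℕ} {e : ℝ}

/-! ### the contexts -/

lemma Dt.yjlo' (D : Dt P b a C1 c1 A1 κ d N0 n e) (j : ℕ) :
    e ^ (P.thp / 50) * y0 P b n e ≤ yj P b n e j := by
  have h1 := D.yjlo j
  have h2 := D.y00
  have h3 : e ^ (P.thp / 50) ≤ 1 := by
    have h4 := xm D.nn.he D.nn.e1 (show (0 : ℝ) ≤ P.thp / 50 by have := P.thp0; positivity)
    rwa [Real.rpow_zero] at h4
  have h4 : e ^ (P.thp / 50) * y0 P b n e ≤ 1 * y0 P b n e :=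
    mul_le_mul_of_nonneg_right h3 h2.le
  linarith

lemma Dt.vyj (D : Dt P b a C1 c1 A1 κ d N0 n e) (j : ℕ) {r : ℕ}
    (hr : n + j * LL P e + P.kE e ≤ r) :
    yt (2 ^ r) b (4 * tn (n + j * LL P e)) ≤ (4 : ℝ) ^ (j * LL P e) * YY P b n e := by
  have h1 := D.corm (show n ≤ n + j * LL P e by omega) hr
  rwa [show n + j * LL P e - n = j * LL P e by omega] at h1

lemma Dt.e20 (D : Dt P b a C1 c1 A1 κ d N0 n e) : 1 ≤ e ^ (-(P.thp / 20)) := by
  apply Real.one_le_rpow_of_pos_of_le_one_of_nonpos D.nn.he D.nn.e1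
  have := P.thp0
  linarith

/-- the context of the level `n + j L` -/
theorem Dt.cx (D : Dt P b a C1 c1 A1 κ d N0 n e) {j : ℕ} (hj : j ≤ 20) :
    Cx P b C1 c1 (n + j * LL P e) (sj P b C1 n e j) e (yj P b n e j) := by
  have hC := D.C24
  have h1 := D.cells (β := 71 / 64 * C1) (show n ≤ n + j * LL P e by omega) (D.yjlo' j)
    (by linarith) le_rfl
  refine D.cx_of (by omega) ?_ (D.yjlo' j) (D.yjhi' hj) ?_ (β := 71 / 64 * C1) (by linarith) le_rfl
    h1.1.1 h1.1.2 h1.2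
  · have := D.int hj
    omega
  · intro r hr
    have h2 := D.vyj j hr.1
    have h3 := D.e20
    have h4 := D.yj0 j
    have h5 : (4 : ℝ) ^ (j * LL P e) * YY P b n e ≤ yj P b n e j := by
      unfold yj
      have : 0 < (4 : ℝ) ^ (j * LL P e) * YY P b n e := mul_pos (by positivity) D.YY0
      linarith
    calc yt (2 ^ r) b (4 * tn (n + j * LL P e)) ≤ yj P b n e j := h2.trans h5
      _ = 1 * yj P b n e j := (one_mul _).symm
      _ ≤ _ := mul_le_mul_of_nonneg_right h3 h4.le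

/-- `CH2` of the level `n + j L` -/
theorem Dt.ch (D : Dt P b a C1 c1 A1 κ d N0 n e) {j : ℕ} (hj : j ≤ 20) :
    CH2 P b (n + j * LL P e) e (yj P b n e j * e ^ (0 : ℝ)) := by
  rw [Real.rpow_zero, mul_one]
  have he := D.nn.he
  have he1 := D.nn.e1
  have h0 : 0 < (4 : ℝ) ^ (j * LL P e) * YY P b n e := mul_pos (by positivity) D.YY0
  obtain ⟨y, hy⟩ : ∃ y, y = e ^ (P.thp / 20) * ((4 : ℝ) ^ (j * LL P e) * YY P b n e) := ⟨_, rfl⟩
  have hy0 : 0 < y := by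
    rw [hy]
    exact mul_pos (xp he _) h0
  have hyy : e ^ (-(P.thp / 20)) * y = (4 : ℝ) ^ (j * LL P e) * YY P b n e := by
    rw [hy, ← mul_assoc, xa he (show -(P.thp / 20) + P.thp / 20 = 0 by ring), Real.rpow_zero,
      one_mul]
  have h1 : e ^ (P.thp / 20) ≤ 1 := by
    have h4 := xm he he1 (show (0 : ℝ) ≤ P.thp / 20 by have := P.thp0; positivity)
    rwa [Real.rpow_zero] at h4
  have hyj : y ≤ yj P b n e j := by
    rw [hy]
    unfold yj
    have h2 : e ^ (P.thp / 20) * ((4 : ℝ) ^ (j * LL P e) * YY P b n e) ≤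
        1 * ((4 : ℝ) ^ (j * LL P e) * YY P b n e) := mul_le_mul_of_nonneg_right h1 h0.le
    linarith
  have h2 := D.h.chs.2 (n + j * LL P e) e y he D.nn.es hy0 ?_ ?_
  · rw [hyy] at h2
    exact h2
  · exact (Real.rpow_le_rpow hy0.le hyj (by norm_num)).trans (D.cx hj).y1
  · intro r hr
    rw [hyy]
    exact D.vyj j hr.1

/-- the cells increase -/
lemma Dt.smono (D : Dt P b a C1 c1 A1 κ d N0 n e) (j : ℕ) :
    sj P b C1 n e j ≤ sj P b C1 n e (j + 1) := by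
  apply cs_mono
  have hC := D.C24
  have hl2 : 0 < Real.log 2 := Real.log_pos one_lt_two
  have h1 : yj P b n e j ≤ yj P b n e (j + 1) := by
    unfold yj
    have h2 : (4 : ℝ) ^ (j * LL P e) ≤ (4 : ℝ) ^ ((j + 1) * LL P e) :=
      pow_le_pow_right₀ (by norm_num) (Nat.mul_le_mul_right _ (by omega))
    have h3 := mul_le_mul_of_nonneg_right h2 D.YY0.le
    linarith
  have h2 : Real.log (e * yj P b n e j) ≤ Real.log (e * yj P b n e (j + 1)) :=
    Real.log_le_log (mul_pos D.nn.he (D.yj0 j)) (mul_le_mul_of_nonneg_left h1 D.nn.he.le)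
  have h3 : ((n + j * LL P e : ℕ) : ℝ) ≤ ((n + (j + 1) * LL P e : ℕ) : ℝ) := by
    have : n + j * LL P e ≤ n + (j + 1) * LL P e :=
      Nat.add_le_add_left (Nat.mul_le_mul_right _ (by omega)) _
    exact_mod_cast this
  have h4 := mul_le_mul_of_nonneg_right h3 hl2.le
  have h5 := mul_le_mul_of_nonneg_left h2 (show 0 ≤ 71 / 64 * C1 by linarith)
  linarith

/-- the window `n + j L -> n + (j + 1) L` -/
lemma Dt.cw (D : Dt P b a C1 c1 A1 κ d N0 n e) {m m' : ℕ} (h1 : P.w e ≤ 20 * (m' - m))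
    (h2 : m ≤ m') (h3 : m' ≤ m + 4 * P.w e) : Cw P m m' e e := by
  have he := D.nn.he
  refine ⟨by linarith, ?_, D.nn.es, by omega, h3⟩
  have h4 := xm he D.nn.e1 (show (19 / 20 : ℝ) ≤ 1 by norm_num)
  rwa [Real.rpow_one] at h4

/-! ### the first state -/

lemma V1.mono {r s : ℕ} {ζ : ℂ} {Δ Δ' E E' : ℝ} (h : V1 P b A1 n s e r ζ Δ E)
    (h1 : Δ ≤ Δ') (h2 : E ≤ E') : V1 P b A1 n s e r ζ Δ' E' := by
  intro _
  obtain ⟨Lp, hV⟩ := h
  exact ⟨Lp, SB.mono hV (mul_le_mul_of_nonneg_right h1 (nu_pos n s).le) le_rfl le_rfl le_rfl h2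
    le_rfl le_rfl⟩

/-- a change of the activity -/
theorem SV.coef {s : ℕ} {ζ : ℂ} {Δ E : ℝ} (hb : 0 < b) (hs : s ≤ n) (h : SV P b A1 n s e ζ Δ E)
    (ζ' : ℂ) : SV P b A1 n s e ζ' (Δ + ‖ζ - ζ'‖) E := by
  intro r hr _
  obtain ⟨Lp, hV⟩ := h r hr
  have hl : 2 ^ s ∣ 2 ^ r := pow_dvd_pow 2 (by have := hr.1; omega)
  refine ⟨Lp, ?_⟩
  have h1 := SB.coef (H340.nf_acl hb hl (H972.tn_pos n) le_rfl)
    (fun x y => H767.Sk_nonneg hb.le hl (H972.tn_pos n) x y) hV (z' := ζ' * (nu n s : ℂ))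
    (δ := ‖ζ - ζ'‖ * nu n s) (by
      rw [← sub_mul, norm_mul, Complex.norm_real, Real.norm_of_nonneg (nu_pos n s).le])
  refine SB.mono h1 (le_of_eq (by ring)) le_rfl le_rfl le_rfl le_rfl le_rfl le_rfl

/-- the deviation of the first state -/
lemma Dt.d0 (D : Dt P b a C1 c1 A1 κ d N0 n e) :
    4 * ((2 : ℝ) ^ (LL P e + P.kE e) * YY P b n e) + y0 P b n e ≤
      e ^ (-(P.thp / 20 + 5 * d)) * y0 P b n e := by
  have he := D.nn.he
  have h1 : (2 : ℝ) ^ LL P e ≤ e ^ (-(P.thp / 20 + d)) := by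
    have h2 := D.nn.Mp (p := 1) (q := -(P.thp / 20 + d)) (by norm_num) (by norm_num) (by linarith)
    rwa [Real.rpow_one] at h2
  have h2 := D.nn.K_hi
  have h3 := D.YYhi
  have h4 : (2 : ℝ) ^ (LL P e + P.kE e) ≤ e ^ (-(P.thp / 20 + 3 * d)) := by
    rw [pow_add]
    exact xmul he h1 (by positivity) h2 (by ring)
  have h5 : (2 : ℝ) ^ (LL P e + P.kE e) * YY P b n e ≤
      e ^ (-(P.thp / 20 + 3 * d)) * (e ^ (-d) * y0 P b n e) :=
    mul_le_mul h4 h3 D.YY0.le (xp he _).le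
  have h6 : e ^ (-(P.thp / 20 + 3 * d)) * (e ^ (-d) * y0 P b n e) =
      e ^ (-(P.thp / 20 + 4 * d)) * y0 P b n e := by
    rw [← mul_assoc, xa he (show -(P.thp / 20 + 3 * d) + -d = -(P.thp / 20 + 4 * d) by ring)]
  have h7 : 5 * e ^ (-(P.thp / 20 + 4 * d)) ≤ e ^ (-(P.thp / 20 + 5 * d)) :=
    ab' he D.nn.e1 D.nn.big (by norm_num) (by linarith)
  have h8 : 1 ≤ e ^ (-(P.thp / 20 + 4 * d)) := by
    apply Real.one_le_rpow_of_pos_of_le_one_of_nonpos he D.nn.e1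
    have := P.thp0
    have := D.nn.d0
    linarith
  have h9 : 1 * y0 P b n e ≤ e ^ (-(P.thp / 20 + 4 * d)) * y0 P b n e :=
    mul_le_mul_of_nonneg_right h8 D.y00.le
  have h10 := mul_le_mul_of_nonneg_right h7 D.y00.le
  linarith

/-- the first state, on the torus of the first window -/
theorem Dt.v0 (D : Dt P b a C1 c1 A1 κ d N0 n e) :
    V1 P b A1 (n + 0 * LL P e) (sj P b C1 n e 0) e (n + (0 + 1) * LL P e + P.kE e)
      ((y0 P b n e : ℝ) : ℂ) (e ^ (-(P.thp / 20 + 5 * d)) * y0 P b n e)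
      (e ^ (49 / 100 : ℝ) * y0 P b n e) := by
  have he := D.nn.he
  have he1 := D.nn.e1
  have hL := LL1 P e
  have hi := D.nn.ints
  have hd0 := D.nn.d0
  have htau := D.nn.tau
  have hte := D.nn.tau_eq
  rw [show n + 0 * LL P e = n by omega, show n + (0 + 1) * LL P e = n + LL P e by omega]
  have hcx : Cx P b C1 c1 n (sj P b C1 n e 0) e (yj P b n e 0) := by
    have h1 := D.cx (show 0 ≤ 20 by norm_num)
    rwa [show n + 0 * LL P e = n by omega] at h1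
  have hn1 : ‖((y0 P b n e : ℝ) : ℂ)‖ = y0 P b n e := by
    rw [Complex.norm_real, Real.norm_of_nonneg D.y00.le]
  have hTT : P.TT n e (n + LL P e + P.kE e) := by
    refine ⟨by omega, ?_⟩
    have h1 : 1 * (4 * P.w e) ≤ P.q0 * (4 * P.w e) :=
      Nat.mul_le_mul_right _ (by have := D.nn.q3; omega)
    omega
  have hsub : n + LL P e + P.kE e - n = LL P e + P.kE e := by omega
  -- the square of the side
  have h4 : (2 : ℝ) ^ (LL P e + P.kE e) ≤ e ^ (-(P.thp / 20 + 3 * d)) := by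
    rw [pow_add]
    refine xmul he ?_ (by positivity) D.nn.K_hi
      (show -(P.thp / 20 + d) + -(2 * d) = -(P.thp / 20 + 3 * d) by ring)
    have h2 := D.nn.Mp (p := 1) (q := -(P.thp / 20 + d)) (by norm_num) (by norm_num) (by linarith)
    rwa [Real.rpow_one] at h2
  have h5 : ((2 : ℝ) ^ (LL P e + P.kE e)) ^ 2 ≤ e ^ (-(P.thp / 10 + 6 * d)) := by
    rw [pow_two]
    exact xmul he h4 (by positivity) h4 (by ring)
  have h6 : YY P b n e ≤ e ^ (25 / 47 - d) := by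
    calc YY P b n e ≤ e ^ (-d) * y0 P b n e := D.YYhi
      _ ≤ e ^ (-d) * e ^ (25 / 47 : ℝ) := mul_le_mul_of_nonneg_left D.yup (xp he _).le
      _ = _ := xa he (by ring)
  have h7 : ((2 : ℝ) ^ (LL P e + P.kE e)) ^ 2 * YY P b n e ≤
      e ^ (25 / 47 - P.thp / 10 - 7 * d) := xmul he h5 D.YY0.le h6 (by ring)
  have h8 : 4 * (((2 : ℝ) ^ (LL P e + P.kE e)) ^ 2 * YY P b n e) ≤ 1 := by
    have h9 : 4 * e ^ (25 / 47 - P.thp / 10 - 7 * d) ≤ e ^ (0 : ℝ) :=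
      ab' he he1 D.nn.big (by norm_num) (by linarith)
    rw [Real.rpow_zero] at h9
    linarith
  have h : V1 P b A1 n (sj P b C1 n e 0) e (n + LL P e + P.kE e) ((y0 P b n e : ℝ) : ℂ)
      (4 * ((2 : ℝ) ^ (LL P e + P.kE e) * YY P b n e) + y0 P b n e)
      (56 * (((2 : ℝ) ^ (LL P e + P.kE e)) ^ 2 * YY P b n e) ^ 2) := by
    intro _
    have h0 := D.h.ini n (sj P b C1 n e 0) (n + LL P e + P.kE e) e (yj P b n e 0) (YY P b n e)
      ((y0 P b n e : ℝ) : ℂ) D.hn hcx hTT (by omega) (D.cor (by omega)) (by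
        rw [hsub]
        linarith) (by rw [hn1]; exact D.y01)
    rw [hsub, hn1] at h0
    exact h0
  intro _
  refine V1.mono (@h) D.d0 ?_
  have h10 : ((2 : ℝ) ^ (LL P e + P.kE e)) ^ 2 * YY P b n e ≤
      e ^ (-(P.thp / 10 + 7 * d)) * y0 P b n e := by
    calc ((2 : ℝ) ^ (LL P e + P.kE e)) ^ 2 * YY P b n e
        ≤ e ^ (-(P.thp / 10 + 6 * d)) * (e ^ (-d) * y0 P b n e) :=
          mul_le_mul h5 D.YYhi D.YY0.le (xp he _).le
      _ = _ := by
          rw [← mul_assoc, xa he (show -(P.thp / 10 + 6 * d) + -d = -(P.thp / 10 + 7 * d) by ring)]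
  have h11 : (0 : ℝ) ≤ ((2 : ℝ) ^ (LL P e + P.kE e)) ^ 2 * YY P b n e :=
    mul_nonneg (by positivity) D.YY0.le
  have h12 : 56 * e ^ (25 / 47 - P.thp / 5 - 14 * d) ≤ e ^ (49 / 100 : ℝ) := by
    apply ab' he he1 D.nn.big (by norm_num)
    norm_num
    linarith
  calc 56 * (((2 : ℝ) ^ (LL P e + P.kE e)) ^ 2 * YY P b n e) ^ 2
      ≤ 56 * (e ^ (25 / 47 - P.thp / 10 - 7 * d) * (e ^ (-(P.thp / 10 + 7 * d)) * y0 P b n e)) := by
        rw [pow_two]
        have := mul_le_mul h7 h10 h11 (xp he _).le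
        linarith
    _ = 56 * e ^ (25 / 47 - P.thp / 5 - 14 * d) * y0 P b n e := by
        rw [← xa he (show (25 / 47 - P.thp / 10 - 7 * d) + -(P.thp / 10 + 7 * d) =
          25 / 47 - P.thp / 5 - 14 * d by ring)]
        ring
    _ ≤ _ := mul_le_mul_of_nonneg_right h12 D.y00.le

/-! ### one general step -/

lemma Mw_L (m L : ℕ) : Mw m (m + L) = (2 : ℝ) ^ L := by
  unfold Mw
  rw [pow_add]
  field_simp

/-- **one window** -/
theorem Dt.step (D : Dt P b a C1 c1 A1 κ d N0 n e) {j : ℕ} (hj : j ≤ 19) {ζ : ℂ} {Δ : ℝ}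
    (hζ : ζ ≠ 0) (hζ1 : ‖ζ‖ ≤ 1) (hΔ : Δ ≤ 2)
    (hV : V1 P b A1 (n + j * LL P e) (sj P b C1 n e j) e (n + (j + 1) * LL P e + P.kE e) ζ Δ
      (e ^ (49 / 100 : ℝ) * y0 P b n e)) :
    ∃ (ζ' : ℂ) (G : ℝ), e ^ (6 * d) ≤ G ∧ G ≤ e ^ (-(6 * d)) ∧
      ‖ζ' - ζ * (G : ℂ)‖ ≤ 2 * (((2 : ℝ) ^ LL P e) ^ (1 / 10 : ℝ) * Δ)
        + e ^ (2 / 5 : ℝ) * (‖ζ‖ + y0 P b n e) ∧
      ∀ (s' : ℕ) (y' : ℝ), Cx P b C1 c1 (n + (j + 1) * LL P e) s' e y' →
        e ^ (1 / 100 : ℝ) * yj P b n e j ≤ y' → e ^ (1 / 100 : ℝ) * y' ≤ yj P b n e j →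
        sj P b C1 n e j ≤ s' →
        SV P b A1 (n + (j + 1) * LL P e) s' e ζ'
          (((2 : ℝ) ^ LL P e) ^ (-(3 / 4) : ℝ) * Δ
            + e ^ (2 / 5 : ℝ) * (‖ζ‖ + ‖ζ'‖ + y0 P b n e))
          (e ^ (49 / 100 : ℝ) * y0 P b n e) := by
  have he := D.nn.he
  have he1 := D.nn.e1
  have hL := LL1 P e
  have hi := D.nn.ints
  have hd0 := D.nn.d0
  have htau := D.nn.tau
  have hte := D.nn.tau_eq
  have hth0 := P.thp0
  have hy0 := D.y00
  have hyj := D.yjhi (show j ≤ 20 by omega)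
  have hyj0 := D.yj0 j
  have hE0 : 0 ≤ e ^ (49 / 100 : ℝ) * y0 P b n e := mul_nonneg (xp he _).le hy0.le
  have hm' : n + (j + 1) * LL P e = n + j * LL P e + LL P e := by ring
  have hcw : Cw P (n + j * LL P e) (n + (j + 1) * LL P e) e e := by
    rw [hm']
    exact D.cw (by omega) (by omega) (by omega)
  obtain ⟨ζ', h1, h2⟩ := D.h.gs (n + j * LL P e) (n + (j + 1) * LL P e) (sj P b C1 n e j) e e
    (yj P b n e j) 0 ζ Δ (e ^ (49 / 100 : ℝ) * y0 P b n e) (by have := D.hn; omega)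
    (D.cx (by omega)) hcw le_rfl (by norm_num) (D.ch (by omega)) hζ hζ1 hΔ hE0 hV
  have hax := (D.h.ax (n + j * LL P e) (by have := D.hn; omega)).1
  have hg := D.nn.g0 hax
  have hG : G0 (a (n + j * LL P e)) (n + j * LL P e) (n + (j + 1) * LL P e) =
      Real.exp ((2 - Real.pi / a (n + j * LL P e)) * LL P e * Real.log 2) := by
    unfold G0
    congr 2
    rw [hm']
    push_cast
    ring
  have hMw : Mw (n + j * LL P e) (n + (j + 1) * LL P e) = (2 : ℝ) ^ LL P e := by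
    rw [hm', Mw_L]
  rw [hMw, hG] at h1
  rw [hMw] at h2
  set G := Real.exp ((2 - Real.pi / a (n + j * LL P e)) * LL P e * Real.log 2) with hGd
  have hM10 : ((2 : ℝ) ^ LL P e) ^ (1 / 10 : ℝ) ≤ e ^ (-(P.thp / 200 + d)) :=
    D.nn.Mp (by norm_num) (by norm_num) (by linarith)
  have hM100 : 0 ≤ ((2 : ℝ) ^ LL P e) ^ (1 / 10 : ℝ) := by positivity
  -- the square
  have hsq : (e * yj P b n e j) ^ 2 ≤ e ^ (99 / 100 : ℝ) * y0 P b n e := by
    have h3 : yj P b n e j ≤ e ^ (1 / 2 : ℝ) :=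
      (D.yjhi' (show j ≤ 20 by omega)).trans (xm he he1 (by norm_num))
    have h4 : e * e ^ (-(3 * P.thp)) ≤ e ^ (99 / 100 : ℝ) := by
      have h5 : e * e ^ (-(3 * P.thp)) = e ^ (1 + -(3 * P.thp)) := by
        rw [Real.rpow_add he, Real.rpow_one]
      rw [h5]
      exact xm he he1 (by linarith)
    have h5 : e ^ (1 / 2 : ℝ) ≤ 1 := by
      have h6 := xm he he1 (show (0 : ℝ) ≤ 1 / 2 by norm_num)
      rwa [Real.rpow_zero] at h6
    calc (e * yj P b n e j) ^ 2 = (e * yj P b n e j) * (e * yj P b n e j) := pow_two _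
      _ ≤ (1 * 1) * (e * (e ^ (-(3 * P.thp)) * y0 P b n e)) := by
          apply mul_le_mul _ _ (mul_pos he hyj0).le (by norm_num)
          · exact mul_le_mul he1 (h3.trans h5) hyj0.le zero_le_one
          · exact mul_le_mul_of_nonneg_left hyj he.le
      _ = e * e ^ (-(3 * P.thp)) * y0 P b n e := by ring
      _ ≤ _ := mul_le_mul_of_nonneg_right h4 hy0.le
  have hn0 : 0 ≤ ‖ζ‖ := norm_nonneg _
  have hn0' : 0 ≤ ‖ζ'‖ := norm_nonneg _
  refine ⟨ζ', G, hg.1, hg.2, ?_, ?_⟩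
  · -- the activity
    refine h1.trans ?_
    have a1 : ((2 : ℝ) ^ LL P e) ^ (1 / 10 : ℝ) * (8 * (‖ζ‖ * hS e)) ≤
        1 / 2 * e ^ (2 / 5 : ℝ) * ‖ζ‖ := by
      have h3 : ((2 : ℝ) ^ LL P e) ^ (1 / 10 : ℝ) * hS e ≤ e ^ (22 / 25 - P.thp / 200 - d) := by
        unfold hS
        exact xmul he hM10 (xp he _).le le_rfl (by ring)
      have h4 : 16 * e ^ (22 / 25 - P.thp / 200 - d) ≤ e ^ (2 / 5 : ℝ) :=
        ab' he he1 D.nn.big (by norm_num) (by linarith)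
      calc ((2 : ℝ) ^ LL P e) ^ (1 / 10 : ℝ) * (8 * (‖ζ‖ * hS e))
          = 8 * (((2 : ℝ) ^ LL P e) ^ (1 / 10 : ℝ) * hS e) * ‖ζ‖ := by ring
        _ ≤ 1 / 2 * e ^ (2 / 5 : ℝ) * ‖ζ‖ := by
            apply mul_le_mul_of_nonneg_right _ hn0
            linarith
    have a2 : ((2 : ℝ) ^ LL P e) ^ (1 / 10 : ℝ) * (e * yj P b n e j) ^ 2 ≤
        e ^ (2 / 5 : ℝ) * y0 P b n e := by
      calc ((2 : ℝ) ^ LL P e) ^ (1 / 10 : ℝ) * (e * yj P b n e j) ^ 2
          ≤ e ^ (-(P.thp / 200 + d)) * (e ^ (99 / 100 : ℝ) * y0 P b n e) :=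
            mul_le_mul hM10 hsq (by positivity) (xp he _).le
        _ = e ^ (-(P.thp / 200 + d) + 99 / 100) * y0 P b n e := by
            rw [← mul_assoc, xa he rfl]
        _ ≤ _ := by
            apply mul_le_mul_of_nonneg_right _ hy0.le
            exact xm he he1 (by linarith)
    have a3 : 2 * ‖ζ‖ * G * e ^ (87 / 100 : ℝ) ≤ 1 / 2 * e ^ (2 / 5 : ℝ) * ‖ζ‖ := by
      have h3 : G * e ^ (87 / 100 : ℝ) ≤ e ^ (87 / 100 - 6 * d) :=
        xmul he hg.2 (xp he _).le le_rfl (by ring)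
      have h4 : 4 * e ^ (87 / 100 - 6 * d) ≤ e ^ (2 / 5 : ℝ) :=
        ab' he he1 D.nn.big (by norm_num) (by linarith)
      calc 2 * ‖ζ‖ * G * e ^ (87 / 100 : ℝ) = 2 * (G * e ^ (87 / 100 : ℝ)) * ‖ζ‖ := by ring
        _ ≤ 1 / 2 * e ^ (2 / 5 : ℝ) * ‖ζ‖ := by
            apply mul_le_mul_of_nonneg_right _ hn0
            linarith
    have a4 : ((2 : ℝ) ^ LL P e) ^ (1 / 10 : ℝ) * (2 * Δ + 8 * (‖ζ‖ * hS e)
        + (e * yj P b n e j) ^ 2) = 2 * (((2 : ℝ) ^ LL P e) ^ (1 / 10 : ℝ) * Δ)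
        + ((2 : ℝ) ^ LL P e) ^ (1 / 10 : ℝ) * (8 * (‖ζ‖ * hS e))
        + ((2 : ℝ) ^ LL P e) ^ (1 / 10 : ℝ) * (e * yj P b n e j) ^ 2 := by ring
    rw [a4]
    linarith
  · -- the state
    intro s' y' hc h3 h4 h5
    refine H889.SV.mono (h2 s' y' hc h3 h4 h5) ?_ ?_
    · have hQ3 := D.nn.Q3
      have hQ2 := D.nn.Q2
      have hQ0 : 0 ≤ QP P e := zero_le_one.trans D.nn.Q1
      have b1 : QP P e ^ 3 * (2 * (e ^ (49 / 100 : ℝ) * y0 P b n e)
          + yj P b n e j * e ^ (1 / 2 + 0 : ℝ)) ≤ 1 / 2 * e ^ (2 / 5 : ℝ) * y0 P b n e := by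
        have h6 : yj P b n e j * e ^ (1 / 2 + 0 : ℝ) ≤ e ^ (1 / 2 - 3 * P.thp) * y0 P b n e := by
          calc yj P b n e j * e ^ (1 / 2 + 0 : ℝ)
              ≤ e ^ (-(3 * P.thp)) * y0 P b n e * e ^ (1 / 2 + 0 : ℝ) :=
                mul_le_mul_of_nonneg_right hyj (xp he _).le
            _ = _ := by
                rw [← xa he (show -(3 * P.thp) + (1 / 2 + 0) = 1 / 2 - 3 * P.thp by ring)]
                ring
        have h7 : e ^ (1 / 2 - 3 * P.thp) ≤ e ^ (49 / 100 : ℝ) := xm he he1 (by linarith)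
        have h8 : 2 * (e ^ (49 / 100 : ℝ) * y0 P b n e) + yj P b n e j * e ^ (1 / 2 + 0 : ℝ) ≤
            3 * (e ^ (49 / 100 : ℝ) * y0 P b n e) := by
          have := mul_le_mul_of_nonneg_right h7 hy0.le
          linarith
        have h9 : 6 * e ^ (49 / 100 - 1 / 200 : ℝ) ≤ e ^ (2 / 5 : ℝ) :=
          ab' he he1 D.nn.big (by norm_num) (by linarith)
        calc QP P e ^ 3 * (2 * (e ^ (49 / 100 : ℝ) * y0 P b n e)
              + yj P b n e j * e ^ (1 / 2 + 0 : ℝ))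
            ≤ e ^ (-(1 / 200) : ℝ) * (3 * (e ^ (49 / 100 : ℝ) * y0 P b n e)) := by
              apply mul_le_mul hQ3 h8 _ (xp he _).le
              exact add_nonneg (by linarith) (mul_nonneg hyj0.le (xp he _).le)
          _ = 3 * e ^ (49 / 100 - 1 / 200 : ℝ) * y0 P b n e := by
              rw [← xa he (show (-(1 / 200) : ℝ) + 49 / 100 = 49 / 100 - 1 / 200 by ring)]
              ring
          _ ≤ _ := by
              apply mul_le_mul_of_nonneg_right _ hy0.le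
              linarith
      have b2 : QP P e ^ 2 * ((‖ζ‖ + ‖ζ'‖) * hS e) ≤ e ^ (2 / 5 : ℝ) * (‖ζ‖ + ‖ζ'‖) := by
        have h6 : QP P e ^ 2 * hS e ≤ e ^ (-(1 / 200) + 22 / 25 : ℝ) := by
          unfold hS
          exact xmul he hQ2 (xp he _).le le_rfl rfl
        have h7 : e ^ (-(1 / 200) + 22 / 25 : ℝ) ≤ e ^ (2 / 5 : ℝ) :=
          xm he he1 (by norm_num)
        calc QP P e ^ 2 * ((‖ζ‖ + ‖ζ'‖) * hS e) = QP P e ^ 2 * hS e * (‖ζ‖ + ‖ζ'‖) := by ring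
          _ ≤ _ := mul_le_mul_of_nonneg_right (h6.trans h7) (by linarith)
      have b3 : (e * yj P b n e j) ^ 2 ≤ 1 / 2 * e ^ (2 / 5 : ℝ) * y0 P b n e := by
        refine hsq.trans (mul_le_mul_of_nonneg_right ?_ hy0.le)
        have h7 : 2 * e ^ (99 / 100 : ℝ) ≤ e ^ (2 / 5 : ℝ) :=
          ab' he he1 D.nn.big (by norm_num) (by linarith)
        linarith
      linarith
    · have h6 : max (hS e) (e ^ (1 / 2 + 0 : ℝ)) ≤ e ^ (1 / 2 : ℝ) := by
        apply max_le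
        · unfold hS
          exact xm he he1 (by norm_num)
        · rw [add_zero]
      have h60 : 0 ≤ max (hS e) (e ^ (1 / 2 + 0 : ℝ)) := le_max_of_le_right (xp he _).le
      have h7 : QP P e ^ 5 * max (hS e) (e ^ (1 / 2 + 0 : ℝ)) ≤ e ^ (-(1 / 200) + 1 / 2 : ℝ) :=
        xmul he D.nn.Q5 h60 h6 rfl
      have h70 : 0 ≤ QP P e ^ 5 * max (hS e) (e ^ (1 / 2 + 0 : ℝ)) :=
        mul_nonneg (pow_nonneg (zero_le_one.trans D.nn.Q1) _) h60
      calc yj P b n e j * (QP P e ^ 5 * max (hS e) (e ^ (1 / 2 + 0 : ℝ)))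
          ≤ e ^ (-(3 * P.thp)) * y0 P b n e * e ^ (-(1 / 200) + 1 / 2 : ℝ) :=
            mul_le_mul hyj h7 h70 (mul_nonneg (xp he _).le hy0.le)
        _ = e ^ (-(3 * P.thp) + (-(1 / 200) + 1 / 2)) * y0 P b n e := by
            rw [← xa he (show -(3 * P.thp) + (-(1 / 200) + 1 / 2) =
              -(3 * P.thp) + (-(1 / 200) + 1 / 2) from rfl)]
            ring
        _ ≤ _ := by
            apply mul_le_mul_of_nonneg_right _ hy0.le
            exact xm he he1 (by norm_num; linarith)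

end

end Vale.Agent.P159.H767.Pt
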