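import Vale.Agent.P159.H767.Pt1c

/-!
P159 (helper767), START, part 1 of V: the first two windows, the number of the massless torus,
NORMAL.
-/

set_option linter.unusedSectionVars false

namespace Vale.Agent.P159.H767.Pt

open Vale.Agent.P159.TM.Spec (V)
open Vale.Agent.P159.H864 (yt yt_nonneg)
open Vale.Agent.P159.H972 (Par Good YBn lg tn)
open Vale.Agent.P159.H889 (Cx Cw SV TV VB lam nu Dc QP Mw hS CH2 lam_pos nu_pos SB)
open Vale.Agent.P159.H316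

noncomputable section

variable {P : Par} {b : ℝ} {a : ℕ → ℝ} {C1 c1 A1 κ d : ℝ} {N0 n : ℕ} {e : ℝ}

/-- the reference numbers of consecutive levels -/
lemma Dt.std (D : Dt P b a C1 c1 A1 κ d N0 n e) (j : ℕ) :
    e ^ (1 / 100 : ℝ) * yj P b n e j ≤ yj P b n e (j + 1) ∧
      e ^ (1 / 100 : ℝ) * yj P b n e (j + 1) ≤ yj P b n e j := by
  have he := D.nn.he
  have he1 := D.nn.e1
  have htau := D.nn.tau
  have hd0 := D.nn.d0
  have hte := D.nn.tau_eq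
  have e1 : yj P b n e (j + 1) = (4 : ℝ) ^ LL P e * yj P b n e j := by
    unfold yj
    rw [add_mul, one_mul, pow_add]
    ring
  have h1 : e ^ (1 / 100 : ℝ) ≤ 1 := by
    have h4 := xm he he1 (show (0 : ℝ) ≤ 1 / 100 by norm_num)
    rwa [Real.rpow_zero] at h4
  have h2 := D.yj0 j
  have h3 : (1 : ℝ) ≤ (4 : ℝ) ^ LL P e := one_le_pow₀ (by norm_num)
  have h4 : e ^ (1 / 100 : ℝ) * (4 : ℝ) ^ LL P e ≤ 1 := by
    have h5 : (4 : ℝ) ^ LL P e = ((2 : ℝ) ^ LL P e) ^ (2 : ℝ) := by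
      rw [show (2 : ℝ) = ((2 : ℕ) : ℝ) by norm_num, Real.rpow_natCast, ← pow_mul,
        show (4 : ℝ) = (((2 : ℕ) : ℝ)) ^ 2 by norm_num, ← pow_mul]
      congr 1
      ring
    have h6 := D.nn.Mp (p := 2) (q := -(P.thp / 10 + d)) (by norm_num) (by norm_num) (by linarith)
    rw [h5]
    have h7 : e ^ (1 / 100 : ℝ) * ((2 : ℝ) ^ LL P e) ^ (2 : ℝ) ≤
        e ^ (1 / 100 + -(P.thp / 10 + d)) := xmul he le_rfl (by positivity) h6 rfl
    have h8 := xm he he1 (show (0 : ℝ) ≤ 1 / 100 + -(P.thp / 10 + d) by linarith)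
    rw [Real.rpow_zero] at h8
    exact h7.trans h8
  rw [e1]
  constructor
  · exact mul_le_mul_of_nonneg_right (h1.trans h3) h2.le
  · calc e ^ (1 / 100 : ℝ) * ((4 : ℝ) ^ LL P e * yj P b n e j)
        = e ^ (1 / 100 : ℝ) * (4 : ℝ) ^ LL P e * yj P b n e j := by ring
      _ ≤ 1 * yj P b n e j := mul_le_mul_of_nonneg_right h4 h2.le
      _ = _ := one_mul _

/-- the torus of the next window -/
lemma Dt.tv (D : Dt P b a C1 c1 A1 κ d N0 n e) (j : ℕ) :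
    TV P (n + j * LL P e) e (n + (j + 1) * LL P e + P.kE e) := by
  have hL := LL1 P e
  have hi := D.nn.ints
  have hm' : n + (j + 1) * LL P e = n + j * LL P e + LL P e := by ring
  rw [hm']
  refine ⟨by omega, ?_⟩
  have h1 : 1 * (4 * P.w e) ≤ (P.q0 - 2) * (4 * P.w e) :=
    Nat.mul_le_mul_right _ (by have := D.nn.q3; omega)
  omega

lemma norm_up {z z' : ℂ} {G R : ℝ} (hG : 0 ≤ G) (h : ‖z' - z * (G : ℂ)‖ ≤ R) :
    ‖z'‖ ≤ ‖z‖ * G + R := by
  have h1 : z' = z * (G : ℂ) + (z' - z * (G : ℂ)) := by ring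
  have h2 : ‖z * (G : ℂ)‖ = ‖z‖ * G := by
    rw [norm_mul, Complex.norm_real, Real.norm_of_nonneg hG]
  have h3 : ‖z'‖ ≤ ‖z * (G : ℂ)‖ + ‖z' - z * (G : ℂ)‖ := by
    calc ‖z'‖ = ‖z * (G : ℂ) + (z' - z * (G : ℂ))‖ := by rw [← h1]
      _ ≤ _ := norm_add_le _ _
  rw [h2] at h3
  linarith

lemma norm_dn {z z' : ℂ} {G R : ℝ} (hG : 0 ≤ G) (h : ‖z' - z * (G : ℂ)‖ ≤ R) :
    ‖z‖ * G - R ≤ ‖z'‖ := by
  have h1 : z * (G : ℂ) = z' - (z' - z * (G : ℂ)) := by ring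
  have h2 : ‖z * (G : ℂ)‖ = ‖z‖ * G := by
    rw [norm_mul, Complex.norm_real, Real.norm_of_nonneg hG]
  have h3 : ‖z * (G : ℂ)‖ ≤ ‖z'‖ + ‖z' - z * (G : ℂ)‖ := by
    calc ‖z * (G : ℂ)‖ = ‖z' - (z' - z * (G : ℂ))‖ := by rw [← h1]
      _ ≤ _ := norm_sub_le _ _
  rw [h2] at h3
  linarith

/-- the cells are smaller than the level -/
lemma Dt.sle (D : Dt P b a C1 c1 A1 κ d N0 n e) {m s : ℕ} {y : ℝ} (h : Cx P b C1 c1 m s e y)
    (hy : y ≤ 1) : s ≤ m := by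
  have h1 : lam m s ≤ 1 := by
    refine h.s2.trans ?_
    apply Real.rpow_le_one (mul_pos h.e0 h.y0).le
    · calc e * y ≤ 1 * 1 := mul_le_mul D.nn.e1 hy h.y0.le zero_le_one
        _ = 1 := one_mul _
    · have := D.C24
      linarith
  unfold lam at h1
  rw [div_le_one (by positivity)] at h1
  have h2 : 2 ^ s ≤ 2 ^ m := by exact_mod_cast h1
  exact (Nat.pow_le_pow_iff_right (a := 2) (by norm_num)).1 h2

lemma Dt.yj1 (D : Dt P b a C1 c1 A1 κ d N0 n e) {j : ℕ} (hj : j ≤ 20) : yj P b n e j ≤ 1 := by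
  refine (D.yjhi' hj).trans ?_
  have h1 := xm D.nn.he D.nn.e1 (show (0 : ℝ) ≤ 1 / 2 + 1 / 50 by norm_num)
  rwa [Real.rpow_zero] at h1

/-- **the first two windows** -/
theorem Dt.two (D : Dt P b a C1 c1 A1 κ d N0 n e) :
    ∃ ζ : ℂ, ‖ζ‖ ≤ e ^ (-(P.thp / 10)) * y0 P b n e ∧
      SV P b A1 (n + 2 * LL P e) (sj P b C1 n e 2) e ζ (e ^ (P.thp / 50) * y0 P b n e)
        (e ^ (49 / 100 : ℝ) * y0 P b n e) := by
  have he := D.nn.he
  have he1 := D.nn.e1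
  have hbig := D.nn.big
  have hd0 := D.nn.d0
  have htau := D.nn.tau
  have hte := D.nn.tau_eq
  have hth0 := P.thp0
  have hy0 := D.y00
  have hyu := D.yup
  set y := y0 P b n e with hyd
  have hM10 : ((2 : ℝ) ^ LL P e) ^ (1 / 10 : ℝ) ≤ e ^ (-(P.thp / 200 + d)) :=
    D.nn.Mp (by norm_num) (by norm_num) (by linarith)
  have hM34 : ((2 : ℝ) ^ LL P e) ^ (-(3 / 4) : ℝ) ≤ e ^ (3 * P.thp / 80) :=
    D.nn.Mn (by norm_num) (by linarith)
  have hM34p : 0 ≤ ((2 : ℝ) ^ LL P e) ^ (-(3 / 4) : ℝ) := by positivity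
  have hM10p : 0 ≤ ((2 : ℝ) ^ LL P e) ^ (1 / 10 : ℝ) := by positivity
  have hny : ‖((y : ℝ) : ℂ)‖ = y := by
    rw [Complex.norm_real, Real.norm_of_nonneg hy0.le]
  -- small powers of `e` against `y`
  have sm : ∀ p : ℝ, -(1 / 2 : ℝ) ≤ p → e ^ p * y ≤ 1 := by
    intro p hp
    calc e ^ p * y ≤ e ^ p * e ^ (25 / 47 : ℝ) := mul_le_mul_of_nonneg_left hyu (xp he _).le
      _ = e ^ (p + 25 / 47) := xa he rfl
      _ ≤ e ^ (0 : ℝ) := xm he he1 (by linarith)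
      _ = 1 := Real.rpow_zero _
  -- the first window
  obtain ⟨z1, G, hG1, hG2, hz1, hs1⟩ := D.step (j := 0) (by norm_num) (ζ := ((y : ℝ) : ℂ))
    (Δ := e ^ (-(P.thp / 20 + 5 * d)) * y)
    (by
      rw [Ne, Complex.ofReal_eq_zero]
      exact hy0.ne')
    (by
      rw [hny]
      exact D.y01)
    (by
      have := sm (-(P.thp / 20 + 5 * d)) (by linarith)
      linarith) (by
      intro _
      exact D.v0)
  rw [hny] at hz1 hs1
  have hG0 : 0 ≤ G := (xp he _).le.trans hG1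
  have hcx1 := D.cx (show 0 + 1 ≤ 20 by norm_num)
  have hst1 := hs1 (sj P b C1 n e (0 + 1)) (yj P b n e (0 + 1)) hcx1 (D.std 0).1 (D.std 0).2
    (D.smono 0)
  -- the size of the activity
  have n1 : ‖z1‖ ≤ e ^ (-(11 * P.thp / 200 + 7 * d)) * y / 2 := by
    have h1 := norm_up hG0 hz1
    rw [hny] at h1
    have t1 : 1 * e ^ (-(6 * d)) ≤ e ^ (-(11 * P.thp / 200 + 7 * d)) / 2 ^ 40 :=
      ab he he1 hbig (by norm_num) (by linarith)
    have t2 : 2 * e ^ (-(11 * P.thp / 200 + 6 * d)) ≤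
        e ^ (-(11 * P.thp / 200 + 7 * d)) / 2 ^ 40 :=
      ab he he1 hbig (by norm_num) (by linarith)
    have t3 : 2 * e ^ (2 / 5 : ℝ) ≤ e ^ (-(11 * P.thp / 200 + 7 * d)) / 2 ^ 40 :=
      ab he he1 hbig (by norm_num) (by linarith)
    have t4 : ((2 : ℝ) ^ LL P e) ^ (1 / 10 : ℝ) * (e ^ (-(P.thp / 20 + 5 * d)) * y) ≤
        e ^ (-(11 * P.thp / 200 + 6 * d)) * y := by
      rw [← mul_assoc]
      apply mul_le_mul_of_nonneg_right _ hy0.le
      exact xmul he hM10 (xp he _).le le_rfl (by ring)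
    have t5 : y * G ≤ y * e ^ (-(6 * d)) := mul_le_mul_of_nonneg_left hG2 hy0.le
    have t6 := xp he (-(11 * P.thp / 200 + 7 * d))
    have t7 : (1 * e ^ (-(6 * d)) + 2 * e ^ (-(11 * P.thp / 200 + 6 * d)) + 2 * e ^ (2 / 5 : ℝ)) * y
        ≤ e ^ (-(11 * P.thp / 200 + 7 * d)) / 2 * y := by
      apply mul_le_mul_of_nonneg_right _ hy0.le
      have : e ^ (-(11 * P.thp / 200 + 7 * d)) / 2 ^ 40 ≤
        e ^ (-(11 * P.thp / 200 + 7 * d)) / 8 := by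
          apply div_le_div_of_nonneg_left t6.le (by norm_num) (by norm_num)
      linarith
    linarith
  have hy1le : y ≤ e ^ (-(11 * P.thp / 200 + 7 * d)) * y := by
    have h1 : 1 ≤ e ^ (-(11 * P.thp / 200 + 7 * d)) :=
      Real.one_le_rpow_of_pos_of_le_one_of_nonpos he he1 (by linarith)
    calc y = 1 * y := (one_mul _).symm
      _ ≤ _ := mul_le_mul_of_nonneg_right h1 hy0.le
  -- a nonzero activity
  obtain ⟨x1, hx1, hx1n, hx1s⟩ : ∃ x1 : ℂ, x1 ≠ 0 ∧ ‖x1‖ ≤ e ^ (-(11 * P.thp / 200 + 7 * d)) * y ∧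
      SV P b A1 (n + (0 + 1) * LL P e) (sj P b C1 n e (0 + 1)) e x1
        (((2 : ℝ) ^ LL P e) ^ (-(3 / 4) : ℝ) * (e ^ (-(P.thp / 20 + 5 * d)) * y)
            + e ^ (2 / 5 : ℝ) * (y + ‖z1‖ + y) + y)
        (e ^ (49 / 100 : ℝ) * y) := by
    rcases eq_or_ne z1 0 with h0 | h0
    · refine ⟨((y : ℝ) : ℂ), ?_, ?_, ?_⟩
      · rw [Ne, Complex.ofReal_eq_zero]
        exact hy0.ne'
      · rw [hny]
        exact hy1le
      · have h1 := SV.coef D.h.b0 (D.sle hcx1 (D.yj1 (by norm_num))) hst1 ((y : ℝ) : ℂ)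
        rw [h0, zero_sub, norm_neg, hny] at h1
        rw [h0]
        exact h1
    · refine ⟨z1, h0, ?_, H889.SV.mono hst1 (by linarith) le_rfl⟩
      have := norm_nonneg z1
      linarith
  -- its deviation
  have d1 : ((2 : ℝ) ^ LL P e) ^ (-(3 / 4) : ℝ) * (e ^ (-(P.thp / 20 + 5 * d)) * y)
      + e ^ (2 / 5 : ℝ) * (y + ‖z1‖ + y) + y ≤ e ^ (-(P.thp / 80 + 6 * d)) * y := by
    have t1 : 1 * e ^ (-(P.thp / 80 + 5 * d)) ≤ e ^ (-(P.thp / 80 + 6 * d)) / 2 ^ 40 :=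
      ab he he1 hbig (by norm_num) (by linarith)
    have t2 : 2 * e ^ (2 / 5 : ℝ) ≤ e ^ (-(P.thp / 80 + 6 * d)) / 2 ^ 40 :=
      ab he he1 hbig (by norm_num) (by linarith)
    have t3 : 1 * e ^ (2 / 5 + -(11 * P.thp / 200 + 7 * d)) ≤
        e ^ (-(P.thp / 80 + 6 * d)) / 2 ^ 40 :=
      ab he he1 hbig (by norm_num) (by linarith)
    have t4 : 1 * e ^ (0 : ℝ) ≤ e ^ (-(P.thp / 80 + 6 * d)) / 2 ^ 40 :=
      ab he he1 hbig (by norm_num) (by linarith)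
    rw [Real.rpow_zero, one_mul] at t4
    have t5 : ((2 : ℝ) ^ LL P e) ^ (-(3 / 4) : ℝ) * e ^ (-(P.thp / 20 + 5 * d)) ≤
        e ^ (-(P.thp / 80 + 5 * d)) := xmul he hM34 (xp he _).le le_rfl (by ring)
    have t6 := xp he (-(P.thp / 80 + 6 * d))
    have t7 : e ^ (2 / 5 : ℝ) * ‖z1‖ ≤ e ^ (2 / 5 + -(11 * P.thp / 200 + 7 * d)) * y := by
      rw [← xa he (show (2 / 5 : ℝ) + -(11 * P.thp / 200 + 7 * d) =
        2 / 5 + -(11 * P.thp / 200 + 7 * d) from rfl), mul_assoc]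
      apply mul_le_mul_of_nonneg_left _ (xp he _).le
      have := norm_nonneg z1
      linarith
    have t8 : e ^ (-(P.thp / 80 + 6 * d)) / 2 ^ 40 ≤ e ^ (-(P.thp / 80 + 6 * d)) / 8 :=
      div_le_div_of_nonneg_left t6.le (by norm_num) (by norm_num)
    have t9 : (e ^ (-(P.thp / 80 + 5 * d)) + 2 * e ^ (2 / 5 : ℝ)
        + e ^ (2 / 5 + -(11 * P.thp / 200 + 7 * d)) + 1) * y ≤
        e ^ (-(P.thp / 80 + 6 * d)) * y := by
      apply mul_le_mul_of_nonneg_right _ hy0.le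
      linarith
    have t10 := mul_le_mul_of_nonneg_right t5 hy0.le
    linarith
  have hx1s' := H889.SV.mono hx1s d1 le_rfl
  have hV1 : V1 P b A1 (n + (0 + 1) * LL P e) (sj P b C1 n e (0 + 1)) e
      (n + (0 + 1 + 1) * LL P e + P.kE e) x1 (e ^ (-(P.thp / 80 + 6 * d)) * y)
      (e ^ (49 / 100 : ℝ) * y) := by
    intro _
    exact SV_V1 hx1s' (D.tv _)
  -- the second window
  obtain ⟨z2, G', hG1', hG2', hz2, hs2⟩ := D.step (j := 0 + 1) (by norm_num) (ζ := x1)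
    (Δ := e ^ (-(P.thp / 80 + 6 * d)) * y) hx1
    (hx1n.trans (sm _ (by linarith)))
    (by
      have := sm (-(P.thp / 80 + 6 * d)) (by linarith)
      linarith) (@hV1)
  have hG0' : 0 ≤ G' := (xp he _).le.trans hG1'
  have hcx2 := D.cx (show 0 + 1 + 1 ≤ 20 by norm_num)
  have hst2 := hs2 (sj P b C1 n e (0 + 1 + 1)) (yj P b n e (0 + 1 + 1)) hcx2 (D.std _).1
    (D.std _).2 (D.smono _)
  have hx1p := norm_nonneg x1
  have n2 : ‖z2‖ ≤ e ^ (-(11 * P.thp / 200 + 14 * d)) * y := by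
    have h1 := norm_up hG0' hz2
    have t1 : 1 * e ^ (-(11 * P.thp / 200 + 13 * d)) ≤
        e ^ (-(11 * P.thp / 200 + 14 * d)) / 2 ^ 40 :=
      ab he he1 hbig (by norm_num) (by linarith)
    have t2 : 2 * e ^ (-(7 * P.thp / 400 + 7 * d)) ≤
        e ^ (-(11 * P.thp / 200 + 14 * d)) / 2 ^ 40 :=
      ab he he1 hbig (by norm_num) (by linarith)
    have t3 : 1 * e ^ (2 / 5 + -(11 * P.thp / 200 + 7 * d)) ≤
        e ^ (-(11 * P.thp / 200 + 14 * d)) / 2 ^ 40 :=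
      ab he he1 hbig (by norm_num) (by linarith)
    have t4 : 1 * e ^ (2 / 5 : ℝ) ≤ e ^ (-(11 * P.thp / 200 + 14 * d)) / 2 ^ 40 :=
      ab he he1 hbig (by norm_num) (by linarith)
    have t5 : ‖x1‖ * G' ≤ e ^ (-(11 * P.thp / 200 + 13 * d)) * y := by
      calc ‖x1‖ * G' ≤ (e ^ (-(11 * P.thp / 200 + 7 * d)) * y) * e ^ (-(6 * d)) :=
            mul_le_mul hx1n hG2' hG0' (mul_nonneg (xp he _).le hy0.le)
        _ = _ := by
            rw [← xa he (show -(11 * P.thp / 200 + 7 * d) + -(6 * d) =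
              -(11 * P.thp / 200 + 13 * d) by ring)]
            ring
    have t6 : ((2 : ℝ) ^ LL P e) ^ (1 / 10 : ℝ) * (e ^ (-(P.thp / 80 + 6 * d)) * y) ≤
        e ^ (-(7 * P.thp / 400 + 7 * d)) * y := by
      rw [← mul_assoc]
      apply mul_le_mul_of_nonneg_right _ hy0.le
      exact xmul he hM10 (xp he _).le le_rfl (by ring)
    have t7 : e ^ (2 / 5 : ℝ) * ‖x1‖ ≤ e ^ (2 / 5 + -(11 * P.thp / 200 + 7 * d)) * y := by
      rw [← xa he (show (2 / 5 : ℝ) + -(11 * P.thp / 200 + 7 * d) =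
        2 / 5 + -(11 * P.thp / 200 + 7 * d) from rfl), mul_assoc]
      exact mul_le_mul_of_nonneg_left hx1n (xp he _).le
    have t8 := xp he (-(11 * P.thp / 200 + 14 * d))
    have t9 : e ^ (-(11 * P.thp / 200 + 14 * d)) / 2 ^ 40 ≤
        e ^ (-(11 * P.thp / 200 + 14 * d)) / 8 :=
      div_le_div_of_nonneg_left t8.le (by norm_num) (by norm_num)
    have t10 : (e ^ (-(11 * P.thp / 200 + 13 * d)) + 2 * e ^ (-(7 * P.thp / 400 + 7 * d))
        + e ^ (2 / 5 + -(11 * P.thp / 200 + 7 * d)) + e ^ (2 / 5 : ℝ)) * y ≤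
        e ^ (-(11 * P.thp / 200 + 14 * d)) * y := by
      apply mul_le_mul_of_nonneg_right _ hy0.le
      linarith
    linarith
  have hz2p := norm_nonneg z2
  refine ⟨z2, n2.trans (mul_le_mul_of_nonneg_right (xm he he1 (by linarith)) hy0.le), ?_⟩
  refine H889.SV.mono hst2 ?_ le_rfl
  have t1 : 1 * e ^ (P.thp / 40 - 6 * d) ≤ e ^ (P.thp / 50) / 2 ^ 40 :=
    ab he he1 hbig (by norm_num) (by linarith)
  have t2 : 3 * e ^ (2 / 5 + -(11 * P.thp / 200 + 14 * d)) ≤ e ^ (P.thp / 50) / 2 ^ 40 :=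
    ab he he1 hbig (by norm_num) (by linarith)
  have t3 : ((2 : ℝ) ^ LL P e) ^ (-(3 / 4) : ℝ) * (e ^ (-(P.thp / 80 + 6 * d)) * y) ≤
      e ^ (P.thp / 40 - 6 * d) * y := by
    rw [← mul_assoc]
    apply mul_le_mul_of_nonneg_right _ hy0.le
    exact xmul he hM34 (xp he _).le le_rfl (by ring)
  have t4 : ‖x1‖ + ‖z2‖ + y ≤ 3 * (e ^ (-(11 * P.thp / 200 + 14 * d)) * y) := by
    have h1 : e ^ (-(11 * P.thp / 200 + 7 * d)) * y ≤ e ^ (-(11 * P.thp / 200 + 14 * d)) * y :=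
      mul_le_mul_of_nonneg_right (xm he he1 (by linarith)) hy0.le
    linarith
  have t5 : e ^ (2 / 5 : ℝ) * (‖x1‖ + ‖z2‖ + y) ≤
      3 * e ^ (2 / 5 + -(11 * P.thp / 200 + 14 * d)) * y := by
    rw [← xa he (show (2 / 5 : ℝ) + -(11 * P.thp / 200 + 14 * d) =
        2 / 5 + -(11 * P.thp / 200 + 14 * d) from rfl)]
    have := mul_le_mul_of_nonneg_left t4 (xp he (2 / 5 : ℝ)).le
    linarith
  have t6 := xp he (P.thp / 50)
  have t7 : e ^ (P.thp / 50) / 2 ^ 40 ≤ e ^ (P.thp / 50) / 8 :=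
    div_le_div_of_nonneg_left t6.le (by norm_num) (by norm_num)
  have t8 : (e ^ (P.thp / 40 - 6 * d) + 3 * e ^ (2 / 5 + -(11 * P.thp / 200 + 14 * d))) * y ≤
      e ^ (P.thp / 50) * y := by
    apply mul_le_mul_of_nonneg_right _ hy0.le
    linarith
  linarith

end

end Vale.Agent.P159.H767.Pt
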