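import Vale.Agent.P159.H767.Pt1d

/-!
P159 (helper767), START, part 1 of V: the number of the massless torus, NORMAL.
-/

set_option linter.unusedSectionVars false

namespace Vale.Agent.P159.H767.Pt

open Vale.Agent.P159.TM.Spec (V)
open Vale.Agent.P159.H864 (yt yt_nonneg)
open Vale.Agent.P159.H972 (Par Good YBn lg tn)
open Vale.Agent.P159.H889 (Cx Cw SV TV VB lam nu Dc QP Mw hS CH2 lam_pos nu_pos SB)
open Vale.Agent.P159.H316

noncomputable section

variable {P : Par} {b : ℝ} {a : ℕ → ℝ} {C1 c1 A1 κ d : ℝ} {N0 n : ℕ} {e : ℝ}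

/-- all tori at a level from the base torus -/
lemma Dt.corU (D : Dt P b a C1 c1 A1 κ d N0 n e) {m : ℕ} {y : ℝ} (hm : n ≤ m)
    (hm2 : m ≤ n + 2 * P.w e) (hy : e ^ (P.thp / 40) * y0 P b n e ≤ y) (hy1 : y ≤ e ^ (1 / 4 : ℝ))
    (h : y0 P b m e ≤ y) {r : ℕ} (hr : m + P.kE e ≤ r) :
    yt (2 ^ r) b (4 * tn m) ≤ e ^ (-P.th) * y := by
  have he := D.nn.he
  have h0 : 0 < e ^ (P.thp / 40) * y0 P b n e := mul_pos (xp he _) D.y00
  have hy0 : 0 < y := lt_of_lt_of_le h0 hy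
  have h14 := xp he (1 / 4 : ℝ)
  refine D.h.cor m e y (by have := D.hn; omega) he D.nn.es (D.G m hm hm2) hy0 (by linarith) ?_ h r hr
  have h1 : Real.log (1 / y) ≤ Real.log (1 / (e ^ (P.thp / 40) * y0 P b n e)) := by
    apply Real.log_le_log (by positivity)
    exact one_div_le_one_div_of_le h0 hy
  have h2 : Real.log (1 / (e ^ (P.thp / 40) * y0 P b n e)) =
      P.thp / 40 * Real.log (1 / e) + Real.log (1 / y0 P b n e) := by
    rw [one_div, Real.log_inv, Real.log_mul (xp he _).ne' D.y00.ne', Real.log_rpow he, one_div,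
      one_div, Real.log_inv, Real.log_inv]
    ring
  have h3 := D.yl
  have h4 := D.nn.c
  have h5 := D.nn.l0
  have h6 := D.nn.tau
  have h7 : P.thp / 40 * Real.log (1 / e) ≤ 1 * Real.log (1 / e) :=
    mul_le_mul_of_nonneg_right (by linarith) h5.le
  have h8 := xp he (-c1)
  linarith

/-- the bound of the massless number by the activity of the level `n + 2 L` -/
theorem Dt.yn (D : Dt P b a C1 c1 A1 κ d N0 n e) {ζ : ℂ}
    (hS : SV P b A1 (n + 2 * LL P e) (sj P b C1 n e 2) e ζ (e ^ (P.thp / 50) * y0 P b n e)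
      (e ^ (49 / 100 : ℝ) * y0 P b n e)) :
    Yn (2 ^ (n + 2 * LL P e + P.kE e)) b ≤
      e ^ (-d) * (‖ζ‖ + e ^ (P.thp / 50 - 5 * d) * y0 P b n e) := by
  have he := D.nn.he
  have he1 := D.nn.e1
  have hbig := D.nn.big
  have hd0 := D.nn.d0
  have htau := D.nn.tau
  have hte := D.nn.tau_eq
  have hth0 := P.thp0
  have hy0 := D.y00
  have hL := LL1 P e
  have hi := D.nn.ints
  have hTT : P.TT (n + 2 * LL P e) e (n + 2 * LL P e + P.kE e) := H972.TT_base P _ e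
  have hTV : TV P (n + 2 * LL P e) e (n + 2 * LL P e + P.kE e) := ⟨le_rfl, by omega⟩
  have hV1 : V1 P b A1 (n + 2 * LL P e) (sj P b C1 n e 2) e (n + 2 * LL P e + P.kE e) ζ
      (e ^ (P.thp / 50) * y0 P b n e) (e ^ (49 / 100 : ℝ) * y0 P b n e) := by
    intro _
    exact SV_V1 hS hTV
  have hsub : n + 2 * LL P e + P.kE e - (n + 2 * LL P e) = P.kE e := by omega
  have hK := D.nn.K_hi
  have hK2 : ((2 : ℝ) ^ P.kE e) ^ 2 ≤ e ^ (-(4 * d)) := by
    rw [pow_two]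
    exact xmul he hK (by positivity) hK (by ring)
  have h4L : (4 : ℝ) ^ (2 * LL P e) ≤ e ^ (-(P.thp / 5 + d)) := by
    have h5 : (4 : ℝ) ^ (2 * LL P e) = ((2 : ℝ) ^ LL P e) ^ (4 : ℝ) := by
      rw [show (4 : ℝ) = (((2 : ℕ) : ℝ)) ^ 2 by norm_num, ← pow_mul]
      rw [show ((((2 : ℕ) : ℝ)) ^ 2 : ℝ) = ((4 : ℕ) : ℝ) by norm_num, Real.rpow_natCast]
      rw [show (((2 : ℕ) : ℝ)) = (2 : ℝ) by norm_num, ← pow_mul]
      congr 1
      ring
    rw [h5]
    exact D.nn.Mp (by norm_num) (by norm_num) (by linarith)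
  have hY0 := D.YY0
  have hY' : (4 : ℝ) ^ (2 * LL P e) * YY P b n e ≤ e ^ (-(P.thp / 5 + 2 * d)) * y0 P b n e := by
    calc (4 : ℝ) ^ (2 * LL P e) * YY P b n e
        ≤ e ^ (-(P.thp / 5 + d)) * (e ^ (-d) * y0 P b n e) :=
          mul_le_mul h4L D.YYhi hY0.le (xp he _).le
      _ = _ := by
          rw [← mul_assoc, xa he (show -(P.thp / 5 + d) + -d = -(P.thp / 5 + 2 * d) by ring)]
  have hsm : 4 * (((2 : ℝ) ^ P.kE e) ^ 2 * ((4 : ℝ) ^ (2 * LL P e) * YY P b n e)) ≤ 1 := by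
    have h1 : (4 : ℝ) ^ (2 * LL P e) * YY P b n e ≤ e ^ (25 / 47 - (P.thp / 5 + 2 * d)) := by
      refine hY'.trans ?_
      calc e ^ (-(P.thp / 5 + 2 * d)) * y0 P b n e
          ≤ e ^ (-(P.thp / 5 + 2 * d)) * e ^ (25 / 47 : ℝ) :=
            mul_le_mul_of_nonneg_left D.yup (xp he _).le
        _ = _ := xa he (by ring)
    have h2 := xmul he hK2 (mul_pos (by positivity) hY0).le h1
      (show -(4 * d) + (25 / 47 - (P.thp / 5 + 2 * d)) = 25 / 47 - P.thp / 5 - 6 * d by ring)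
    have h3 : 4 * e ^ (25 / 47 - P.thp / 5 - 6 * d) ≤ e ^ (0 : ℝ) :=
      ab' he he1 hbig (by norm_num) (by linarith)
    rw [Real.rpow_zero] at h3
    linarith
  have h := D.h.lku (n + 2 * LL P e) (sj P b C1 n e 2) (n + 2 * LL P e + P.kE e) e (yj P b n e 2)
    ((4 : ℝ) ^ (2 * LL P e) * YY P b n e) ζ (e ^ (P.thp / 50) * y0 P b n e)
    (e ^ (49 / 100 : ℝ) * y0 P b n e) (by have := D.hn; omega) (D.cx (by norm_num)) hTT (by omega)
    (D.vyj 2 le_rfl) (by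
      rw [hsub]
      linarith) (by
      intro _
      exact hV1)
  refine h.trans ?_
  have e4 : (4 : ℝ) ^ (n + 2 * LL P e + P.kE e) / 4 ^ (n + 2 * LL P e) = ((2 : ℝ) ^ P.kE e) ^ 2 := by
    rw [pow_add (4 : ℝ) (n + 2 * LL P e), mul_div_cancel_left₀ _ (by positivity),
      show (4 : ℝ) = 2 ^ 2 by norm_num, ← pow_mul, ← pow_mul]
    congr 1
    ring
  rw [e4]
  have hz := norm_nonneg ζ
  have t1 : ((2 : ℝ) ^ P.kE e) ^ 2 * (e ^ (P.thp / 50) * y0 P b n e) ≤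
      e ^ (P.thp / 50 - 4 * d) * y0 P b n e := by
    rw [← mul_assoc]
    apply mul_le_mul_of_nonneg_right _ hy0.le
    exact xmul he hK2 (xp he _).le le_rfl (by ring)
  have t2 : e ^ (10 * P.thp) * ((4 : ℝ) ^ (2 * LL P e) * YY P b n e) ≤
      e ^ (10 * P.thp - (P.thp / 5 + 2 * d)) * y0 P b n e := by
    calc e ^ (10 * P.thp) * ((4 : ℝ) ^ (2 * LL P e) * YY P b n e)
        ≤ e ^ (10 * P.thp) * (e ^ (-(P.thp / 5 + 2 * d)) * y0 P b n e) :=
          mul_le_mul_of_nonneg_left hY' (xp he _).le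
      _ = _ := by
          rw [← mul_assoc, xa he (show 10 * P.thp + -(P.thp / 5 + 2 * d) =
            10 * P.thp - (P.thp / 5 + 2 * d) by ring)]
  have t3 : 1 * e ^ (P.thp / 50 - 4 * d) ≤ e ^ (P.thp / 50 - 5 * d) / 2 ^ 40 :=
    ab he he1 hbig (by norm_num) (by linarith)
  have t4 : 1 * e ^ (10 * P.thp - (P.thp / 5 + 2 * d)) ≤ e ^ (P.thp / 50 - 5 * d) / 2 ^ 40 :=
    ab he he1 hbig (by norm_num) (by linarith)
  have t5 : 1 * e ^ (49 / 100 : ℝ) ≤ e ^ (P.thp / 50 - 5 * d) / 2 ^ 40 :=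
    ab he he1 hbig (by norm_num) (by linarith)
  have t6 := xp he (P.thp / 50 - 5 * d)
  have t7 : e ^ (P.thp / 50 - 5 * d) / 2 ^ 40 ≤ e ^ (P.thp / 50 - 5 * d) / 8 :=
    div_le_div_of_nonneg_left t6.le (by norm_num) (by norm_num)
  have t8 : (e ^ (P.thp / 50 - 4 * d) + e ^ (49 / 100 : ℝ)
      + e ^ (10 * P.thp - (P.thp / 5 + 2 * d))) * y0 P b n e ≤
      e ^ (P.thp / 50 - 5 * d) * y0 P b n e := by
    apply mul_le_mul_of_nonneg_right _ hy0.le
    linarith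
  have t9 : ‖ζ‖ + ((2 : ℝ) ^ P.kE e) ^ 2 * (e ^ (P.thp / 50) * y0 P b n e)
      + e ^ (49 / 100 : ℝ) * y0 P b n e
      + e ^ (10 * P.thp) * ((4 : ℝ) ^ (2 * LL P e) * YY P b n e) ≤
      ‖ζ‖ + e ^ (P.thp / 50 - 5 * d) * y0 P b n e := by
    linarith
  calc _ ≤ e ^ (-(κ * P.th)) * (‖ζ‖ + e ^ (P.thp / 50 - 5 * d) * y0 P b n e) :=
        mul_le_mul_of_nonneg_left t9 (xp he _).le
    _ ≤ _ := by
        apply mul_le_mul_of_nonneg_right D.nn.Lka
        have := mul_nonneg t6.le hy0.le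
        linarith

/-- the upper bound of the base numbers -/
def UU (P : Par) (b d : ℝ) (n : ℕ) (e : ℝ) (ζ : ℂ) : ℝ :=
  e ^ (-(2 * d)) * (‖ζ‖ + e ^ (P.thp / 50 - 6 * d) * y0 P b n e)

/-- **the base number of a later level** -/
theorem Dt.base (D : Dt P b a C1 c1 A1 κ d N0 n e) {ζ : ℂ}
    (hS : SV P b A1 (n + 2 * LL P e) (sj P b C1 n e 2) e ζ (e ^ (P.thp / 50) * y0 P b n e)
      (e ^ (49 / 100 : ℝ) * y0 P b n e)) {m : ℕ} (hm : n + P.w e ≤ m)
    (hm2 : m ≤ n + 20 * LL P e) : y0 P b m e ≤ UU P b d n e ζ := by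
  have he := D.nn.he
  have he1 := D.nn.e1
  have hbig := D.nn.big
  have hd0 := D.nn.d0
  have htau := D.nn.tau
  have hte := D.nn.tau_eq
  have hth0 := P.thp0
  have hy0 := D.y00
  have hL := LL1 P e
  have hi := D.nn.ints
  have hz := norm_nonneg ζ
  have hcx : Cx P b C1 c1 n (sj P b C1 n e 0) e (yj P b n e 0) := by
    have h1 := D.cx (show 0 ≤ 20 by norm_num)
    rwa [show n + 0 * LL P e = n by omega] at h1
  have hcrk := D.h.crk n m (sj P b C1 n e 0) (n + 2 * LL P e + P.kE e) e e (yj P b n e 0)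
    (YY P b n e) D.hn hcx (D.cw (by omega) (by omega) (by omega))
    (D.G m (by omega) (by omega)) (by omega) (by omega) (by omega)
    (fun r hr => D.cor hr.1)
  have hY := D.yn hS
  have h2 : (2 : ℝ) ^ (-(((m : ℝ) - n) / 20)) ≤ e ^ (P.thp / 20) := by
    apply D.nn.w20
    have : (n : ℝ) + P.w e ≤ m := by exact_mod_cast hm
    linarith
  have t6 := xp he (P.thp / 50 - 5 * d)
  have h3 : e ^ (-(κ * P.th)) * Yn (2 ^ (n + 2 * LL P e + P.kE e)) b ≤
      e ^ (-(2 * d)) * (‖ζ‖ + e ^ (P.thp / 50 - 5 * d) * y0 P b n e) := by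
    calc e ^ (-(κ * P.th)) * Yn (2 ^ (n + 2 * LL P e + P.kE e)) b
        ≤ e ^ (-(κ * P.th)) * (e ^ (-d) * (‖ζ‖ + e ^ (P.thp / 50 - 5 * d) * y0 P b n e)) :=
          mul_le_mul_of_nonneg_left hY (xp he _).le
      _ ≤ e ^ (-d) * (e ^ (-d) * (‖ζ‖ + e ^ (P.thp / 50 - 5 * d) * y0 P b n e)) := by
          apply mul_le_mul_of_nonneg_right D.nn.Lka
          have := mul_nonneg t6.le hy0.le
          exact mul_nonneg (xp he _).le (by linarith)
      _ = _ := by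
          rw [← mul_assoc, xa he (show -d + -d = -(2 * d) by ring)]
  have h4 : (2 : ℝ) ^ (-(((m : ℝ) - n) / 20)) * e ^ (-(κ * P.th)) * YY P b n e ≤
      e ^ (P.thp / 20 - 2 * d) * y0 P b n e := by
    calc (2 : ℝ) ^ (-(((m : ℝ) - n) / 20)) * e ^ (-(κ * P.th)) * YY P b n e
        ≤ e ^ (P.thp / 20) * e ^ (-d) * (e ^ (-d) * y0 P b n e) := by
          apply mul_le_mul _ D.YYhi D.YY0.le (mul_nonneg (xp he _).le (xp he _).le)
          exact mul_le_mul h2 D.nn.Lka (xp he _).le (xp he _).le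
      _ = _ := by
          rw [← xa he (show P.thp / 20 + -(2 * d) = P.thp / 20 - 2 * d by ring),
            ← xa he (show -d + -d = -(2 * d) by ring)]
          ring
  have h5 : e ^ (1 / 2 : ℝ) * yj P b n e 0 ≤ e ^ (1 / 2 - 3 * P.thp) * y0 P b n e := by
    calc e ^ (1 / 2 : ℝ) * yj P b n e 0
        ≤ e ^ (1 / 2 : ℝ) * (e ^ (-(3 * P.thp)) * y0 P b n e) :=
          mul_le_mul_of_nonneg_left (D.yjhi (by norm_num)) (xp he _).le
      _ = _ := by
          rw [← mul_assoc, xa he (show (1 / 2 : ℝ) + -(3 * P.thp) = 1 / 2 - 3 * P.thp by ring)]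
  have t1 : 1 * e ^ (P.thp / 50 - 7 * d) ≤ e ^ (P.thp / 50 - 8 * d) / 2 ^ 40 :=
    ab he he1 hbig (by norm_num) (by linarith)
  have t2 : 1 * e ^ (P.thp / 20 - 2 * d) ≤ e ^ (P.thp / 50 - 8 * d) / 2 ^ 40 :=
    ab he he1 hbig (by norm_num) (by linarith)
  have t3 : 1 * e ^ (1 / 2 - 3 * P.thp) ≤ e ^ (P.thp / 50 - 8 * d) / 2 ^ 40 :=
    ab he he1 hbig (by norm_num) (by linarith)
  have t4 := xp he (P.thp / 50 - 8 * d)
  have t5 : e ^ (P.thp / 50 - 8 * d) / 2 ^ 40 ≤ e ^ (P.thp / 50 - 8 * d) / 8 :=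
    div_le_div_of_nonneg_left t4.le (by norm_num) (by norm_num)
  have t7 : (e ^ (P.thp / 50 - 7 * d) + e ^ (P.thp / 20 - 2 * d) + e ^ (1 / 2 - 3 * P.thp))
      * y0 P b n e ≤ e ^ (P.thp / 50 - 8 * d) * y0 P b n e := by
    apply mul_le_mul_of_nonneg_right _ hy0.le
    linarith
  have t8 : e ^ (-(2 * d)) * (‖ζ‖ + e ^ (P.thp / 50 - 5 * d) * y0 P b n e) =
      e ^ (-(2 * d)) * ‖ζ‖ + e ^ (P.thp / 50 - 7 * d) * y0 P b n e := by
    rw [← xa he (show -(2 * d) + (P.thp / 50 - 5 * d) = P.thp / 50 - 7 * d by ring)]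
    ring
  have t9 : UU P b d n e ζ = e ^ (-(2 * d)) * ‖ζ‖ + e ^ (P.thp / 50 - 8 * d) * y0 P b n e := by
    unfold UU
    rw [← xa he (show -(2 * d) + (P.thp / 50 - 6 * d) = P.thp / 50 - 8 * d by ring)]
    ring
  have h6 : y0 P b m e ≤ e ^ (-(κ * P.th)) * Yn (2 ^ (n + 2 * LL P e + P.kE e)) b
      + (2 : ℝ) ^ (-(((m : ℝ) - n) / 20)) * e ^ (-(κ * P.th)) * YY P b n e
      + e ^ (1 / 2 : ℝ) * yj P b n e 0 := hcrk
  rw [t9]
  rw [t8] at h3
  linarith

/-- **NORMAL**: the lower bound of the activity of the level `n + 2 L` -/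
theorem Dt.low (D : Dt P b a C1 c1 A1 κ d N0 n e) {ζ : ℂ}
    (hζ : ‖ζ‖ ≤ e ^ (-(P.thp / 10)) * y0 P b n e)
    (hS : SV P b A1 (n + 2 * LL P e) (sj P b C1 n e 2) e ζ (e ^ (P.thp / 50) * y0 P b n e)
      (e ^ (49 / 100 : ℝ) * y0 P b n e)) :
    e ^ (P.thp / 137) * y0 P b n e ≤ ‖ζ‖ := by
  have he := D.nn.he
  have he1 := D.nn.e1
  have hbig := D.nn.big
  have hd0 := D.nn.d0
  have htau := D.nn.tau
  have hte := D.nn.tau_eq
  have hth0 := P.thp0
  have hy0 := D.y00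
  have hL := LL1 P e
  have hi := D.nn.ints
  have hz := norm_nonneg ζ
  have hb := D.base hS (m := n + P.w e) le_rfl (by omega)
  -- the base number of the smaller size
  have he2 : 0 < e / 2 := by linarith
  have hk : P.kE e ≤ P.kE (e / 2) := H972.lg_anti P.th0.le he2 (by linarith)
  have hU1 : e ^ (P.thp / 40) * y0 P b n e ≤ UU P b d n e ζ := by
    have h1 : e ^ (P.thp / 50 - 8 * d) * y0 P b n e ≤ UU P b d n e ζ := by
      unfold UU
      have h2 : e ^ (-(2 * d)) * ‖ζ‖ + e ^ (P.thp / 50 - 8 * d) * y0 P b n e =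
          e ^ (-(2 * d)) * (‖ζ‖ + e ^ (P.thp / 50 - 6 * d) * y0 P b n e) := by
        rw [← xa he (show -(2 * d) + (P.thp / 50 - 6 * d) = P.thp / 50 - 8 * d by ring)]
        ring
      rw [← h2]
      have h3 := mul_nonneg (xp he (-(2 * d))).le hz
      linarith
    refine le_trans ?_ h1
    exact mul_le_mul_of_nonneg_right (xm he he1 (by linarith)) hy0.le
  have hU2 : UU P b d n e ζ ≤ e ^ (1 / 4 : ℝ) := by
    unfold UU
    have h1 : ‖ζ‖ ≤ e ^ (25 / 47 - P.thp / 10) := by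
      refine hζ.trans ?_
      calc e ^ (-(P.thp / 10)) * y0 P b n e ≤ e ^ (-(P.thp / 10)) * e ^ (25 / 47 : ℝ) :=
            mul_le_mul_of_nonneg_left D.yup (xp he _).le
        _ = _ := xa he (by ring)
    have h2 : e ^ (P.thp / 50 - 6 * d) * y0 P b n e ≤ e ^ (25 / 47 + P.thp / 50 - 6 * d) := by
      calc e ^ (P.thp / 50 - 6 * d) * y0 P b n e ≤ e ^ (P.thp / 50 - 6 * d) * e ^ (25 / 47 : ℝ) :=
            mul_le_mul_of_nonneg_left D.yup (xp he _).le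
        _ = _ := xa he (by ring)
    have h3 : e ^ (-(2 * d)) * e ^ (25 / 47 - P.thp / 10) = e ^ (25 / 47 - P.thp / 10 - 2 * d) :=
      xa he (by ring)
    have h4 : e ^ (-(2 * d)) * e ^ (25 / 47 + P.thp / 50 - 6 * d) =
        e ^ (25 / 47 + P.thp / 50 - 8 * d) := xa he (by ring)
    have h5 : 1 * e ^ (25 / 47 - P.thp / 10 - 2 * d) ≤ e ^ (1 / 4 : ℝ) / 2 ^ 40 :=
      ab he he1 hbig (by norm_num) (by linarith)
    have h6 : 1 * e ^ (25 / 47 + P.thp / 50 - 8 * d) ≤ e ^ (1 / 4 : ℝ) / 2 ^ 40 :=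
      ab he he1 hbig (by norm_num) (by linarith)
    have h7 := xp he (1 / 4 : ℝ)
    have h8 : e ^ (1 / 4 : ℝ) / 2 ^ 40 ≤ e ^ (1 / 4 : ℝ) / 8 :=
      div_le_div_of_nonneg_left h7.le (by norm_num) (by norm_num)
    calc e ^ (-(2 * d)) * (‖ζ‖ + e ^ (P.thp / 50 - 6 * d) * y0 P b n e)
        ≤ e ^ (-(2 * d)) * (e ^ (25 / 47 - P.thp / 10) + e ^ (25 / 47 + P.thp / 50 - 6 * d)) :=
          mul_le_mul_of_nonneg_left (by linarith) (xp he _).le
      _ = e ^ (25 / 47 - P.thp / 10 - 2 * d) + e ^ (25 / 47 + P.thp / 50 - 8 * d) := by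
          rw [mul_add, h3, h4]
      _ ≤ _ := by linarith
  have hc := D.corU (m := n + P.w e) (by omega) (by omega) hU1 hU2 hb
    (r := n + P.w e + P.kE (e / 2)) (by omega)
  -- the base number does not vanish
  have hp0 : 0 < y0 P b (n + P.w e) (e / 2) := by
    rcases (y0_nonneg (P := P) D.h.b0 (n + P.w e) (e / 2)).lt_or_eq with h | h
    · exact h
    · exact (D.h.dx0 (n + P.w e) (e / 2) (by have := D.hn; omega) he2
        (by have := D.nn.es; linarith) (by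
          rw [← h, Real.zero_rpow (by norm_num)]
          exact he2.le)).1
  have hn := D.nm
  unfold Nmd at hn
  have h1 : Real.log (y0 P b n e) - 1 / 200 * P.w e < Real.log (y0 P b (n + P.w e) (e / 2)) := by
    rw [one_div, one_div (y0 P b n e), Real.log_inv, Real.log_inv] at hn
    linarith
  have h2 : y0 P b n e * Real.exp (-(1 / 200 * P.w e)) ≤ y0 P b (n + P.w e) (e / 2) := by
    have h3 : Real.log (y0 P b n e * Real.exp (-(1 / 200 * P.w e))) ≤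
        Real.log (y0 P b (n + P.w e) (e / 2)) := by
      rw [Real.log_mul hy0.ne' (Real.exp_pos _).ne', Real.log_exp]
      linarith
    exact (Real.log_le_log_iff (mul_pos hy0 (Real.exp_pos _)) hp0).1 h3
  have h3 : y0 P b n e * e ^ (P.thp / 138 + d) ≤ e ^ (-d) * UU P b d n e ζ := by
    calc y0 P b n e * e ^ (P.thp / 138 + d) ≤ y0 P b n e * Real.exp (-(1 / 200 * P.w e)) :=
          mul_le_mul_of_nonneg_left D.nn.w200 hy0.le
      _ ≤ y0 P b (n + P.w e) (e / 2) := h2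
      _ ≤ e ^ (-P.th) * UU P b d n e ζ := hc
      _ ≤ _ := by
          apply mul_le_mul_of_nonneg_right D.nn.Lth
          have := mul_pos (xp he (P.thp / 40)) hy0
          linarith
  have h4 : e ^ (-d) * UU P b d n e ζ =
      e ^ (-(3 * d)) * ‖ζ‖ + e ^ (P.thp / 50 - 9 * d) * y0 P b n e := by
    unfold UU
    rw [← xa he (show -(3 * d) + (P.thp / 50 - 6 * d) = P.thp / 50 - 9 * d by ring),
      ← xa he (show -d + -(2 * d) = -(3 * d) by ring)]
    ring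
  rw [h4] at h3
  -- multiply by `e ^ (3 d)`
  have h5 : e ^ (3 * d) * (y0 P b n e * e ^ (P.thp / 138 + d)) ≤
      e ^ (3 * d) * (e ^ (-(3 * d)) * ‖ζ‖ + e ^ (P.thp / 50 - 9 * d) * y0 P b n e) :=
    mul_le_mul_of_nonneg_left h3 (xp he _).le
  have h6 : e ^ (3 * d) * (y0 P b n e * e ^ (P.thp / 138 + d)) =
      e ^ (P.thp / 138 + 4 * d) * y0 P b n e := by
    rw [← xa he (show 3 * d + (P.thp / 138 + d) = P.thp / 138 + 4 * d by ring)]
    ring
  have h7 : e ^ (3 * d) * (e ^ (-(3 * d)) * ‖ζ‖ + e ^ (P.thp / 50 - 9 * d) * y0 P b n e) =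
      ‖ζ‖ + e ^ (P.thp / 50 - 6 * d) * y0 P b n e := by
    rw [mul_add, ← mul_assoc, xa he (show 3 * d + -(3 * d) = 0 by ring), Real.rpow_zero, one_mul,
      ← mul_assoc, xa he (show 3 * d + (P.thp / 50 - 9 * d) = P.thp / 50 - 6 * d by ring)]
  rw [h6, h7] at h5
  have t1 : 1 * e ^ (P.thp / 137) ≤ e ^ (P.thp / 138 + 4 * d) / 2 ^ 40 :=
    ab he he1 hbig (by norm_num) (by linarith)
  have t2 : 1 * e ^ (P.thp / 50 - 6 * d) ≤ e ^ (P.thp / 138 + 4 * d) / 2 ^ 40 :=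
    ab he he1 hbig (by norm_num) (by linarith)
  have t3 := xp he (P.thp / 138 + 4 * d)
  have t4 : e ^ (P.thp / 138 + 4 * d) / 2 ^ 40 ≤ e ^ (P.thp / 138 + 4 * d) / 8 :=
    div_le_div_of_nonneg_left t3.le (by norm_num) (by norm_num)
  have t5 : (e ^ (P.thp / 137) + e ^ (P.thp / 50 - 6 * d)) * y0 P b n e ≤
      e ^ (P.thp / 138 + 4 * d) * y0 P b n e := by
    apply mul_le_mul_of_nonneg_right _ hy0.le
    linarith
  linarith

end

end Vale.Agent.P159.H767.Pt
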