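import Vale.Agent.P159.H767.Pt1e

/-!
P159 (helper767), START, part 1 of V: the windows `2 -> 19`.
-/

set_option linter.unusedSectionVars false

namespace Vale.Agent.P159.H767.Pt

open Vale.Agent.P159.TM.Spec (V)
open Vale.Agent.P159.H864 (yt yt_nonneg)
open Vale.Agent.P159.H972 (Par Good YBn lg tn)
open Vale.Agent.P159.H889 (Cx Cw SV TV VB lam nu Dc QP Mw hS CH2 lam_pos nu_pos SB)
open Vale.Agent.P159.H316

noncomputable section

variable {P : Par} {b : ℝ} {a : ℕ → ℝ} {C1 c1 A1 κ d : ℝ} {N0 n : ℕ} {e : ℝ}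

/-- **one window with a large activity**: the numbers -/
theorem Dt.win (D : Dt P b a C1 c1 A1 κ d N0 n e) {j : ℕ} (hj : j ≤ 19) {ζ : ℂ} {Δ p : ℝ}
    (hz1 : e ^ (P.thp / 120) * y0 P b n e ≤ ‖ζ‖) (hz2 : ‖ζ‖ ≤ e ^ (-(P.thp / 5)) * y0 P b n e)
    (hp0 : P.thp / 100 ≤ p) (hp1 : p ≤ P.thp) (hΔ : Δ ≤ e ^ p * ‖ζ‖)
    (hS : SV P b A1 (n + j * LL P e) (sj P b C1 n e j) e ζ Δ
      (e ^ (49 / 100 : ℝ) * y0 P b n e)) :
    ∃ ζ' : ℂ, e ^ (7 * d) * ‖ζ‖ ≤ ‖ζ'‖ ∧ ‖ζ'‖ ≤ e ^ (-(7 * d)) * ‖ζ‖ ∧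
      ∀ (s' : ℕ) (y' : ℝ), Cx P b C1 c1 (n + (j + 1) * LL P e) s' e y' →
        e ^ (1 / 100 : ℝ) * yj P b n e j ≤ y' → e ^ (1 / 100 : ℝ) * y' ≤ yj P b n e j →
        sj P b C1 n e j ≤ s' →
        SV P b A1 (n + (j + 1) * LL P e) s' e ζ' (e ^ (p + P.thp / 30) * ‖ζ'‖)
          (e ^ (49 / 100 : ℝ) * y0 P b n e) := by
  have he := D.nn.he
  have he1 := D.nn.e1
  have hbig := D.nn.big
  have hd0 := D.nn.d0
  have htau := D.nn.tau
  have hte := D.nn.tau_eq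
  have hth0 := P.thp0
  have hy0 := D.y00
  have hyu := D.yup
  have hM10 : ((2 : ℝ) ^ LL P e) ^ (1 / 10 : ℝ) ≤ e ^ (-(P.thp / 200 + d)) :=
    D.nn.Mp (by norm_num) (by norm_num) (by linarith)
  have hM34 : ((2 : ℝ) ^ LL P e) ^ (-(3 / 4) : ℝ) ≤ e ^ (3 * P.thp / 80) :=
    D.nn.Mn (by norm_num) (by linarith)
  have hM34p : 0 ≤ ((2 : ℝ) ^ LL P e) ^ (-(3 / 4) : ℝ) := by positivity
  have hM10p : 0 ≤ ((2 : ℝ) ^ LL P e) ^ (1 / 10 : ℝ) := by positivity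
  have hz0 : 0 < ‖ζ‖ := lt_of_lt_of_le (mul_pos (xp he _) hy0) hz1
  have hζ : ζ ≠ 0 := norm_pos_iff.1 hz0
  have sm : ∀ q : ℝ, -(1 / 2 : ℝ) ≤ q → e ^ q * y0 P b n e ≤ 1 := by
    intro q hq
    calc e ^ q * y0 P b n e ≤ e ^ q * e ^ (25 / 47 : ℝ) :=
          mul_le_mul_of_nonneg_left hyu (xp he _).le
      _ = e ^ (q + 25 / 47) := xa he rfl
      _ ≤ e ^ (0 : ℝ) := xm he he1 (by linarith)
      _ = 1 := Real.rpow_zero _
  have hz3 : ‖ζ‖ ≤ 1 := hz2.trans (sm _ (by linarith))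
  have hp2 : e ^ p ≤ 1 := by
    have h4 := xm he he1 (show (0 : ℝ) ≤ p by linarith)
    rwa [Real.rpow_zero] at h4
  have hΔ2 : Δ ≤ 2 := by
    have h1 : e ^ p * ‖ζ‖ ≤ 1 * 1 := mul_le_mul hp2 hz3 hz0.le zero_le_one
    linarith
  have hV1 : V1 P b A1 (n + j * LL P e) (sj P b C1 n e j) e (n + (j + 1) * LL P e + P.kE e) ζ Δ
      (e ^ (49 / 100 : ℝ) * y0 P b n e) := by
    intro _
    exact SV_V1 hS (D.tv _)
  obtain ⟨z', G, hG1, hG2, hz', hst⟩ := D.step hj hζ hz3 hΔ2 (by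
    intro _
    exact hV1)
  have hG0 : 0 ≤ G := (xp he _).le.trans hG1
  -- the error of the activity
  have hyz : y0 P b n e ≤ e ^ (-(P.thp / 120)) * ‖ζ‖ := by
    have h1 := mul_le_mul_of_nonneg_left hz1 (xp he (-(P.thp / 120))).le
    rwa [← mul_assoc, xa he (show -(P.thp / 120) + P.thp / 120 = 0 by ring), Real.rpow_zero,
      one_mul] at h1
  have hR : 2 * (((2 : ℝ) ^ LL P e) ^ (1 / 10 : ℝ) * Δ)
      + e ^ (2 / 5 : ℝ) * (‖ζ‖ + y0 P b n e) ≤ e ^ (7 * d) / 4 * ‖ζ‖ := by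
    have t1 : ((2 : ℝ) ^ LL P e) ^ (1 / 10 : ℝ) * Δ ≤ e ^ (P.thp / 200 - d) * ‖ζ‖ := by
      calc ((2 : ℝ) ^ LL P e) ^ (1 / 10 : ℝ) * Δ
          ≤ ((2 : ℝ) ^ LL P e) ^ (1 / 10 : ℝ) * (e ^ p * ‖ζ‖) :=
            mul_le_mul_of_nonneg_left hΔ hM10p
        _ = ((2 : ℝ) ^ LL P e) ^ (1 / 10 : ℝ) * e ^ p * ‖ζ‖ := by ring
        _ ≤ _ := by
            apply mul_le_mul_of_nonneg_right _ hz0.le
            refine (xmul he hM10 (xp he _).le le_rfl rfl).trans (xm he he1 ?_)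
            linarith
    have t2 : e ^ (2 / 5 : ℝ) * y0 P b n e ≤ e ^ (2 / 5 - P.thp / 120) * ‖ζ‖ := by
      calc e ^ (2 / 5 : ℝ) * y0 P b n e ≤ e ^ (2 / 5 : ℝ) * (e ^ (-(P.thp / 120)) * ‖ζ‖) :=
            mul_le_mul_of_nonneg_left hyz (xp he _).le
        _ = _ := by
            rw [← mul_assoc, xa he (show (2 / 5 : ℝ) + -(P.thp / 120) = 2 / 5 - P.thp / 120 by ring)]
    have t3 : 2 * e ^ (P.thp / 200 - d) ≤ e ^ (7 * d) / 2 ^ 40 :=
      ab he he1 hbig (by norm_num) (by linarith)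
    have t4 : 1 * e ^ (2 / 5 : ℝ) ≤ e ^ (7 * d) / 2 ^ 40 :=
      ab he he1 hbig (by norm_num) (by linarith)
    have t5 : 1 * e ^ (2 / 5 - P.thp / 120) ≤ e ^ (7 * d) / 2 ^ 40 :=
      ab he he1 hbig (by norm_num) (by linarith)
    have t6 := xp he (7 * d)
    have t7 : e ^ (7 * d) / 2 ^ 40 ≤ e ^ (7 * d) / 12 :=
      div_le_div_of_nonneg_left t6.le (by norm_num) (by norm_num)
    have t8 : (2 * e ^ (P.thp / 200 - d) + e ^ (2 / 5 : ℝ) + e ^ (2 / 5 - P.thp / 120)) * ‖ζ‖ ≤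
        e ^ (7 * d) / 4 * ‖ζ‖ := by
      apply mul_le_mul_of_nonneg_right _ hz0.le
      linarith
    linarith
  have hup := norm_up hG0 hz'
  have hdn := norm_dn hG0 hz'
  have u1 : 1 * e ^ (7 * d) ≤ e ^ (6 * d) / 2 ^ 40 :=
    ab he he1 hbig (by norm_num) (by linarith)
  have u2 : 1 * e ^ (-(6 * d)) ≤ e ^ (-(7 * d)) / 2 ^ 40 :=
    ab he he1 hbig (by norm_num) (by linarith)
  have u3 : e ^ (6 * d) / 2 ^ 40 ≤ e ^ (6 * d) / 4 :=
    div_le_div_of_nonneg_left (xp he _).le (by norm_num) (by norm_num)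
  have u4 : e ^ (-(7 * d)) / 2 ^ 40 ≤ e ^ (-(7 * d)) / 4 :=
    div_le_div_of_nonneg_left (xp he _).le (by norm_num) (by norm_num)
  have u5 : e ^ (7 * d) ≤ e ^ (-(7 * d)) := xm he he1 (by linarith)
  have lo : e ^ (7 * d) * ‖ζ‖ ≤ ‖z'‖ := by
    have h1 : ‖ζ‖ * e ^ (6 * d) ≤ ‖ζ‖ * G := mul_le_mul_of_nonneg_left hG1 hz0.le
    have h2 : (2 * e ^ (7 * d)) * ‖ζ‖ ≤ e ^ (6 * d) * ‖ζ‖ := by
      apply mul_le_mul_of_nonneg_right _ hz0.le
      have := xp he (6 * d)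
      linarith
    have h3 := mul_pos (xp he (7 * d)) hz0
    linarith
  have hi : ‖z'‖ ≤ e ^ (-(7 * d)) * ‖ζ‖ := by
    have h1 : ‖ζ‖ * G ≤ ‖ζ‖ * e ^ (-(6 * d)) := mul_le_mul_of_nonneg_left hG2 hz0.le
    have h2 : (e ^ (-(6 * d)) + e ^ (7 * d) / 4) * ‖ζ‖ ≤ e ^ (-(7 * d)) * ‖ζ‖ := by
      apply mul_le_mul_of_nonneg_right _ hz0.le
      have := xp he (-(7 * d))
      linarith
    linarith
  refine ⟨z', lo, hi, fun s' y' hc h1 h2 h3 => H889.SV.mono (hst s' y' hc h1 h2 h3) ?_ le_rfl⟩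
  -- the new deviation
  have hzz : ‖ζ‖ ≤ e ^ (-(7 * d)) * ‖z'‖ := by
    have h4 := mul_le_mul_of_nonneg_left lo (xp he (-(7 * d))).le
    rwa [← mul_assoc, xa he (show -(7 * d) + 7 * d = 0 by ring), Real.rpow_zero, one_mul] at h4
  have hz'0 : 0 < ‖z'‖ := lt_of_lt_of_le (mul_pos (xp he _) hz0) lo
  have v1 : ((2 : ℝ) ^ LL P e) ^ (-(3 / 4) : ℝ) * Δ ≤ e ^ (3 * P.thp / 80 + p - 7 * d) * ‖z'‖ := by
    calc ((2 : ℝ) ^ LL P e) ^ (-(3 / 4) : ℝ) * Δ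
        ≤ ((2 : ℝ) ^ LL P e) ^ (-(3 / 4) : ℝ) * (e ^ p * (e ^ (-(7 * d)) * ‖z'‖)) := by
          apply mul_le_mul_of_nonneg_left _ hM34p
          exact hΔ.trans (mul_le_mul_of_nonneg_left hzz (xp he _).le)
      _ ≤ e ^ (3 * P.thp / 80) * (e ^ p * (e ^ (-(7 * d)) * ‖z'‖)) := by
          apply mul_le_mul_of_nonneg_right hM34
          exact mul_nonneg (xp he _).le (mul_nonneg (xp he _).le hz'0.le)
      _ = _ := by
          rw [← xa he (show (3 * P.thp / 80 + p) + -(7 * d) = 3 * P.thp / 80 + p - 7 * d by ring),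
            ← xa he (show 3 * P.thp / 80 + p = 3 * P.thp / 80 + p from rfl)]
          ring
  have v2 : e ^ (2 / 5 : ℝ) * (‖ζ‖ + ‖z'‖ + y0 P b n e) ≤
      3 * e ^ (2 / 5 - P.thp / 120 - 7 * d) * ‖z'‖ := by
    have w1 : ‖ζ‖ ≤ e ^ (-(P.thp / 120) - 7 * d) * ‖z'‖ := by
      refine hzz.trans (mul_le_mul_of_nonneg_right (xm he he1 (by linarith)) hz'0.le)
    have w2 : ‖z'‖ ≤ e ^ (-(P.thp / 120) - 7 * d) * ‖z'‖ := by
      have h4 : 1 ≤ e ^ (-(P.thp / 120) - 7 * d) :=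
        Real.one_le_rpow_of_pos_of_le_one_of_nonpos he he1 (by linarith)
      calc ‖z'‖ = 1 * ‖z'‖ := (one_mul _).symm
        _ ≤ _ := mul_le_mul_of_nonneg_right h4 hz'0.le
    have w3 : y0 P b n e ≤ e ^ (-(P.thp / 120) - 7 * d) * ‖z'‖ := by
      calc y0 P b n e ≤ e ^ (-(P.thp / 120)) * ‖ζ‖ := hyz
        _ ≤ e ^ (-(P.thp / 120)) * (e ^ (-(7 * d)) * ‖z'‖) :=
          mul_le_mul_of_nonneg_left hzz (xp he _).le
        _ = _ := by
            rw [← mul_assoc, xa he (show -(P.thp / 120) + -(7 * d) = -(P.thp / 120) - 7 * d by ring)]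
    calc e ^ (2 / 5 : ℝ) * (‖ζ‖ + ‖z'‖ + y0 P b n e)
        ≤ e ^ (2 / 5 : ℝ) * (3 * (e ^ (-(P.thp / 120) - 7 * d) * ‖z'‖)) :=
          mul_le_mul_of_nonneg_left (by linarith) (xp he _).le
      _ = _ := by
          rw [← xa he (show (2 / 5 : ℝ) + (-(P.thp / 120) - 7 * d) =
            2 / 5 - P.thp / 120 - 7 * d by ring)]
          ring
  have v3 : 1 * e ^ (3 * P.thp / 80 + p - 7 * d) ≤ e ^ (p + P.thp / 30) / 2 ^ 40 :=
    ab he he1 hbig (by norm_num) (by linarith)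
  have v4 : 3 * e ^ (2 / 5 - P.thp / 120 - 7 * d) ≤ e ^ (p + P.thp / 30) / 2 ^ 40 :=
    ab he he1 hbig (by norm_num) (by linarith)
  have v5 := xp he (p + P.thp / 30)
  have v6 : e ^ (p + P.thp / 30) / 2 ^ 40 ≤ e ^ (p + P.thp / 30) / 8 :=
    div_le_div_of_nonneg_left v5.le (by norm_num) (by norm_num)
  have v7 : (e ^ (3 * P.thp / 80 + p - 7 * d) + 3 * e ^ (2 / 5 - P.thp / 120 - 7 * d)) * ‖z'‖ ≤
      e ^ (p + P.thp / 30) * ‖z'‖ := by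
    apply mul_le_mul_of_nonneg_right _ hz'0.le
    linarith
  linarith

/-- **the windows `2 -> 2 + i`** -/
theorem Dt.iter (D : Dt P b a C1 c1 A1 κ d N0 n e) {ζ : ℂ}
    (hζ : ‖ζ‖ ≤ e ^ (-(P.thp / 10)) * y0 P b n e) (hζ2 : e ^ (P.thp / 137) * y0 P b n e ≤ ‖ζ‖)
    (hS : SV P b A1 (n + 2 * LL P e) (sj P b C1 n e 2) e ζ (e ^ (P.thp / 50) * y0 P b n e)
      (e ^ (49 / 100 : ℝ) * y0 P b n e)) (i : ℕ) (hi : i ≤ 17) :
    ∃ z : ℂ, e ^ (7 * i * d) * ‖ζ‖ ≤ ‖z‖ ∧ ‖z‖ ≤ e ^ (-(7 * i * d)) * ‖ζ‖ ∧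
      SV P b A1 (n + (2 + i) * LL P e) (sj P b C1 n e (2 + i)) e z
        (e ^ (P.thp / 100 + i * (P.thp / 30)) * ‖z‖) (e ^ (49 / 100 : ℝ) * y0 P b n e) := by
  have he := D.nn.he
  have he1 := D.nn.e1
  have hd0 := D.nn.d0
  have htau := D.nn.tau
  have hte := D.nn.tau_eq
  have hth0 := P.thp0
  have hy0 := D.y00
  induction i with
  | zero =>
    refine ⟨ζ, ?_, ?_, ?_⟩
    · simp
    · simp
    · have h1 : e ^ (P.thp / 50) * y0 P b n e ≤ e ^ (P.thp / 100 + (0 : ℕ) * (P.thp / 30)) * ‖ζ‖ := by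
        rw [Nat.cast_zero, zero_mul, add_zero]
        calc e ^ (P.thp / 50) * y0 P b n e
            ≤ e ^ (P.thp / 100 + P.thp / 137) * y0 P b n e :=
              mul_le_mul_of_nonneg_right (xm he he1 (by linarith)) hy0.le
          _ = e ^ (P.thp / 100) * (e ^ (P.thp / 137) * y0 P b n e) := by
              rw [← xa he rfl]
              ring
          _ ≤ _ := mul_le_mul_of_nonneg_left hζ2 (xp he _).le
      exact H889.SV.mono hS h1 le_rfl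
  | succ i ih =>
    obtain ⟨z, h1, h2, h3⟩ := ih (by omega)
    have hi17 : (i : ℝ) ≤ 16 := by exact_mod_cast (by omega : i ≤ 16)
    have hi0 : (0 : ℝ) ≤ i := Nat.cast_nonneg _
    have hid : 7 * (i : ℝ) * d ≤ 112 * d := by nlinarith
    have hid0 : 0 ≤ 7 * (i : ℝ) * d := by positivity
    have hit : (i : ℝ) * (P.thp / 30) ≤ 16 * (P.thp / 30) :=
      mul_le_mul_of_nonneg_right hi17 (by positivity)
    have hit0 : 0 ≤ (i : ℝ) * (P.thp / 30) := by positivity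
    have a1 : e ^ (P.thp / 120) * y0 P b n e ≤ ‖z‖ := by
      refine le_trans ?_ h1
      calc e ^ (P.thp / 120) * y0 P b n e ≤ e ^ (7 * i * d + P.thp / 137) * y0 P b n e :=
            mul_le_mul_of_nonneg_right (xm he he1 (by linarith)) hy0.le
        _ = e ^ (7 * i * d) * (e ^ (P.thp / 137) * y0 P b n e) := by
            rw [← xa he rfl]
            ring
        _ ≤ _ := mul_le_mul_of_nonneg_left hζ2 (xp he _).le
    have a2 : ‖z‖ ≤ e ^ (-(P.thp / 5)) * y0 P b n e := by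
      refine h2.trans ?_
      calc e ^ (-(7 * i * d)) * ‖ζ‖ ≤ e ^ (-(7 * i * d)) * (e ^ (-(P.thp / 10)) * y0 P b n e) :=
            mul_le_mul_of_nonneg_left hζ (xp he _).le
        _ = e ^ (-(7 * i * d) + -(P.thp / 10)) * y0 P b n e := by
            rw [← xa he rfl]
            ring
        _ ≤ _ := mul_le_mul_of_nonneg_right (xm he he1 (by linarith)) hy0.le
    obtain ⟨z', h4, h5, h6⟩ := D.win (j := 2 + i) (by omega) a1 a2
      (p := P.thp / 100 + i * (P.thp / 30)) (by linarith) (by linarith) le_rfl h3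
    have hst := h6 (sj P b C1 n e (2 + i + 1)) (yj P b n e (2 + i + 1))
      (D.cx (by omega)) (D.std _).1 (D.std _).2 (D.smono _)
    refine ⟨z', ?_, ?_, ?_⟩
    · refine le_trans ?_ h4
      calc e ^ (7 * ((i + 1 : ℕ) : ℝ) * d) * ‖ζ‖ = e ^ (7 * d) * (e ^ (7 * i * d) * ‖ζ‖) := by
            rw [← mul_assoc, xa he (show 7 * d + 7 * i * d = 7 * ((i + 1 : ℕ) : ℝ) * d by
              push_cast
              ring)]
        _ ≤ _ := mul_le_mul_of_nonneg_left h1 (xp he _).le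
    · refine h5.trans ?_
      calc e ^ (-(7 * d)) * ‖z‖ ≤ e ^ (-(7 * d)) * (e ^ (-(7 * i * d)) * ‖ζ‖) :=
            mul_le_mul_of_nonneg_left h2 (xp he _).le
        _ = _ := by
            rw [← mul_assoc, xa he (show -(7 * d) + -(7 * i * d) = -(7 * ((i + 1 : ℕ) : ℝ) * d) by
              push_cast
              ring)]
    · have e1 : P.thp / 100 + ((i + 1 : ℕ) : ℝ) * (P.thp / 30) =
          P.thp / 100 + i * (P.thp / 30) + P.thp / 30 := by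
        push_cast
        ring
      rw [e1]
      exact hst

end

end Vale.Agent.P159.H767.Pt
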