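import Vale.Agent.P159.TM.H265.TransQ

/-!
P159, module VOL (LOC10 of 145's list): the two-point kernels `H41.G` of two tori of sides
`N, M ≥ K ξ` (same coupling, same mass `ξ⁻²`, background `0`) agree up to `e^{-cK}`, with scale
invariant prefactors.

`kz G z`, `z : ℤ × ℤ`: the kernel as a function of an integer vector; `Wd r`: the window
`|z|_∞ ≤ r`.
-/

set_option linter.unusedSectionVars false

namespace Vale.Agent.P159.H767

open Finset
open Vale.Agent.P159.TM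
open Vale.Agent.P159.TM.H459 (sn sd ball)
open Vale.Agent.P159.TM.H705 (bx b0 dB pt tsn AB TT vma_cast pt_sub sn_pt_sub)
open Vale.Agent.P159.TM.H265 (HA)

noncomputable section

variable {N M : ℕ} [NeZero N] [NeZero M]

/-- the window of the integer vectors `|z|_∞ ≤ r` -/
def Wd (r : ℕ) : Finset (ℤ × ℤ) := Icc (-(r : ℤ)) r ×ˢ Icc (-(r : ℤ)) r

/-- a kernel on the torus as a function of an integer vector -/
def kz (G : ZMod N × ZMod N → ℝ) (z : ℤ × ℤ) : ℝ := G ((z.1 : ZMod N), (z.2 : ZMod N))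

/-- sup norm -/
def nz (z : ℤ × ℤ) : ℕ := max z.1.natAbs z.2.natAbs

theorem mem_Wd {r : ℕ} {z : ℤ × ℤ} : z ∈ Wd r ↔ nz z ≤ r := by
  unfold Wd nz
  rw [mem_product, mem_Icc, mem_Icc, max_le_iff]
  omega

/-- truncated sums over the torus as sums over the window -/
theorem sum_Wd {r : ℕ} (hN : 2 * (r + 1) ≤ N) (F : ℤ × ℤ → ℝ) (G : ZMod N × ZMod N → ℝ) :
    ∑ w ∈ univ.filter (fun w : ZMod N × ZMod N => sn w ≤ r),
      F (w.1.valMinAbs, w.2.valMinAbs) * G w = ∑ z ∈ Wd r, F z * kz G z := by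
  refine sum_bij (fun w _ => (w.1.valMinAbs, w.2.valMinAbs)) ?_ ?_ ?_ ?_
  · intro w hw
    exact mem_Wd.2 (mem_filter.1 hw).2
  · intro w _ w' _ h
    exact Prod.ext (ZMod.injective_valMinAbs (congrArg Prod.fst h))
      (ZMod.injective_valMinAbs (congrArg Prod.snd h))
  · intro z hz
    have hz' := mem_Wd.1 hz
    unfold nz at hz'
    rw [max_le_iff] at hz'
    have h1 := vma_cast (r := r + 1) hN (m := z.1) (by omega)
    have h2 := vma_cast (r := r + 1) hN (m := z.2) (by omega)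
    refine ⟨((z.1 : ZMod N), (z.2 : ZMod N)), ?_, ?_⟩
    · rw [mem_filter]
      refine ⟨mem_univ _, ?_⟩
      unfold sn
      rw [h1, h2, max_le_iff]
      exact hz'
    · simp only [h1, h2]
  · intro w _
    unfold kz
    simp only [ZMod.coe_valMinAbs]

/-- the displacements seen from a point `u` far from the boundary of the box -/
theorem sum_from {r n : ℕ} {u : ℕ × ℕ} (h1 : r + 1 ≤ u.1 ∧ u.1 + r < n)
    (h2 : r + 1 ≤ u.2 ∧ u.2 + r < n) (F : ℤ × ℤ → ℝ) :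
    ∑ z ∈ (bx n).filter (fun z => dB u z ≤ r), F ((z.1 : ℤ) - u.1, (z.2 : ℤ) - u.2) =
      ∑ z ∈ Wd r, F z := by
  refine sum_bij (fun z _ => ((z.1 : ℤ) - u.1, (z.2 : ℤ) - u.2)) ?_ ?_ ?_ (fun _ _ => rfl)
  · intro z hz
    exact mem_Wd.2 (mem_filter.1 hz).2
  · intro z _ z' _ h
    have e1 := congrArg Prod.fst h
    have e2 := congrArg Prod.snd h
    simp only at e1 e2
    exact Prod.ext (by omega) (by omega)
  · intro w hw
    have hw' := mem_Wd.1 hw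
    unfold nz at hw'
    rw [max_le_iff] at hw'
    refine ⟨(((u.1 : ℤ) + w.1).toNat, ((u.2 : ℤ) + w.2).toNat), ?_, ?_⟩
    · rw [mem_filter]
      unfold bx dB
      simp only [mem_product, mem_Ico, max_le_iff]
      omega
    · refine Prod.ext ?_ ?_
      · simp only
        omega
      · simp only
        omega

theorem b0_pos {K ξ : ℕ} (hK : 8 ≤ K) (hξ : 1 ≤ ξ) : 0 < ((b0 (K * ξ) ξ).card : ℝ) := by
  have h8 : 8 * ξ ≤ K * ξ := Nat.mul_le_mul_right ξ hK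
  have : (b0 (K * ξ) ξ).Nonempty := by
    refine ⟨(K * ξ / 2, K * ξ / 2), ?_⟩
    unfold b0 bx dB
    simp only [mem_filter, mem_product, mem_Ico, sub_self, Int.natAbs_zero, max_self]
    omega
  exact_mod_cast this.card_pos

/-- **two-sided comparison of two kernels which dominate the same box kernel** -/
theorem vol_kernel {ξ K : ℕ} (hK : 8 ≤ K) (hξ : 1 ≤ ξ)
    {G : ZMod N × ZMod N → ℝ} {G' : ZMod M × ZMod M → ℝ}
    (A : ℕ × ℕ → ℕ × ℕ → ℝ)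
    (hA : ∀ u ∈ bx (K * ξ), ∀ z ∈ bx (K * ξ), A u z ≤ G (pt N z - pt N u))
    (hA' : ∀ u ∈ bx (K * ξ), ∀ z ∈ bx (K * ξ), A u z ≤ G' (pt M z - pt M u))
    {S e1 e1' : ℝ}
    (h1 : ∑ u ∈ b0 (K * ξ) ξ, ∑ z ∈ (bx (K * ξ)).filter (fun z => dB u z ≤ K * ξ / 4),
      (G (pt N z - pt N u) - A u z) ≤ ((b0 (K * ξ) ξ).card : ℝ) * S * e1)
    (h1' : ∑ u ∈ b0 (K * ξ) ξ, ∑ z ∈ (bx (K * ξ)).filter (fun z => dB u z ≤ K * ξ / 4),
      (G' (pt M z - pt M u) - A u z) ≤ ((b0 (K * ξ) ξ).card : ℝ) * S * e1') :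
    ∑ z ∈ Wd (K * ξ / 4), |kz G z - kz G' z| ≤ S * (e1 + e1') := by
  have hcard := b0_pos (ξ := ξ) hK hξ
  have h8 : 8 * ξ ≤ K * ξ := Nat.mul_le_mul_right ξ hK
  set n := K * ξ with hn
  set R := n / 4 with hR
  have hu : ∀ u ∈ b0 n ξ, (R + 1 ≤ u.1 ∧ u.1 + R < n) ∧ (R + 1 ≤ u.2 ∧ u.2 + R < n) := by
    intro u hu
    have := (mem_filter.1 hu).2
    unfold dB at this
    rw [max_le_iff] at this
    simp only at this
    omega
  have h2 : ((b0 n ξ).card : ℝ) * ∑ z ∈ Wd R, |kz G z - kz G' z| ≤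
      ((b0 n ξ).card : ℝ) * (S * (e1 + e1')) := by
    calc ((b0 n ξ).card : ℝ) * ∑ z ∈ Wd R, |kz G z - kz G' z|
        = ∑ u ∈ b0 n ξ, ∑ z ∈ Wd R, |kz G z - kz G' z| := by
          rw [sum_const, nsmul_eq_mul]
      _ = ∑ u ∈ b0 n ξ, ∑ z ∈ (bx n).filter (fun z => dB u z ≤ R),
            |G (pt N z - pt N u) - G' (pt M z - pt M u)| := by
          refine sum_congr rfl fun u hub => ?_
          rw [← sum_from (hu u hub).1 (hu u hub).2 fun z => |kz G z - kz G' z|]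
          refine sum_congr rfl fun z _ => ?_
          rw [pt_sub, pt_sub]
          rfl
      _ ≤ ∑ u ∈ b0 n ξ, ∑ z ∈ (bx n).filter (fun z => dB u z ≤ R),
            ((G (pt N z - pt N u) - A u z) + (G' (pt M z - pt M u) - A u z)) := by
          refine sum_le_sum fun u hub => sum_le_sum fun z hz => ?_
          have k1 := hA u (mem_filter.1 hub).1 z (mem_filter.1 hz).1
          have k2 := hA' u (mem_filter.1 hub).1 z (mem_filter.1 hz).1
          rw [abs_le]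
          constructor <;> linarith
      _ ≤ ((b0 n ξ).card : ℝ) * (S * (e1 + e1')) := by
          simp only [sum_add_distrib]
          linarith
  exact le_of_mul_le_mul_left h2 hcard

/-- the loss in the box, `e₁ = √C K e^c e^{-cK/4}` -/
def ek (c C : ℝ) (K : ℕ) : ℝ := √C * K * Real.exp c * Real.exp (-(c * K / 4))

/-- the tail, `e₂ = √C (N/ξ) e^c e^{-cK/8}` -/
def et (c C : ℝ) (K n : ℕ) : ℝ := √C * n * Real.exp c * Real.exp (-(c * K / 8))

theorem ek_nonneg {c C : ℝ} {K : ℕ} : 0 ≤ ek c C K := by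
  unfold ek
  have := Real.sqrt_nonneg C
  positivity

theorem et_nonneg {c C : ℝ} {K n : ℕ} : 0 ≤ et c C K n := by
  unfold et
  have := Real.sqrt_nonneg C
  positivity

variable {b : ℝ} {ξ : ℕ} {y y' c C : ℝ}

/-- **(VOL1)**, near part -/
theorem vol1 (hb : 0 ≤ b) (hξ : 1 ≤ ξ) (hc : 0 ≤ c) (hC : 0 ≤ C) (hy : 0 ≤ y) (hy' : 0 ≤ y')
    (hA : HA N b ξ hb y c C) (hA' : HA M b ξ hb y' c C) {K : ℕ} (hK : 8 ≤ K)
    (hKN : K * ξ ≤ N) (hKM : K * ξ ≤ M) (hKy : (K : ℝ) * y ≤ 2 * c)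
    (hKy' : (K : ℝ) * y' ≤ 2 * c) :
    ∑ z ∈ Wd (K * ξ / 4), |kz (H41.G b N (ξ : ℝ)) z - kz (H41.G b M (ξ : ℝ)) z| ≤
      (ξ : ℝ) ^ 2 * (2 * ek c C K) := by
  have hξ' : (0 : ℝ) < ξ := by exact_mod_cast hξ
  have h1 := H265.v1 hb hξ hc hC hy hA hK hKN hKy
  have h2 := H265.v1 hb hξ hc hC hy' hA' hK hKM hKy'
  have h3 : ∀ u ∈ b0 (K * ξ) ξ, ∀ z ∈ (bx (K * ξ)).filter (fun z => dB u z ≤ K * ξ / 4),
      AB M b (ξ : ℝ) (K * ξ) u z = AB N b (ξ : ℝ) (K * ξ) u z := fun u hu z hz =>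
    H705.AB_eq hKM hKN hb _ (mem_filter.1 hu).1 (mem_filter.1 hz).1
  have h2' : ∑ u ∈ b0 (K * ξ) ξ, ∑ z ∈ (bx (K * ξ)).filter (fun z => dB u z ≤ K * ξ / 4),
      (H41.G b M (ξ : ℝ) (pt M z - pt M u) - AB N b (ξ : ℝ) (K * ξ) u z) ≤
        ((b0 (K * ξ) ξ).card : ℝ) * (ξ : ℝ) ^ 2 * ek c C K := by
    refine le_trans (le_of_eq ?_) h2
    refine sum_congr rfl fun u hu => sum_congr rfl fun z hz => ?_
    rw [h3 u hu z hz]
  have h := vol_kernel (N := N) (M := M) (G := H41.G b N (ξ : ℝ)) (G' := H41.G b M (ξ : ℝ))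
    hK hξ (AB N b (ξ : ℝ) (K * ξ)) (fun u _ z _ => H705.AB_le hb hξ' u z)
    (fun u hu z hz => H705.AB_le' hKN hKM hb hξ' hu hz) h1 h2'
  refine h.trans (le_of_eq ?_)
  unfold ek
  ring

/-- **(VOL1)**, tail -/
theorem vol_tail (hb : 0 ≤ b) (hξ : 1 ≤ ξ) (hc : 0 < c) (hC : 0 ≤ C) (hy : 0 ≤ y)
    (hA : HA N b ξ hb y c C) {K n : ℕ} (hK : 8 ≤ K) (hKn : K ≤ n) (hN : N = n * ξ)
    (hKy : (K : ℝ) * y ≤ 4 * c) :
    ∑ w ∈ univ.filter (fun w : ZMod N × ZMod N => K * ξ / 4 < sn w), H41.G b N (ξ : ℝ) w ≤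
      (ξ : ℝ) ^ 2 * et c C K n :=
  H265.tail_h2 hb hξ hc hC hy hA hK hKn hN hKy

end

end Vale.Agent.P159.H767
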