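import Vale.Agent.P159.H767.Vol1

/-!
P159, module VOL2: momentum space form of VOL1. `full N G φ = ∑_w φ(w̃) G(w)`, `w̃` the representative
of least absolute value; `TT G θ₁ θ₂ = ∑_w G(w) cos(θ·w̃)` for ALL real `θ`.
-/

set_option linter.unusedSectionVars false

namespace Vale.Agent.P159.H767

open Finset
open Vale.Agent.P159.TM
open Vale.Agent.P159.TM.H459 (sn sd ball)
open Vale.Agent.P159.TM.H705 (TT)
open Vale.Agent.P159.TM.H265 (HA)

noncomputable section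

variable {N M : ℕ} [NeZero N] [NeZero M]

/-- sum of the kernel against a function of the representative of least absolute value -/
def full (G : ZMod N × ZMod N → ℝ) (φ : ℤ × ℤ → ℝ) : ℝ :=
  ∑ w, φ (w.1.valMinAbs, w.2.valMinAbs) * G w

theorem full_split {r : ℕ} (hN : 2 * (r + 1) ≤ N) (G : ZMod N × ZMod N → ℝ) (φ : ℤ × ℤ → ℝ) :
    full G φ = ∑ z ∈ Wd r, φ z * kz G z +
      ∑ w ∈ univ.filter (fun w : ZMod N × ZMod N => r < sn w),
        φ (w.1.valMinAbs, w.2.valMinAbs) * G w := by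
  unfold full
  rw [← sum_Wd hN, ← sum_filter_add_sum_filter_not univ (fun w : ZMod N × ZMod N => sn w ≤ r)]
  simp only [not_le]

theorem nz_vma (w : ZMod N × ZMod N) : nz (w.1.valMinAbs, w.2.valMinAbs) = sn w := rfl

theorem sn_le_half (w : ZMod N × ZMod N) : 2 * sn w ≤ N := by
  unfold sn
  have h1 := ZMod.natAbs_valMinAbs_le w.1
  have h2 := ZMod.natAbs_valMinAbs_le w.2
  omega

/-- comparison of two full sums: near part and tails -/
theorem full_cmp {r : ℕ} (hN : 2 * (r + 1) ≤ N) (hM : 2 * (r + 1) ≤ M)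
    {G : ZMod N × ZMod N → ℝ} {G' : ZMod M × ZMod M → ℝ} (pos : ∀ w, 0 ≤ G w)
    (pos' : ∀ w, 0 ≤ G' w) (φ : ℤ × ℤ → ℝ) {B BN BM d e e' : ℝ}
    (hB0 : 0 ≤ B) (hBN0 : 0 ≤ BN) (hBM0 : 0 ≤ BM)
    (hB : ∀ z, nz z ≤ r → |φ z| ≤ B) (hBN : ∀ z, 2 * nz z ≤ N → |φ z| ≤ BN)
    (hBM : ∀ z, 2 * nz z ≤ M → |φ z| ≤ BM)
    (hd : ∑ z ∈ Wd r, |kz G z - kz G' z| ≤ d)
    (he : ∑ w ∈ univ.filter (fun w : ZMod N × ZMod N => r < sn w), G w ≤ e)
    (he' : ∑ w ∈ univ.filter (fun w : ZMod M × ZMod M => r < sn w), G' w ≤ e') :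
    |full G φ - full G' φ| ≤ B * d + BN * e + BM * e' := by
  rw [full_split hN, full_split hM]
  have h1 : |∑ z ∈ Wd r, φ z * kz G z - ∑ z ∈ Wd r, φ z * kz G' z| ≤ B * d := by
    rw [← sum_sub_distrib]
    refine (abs_sum_le_sum_abs _ _).trans ?_
    refine le_trans ?_ (mul_le_mul_of_nonneg_left hd hB0)
    rw [mul_sum]
    refine sum_le_sum fun z hz => ?_
    rw [← mul_sub, abs_mul]
    exact mul_le_mul_of_nonneg_right (hB z (mem_Wd.1 hz)) (abs_nonneg _)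
  have h2 : |∑ w ∈ univ.filter (fun w : ZMod N × ZMod N => r < sn w),
      φ (w.1.valMinAbs, w.2.valMinAbs) * G w| ≤ BN * e := by
    refine (abs_sum_le_sum_abs _ _).trans ?_
    refine le_trans ?_ (mul_le_mul_of_nonneg_left he hBN0)
    rw [mul_sum]
    refine sum_le_sum fun w _ => ?_
    rw [abs_mul, abs_of_nonneg (pos w)]
    exact mul_le_mul_of_nonneg_right (hBN _ (sn_le_half w)) (pos w)
  have h3 : |∑ w ∈ univ.filter (fun w : ZMod M × ZMod M => r < sn w),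
      φ (w.1.valMinAbs, w.2.valMinAbs) * G' w| ≤ BM * e' := by
    refine (abs_sum_le_sum_abs _ _).trans ?_
    refine le_trans ?_ (mul_le_mul_of_nonneg_left he' hBM0)
    rw [mul_sum]
    refine sum_le_sum fun w _ => ?_
    rw [abs_mul, abs_of_nonneg (pos' w)]
    exact mul_le_mul_of_nonneg_right (hBM _ (sn_le_half w)) (pos' w)
  rw [abs_le] at h1 h2 h3 ⊢
  constructor <;> linarith [h1.1, h1.2, h2.1, h2.2, h3.1, h3.2]

theorem TT_full (G : ZMod N × ZMod N → ℝ) (θ₁ θ₂ : ℝ) :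
    TT G θ₁ θ₂ = full G fun z => Real.cos (θ₁ * z.1 + θ₂ * z.2) := by
  unfold TT full
  exact sum_congr rfl fun w _ => mul_comm _ _

theorem TT_zero_sub (G : ZMod N × ZMod N → ℝ) (θ₁ θ₂ : ℝ) :
    TT G 0 0 - TT G θ₁ θ₂ = full G fun z => 1 - Real.cos (θ₁ * z.1 + θ₂ * z.2) := by
  unfold TT full
  rw [← sum_sub_distrib]
  refine sum_congr rfl fun w _ => ?_
  simp only [zero_mul, add_zero, Real.cos_zero]
  ring

theorem one_sub_cos_le_nz (θ₁ θ₂ : ℝ) (z : ℤ × ℤ) :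
    |1 - Real.cos (θ₁ * z.1 + θ₂ * z.2)| ≤ (|θ₁| + |θ₂|) ^ 2 * (nz z : ℝ) ^ 2 / 2 := by
  rw [abs_of_nonneg (sub_nonneg.2 (Real.cos_le_one _))]
  have h1 := Real.one_sub_sq_div_two_le_cos (x := θ₁ * z.1 + θ₂ * z.2)
  have h2 : |θ₁ * (z.1 : ℝ) + θ₂ * z.2| ≤ (|θ₁| + |θ₂|) * (nz z : ℝ) := by
    refine (abs_add_le _ _).trans ?_
    rw [abs_mul, abs_mul, add_mul]
    have k1 : |(z.1 : ℝ)| ≤ (nz z : ℝ) := by
      have : |(z.1 : ℝ)| = (z.1.natAbs : ℝ) := by rw [Nat.cast_natAbs, Int.cast_abs]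
      rw [this]
      exact_mod_cast le_max_left _ _
    have k2 : |(z.2 : ℝ)| ≤ (nz z : ℝ) := by
      have : |(z.2 : ℝ)| = (z.2.natAbs : ℝ) := by rw [Nat.cast_natAbs, Int.cast_abs]
      rw [this]
      exact_mod_cast le_max_right _ _
    gcongr
  have h3 : (θ₁ * (z.1 : ℝ) + θ₂ * z.2) ^ 2 ≤ ((|θ₁| + |θ₂|) * (nz z : ℝ)) ^ 2 := by
    rw [← sq_abs]
    exact pow_le_pow_left₀ (abs_nonneg _) h2 2
  rw [mul_pow] at h3
  linarith

/-! ### the exponentially small constants -/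

/-- all errors are `VC c C * e^{-cK/32}` -/
def VC (c C : ℝ) : ℝ := √C * Real.exp c * (1 + 8 / c + 3072 / c ^ 3)

/-- the error of the volume transfer -/
def ev (c C : ℝ) (K : ℕ) : ℝ := VC c C * Real.exp (-(c * K / 32))

theorem VC_nonneg {c C : ℝ} (hc : 0 < c) : 0 ≤ VC c C := by
  unfold VC
  have := Real.sqrt_nonneg C
  positivity

theorem ev_nonneg {c C : ℝ} (hc : 0 < c) (K : ℕ) : 0 ≤ ev c C K :=
  mul_nonneg (VC_nonneg hc) (Real.exp_pos _).le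

theorem pow_exp_le {c : ℝ} (hc : 0 < c) (K : ℕ) (m : ℕ) :
    (K : ℝ) ^ m * Real.exp (-(c * K / 8)) ≤ (m.factorial : ℝ) * (8 / c) ^ m := by
  have hf : (0 : ℝ) < (m.factorial : ℝ) := by exact_mod_cast m.factorial_pos
  have h := Real.pow_div_factorial_le_exp (c * K / 8) (by positivity) m
  rw [div_le_iff₀ hf] at h
  have h1 : (K : ℝ) ^ m = (c * K / 8) ^ m * (8 / c) ^ m := by
    rw [← mul_pow]
    congr 1
    field_simp
  rw [h1]
  have h2 : Real.exp (c * K / 8) * Real.exp (-(c * K / 8)) = 1 := by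
    rw [← Real.exp_add, add_neg_cancel, Real.exp_zero]
  calc (c * K / 8) ^ m * (8 / c) ^ m * Real.exp (-(c * K / 8))
      ≤ (Real.exp (c * K / 8) * (m.factorial : ℝ)) * (8 / c) ^ m * Real.exp (-(c * K / 8)) := by
        gcongr
    _ = (m.factorial : ℝ) * (8 / c) ^ m *
          (Real.exp (c * K / 8) * Real.exp (-(c * K / 8))) := by ring
    _ = _ := by rw [h2, mul_one]

theorem ek_le {c C : ℝ} (hc : 0 < c) (K : ℕ) : ek c C K ≤ ev c C K := by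
  have h1 := pow_exp_le hc K 1
  simp only [pow_one, Nat.factorial_one, Nat.cast_one, one_mul] at h1
  have hs := Real.sqrt_nonneg C
  have h2 : Real.exp (-(c * K / 4)) = Real.exp (-(c * K / 8)) * Real.exp (-(c * K / 8)) := by
    rw [← Real.exp_add]
    congr 1
    ring
  have h3 : Real.exp (-(c * K / 8)) ≤ Real.exp (-(c * K / 32)) := by
    refine Real.exp_le_exp.2 ?_
    have : 0 ≤ c * K := by positivity
    linarith
  unfold ek ev VC
  rw [h2]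
  calc √C * K * Real.exp c * (Real.exp (-(c * K / 8)) * Real.exp (-(c * K / 8)))
      = √C * Real.exp c * (K * Real.exp (-(c * K / 8))) * Real.exp (-(c * K / 8)) := by ring
    _ ≤ √C * Real.exp c * (8 / c) * Real.exp (-(c * K / 32)) := by gcongr
    _ ≤ √C * Real.exp c * (1 + 8 / c + 3072 / c ^ 3) * Real.exp (-(c * K / 32)) := by
        refine mul_le_mul_of_nonneg_right (mul_le_mul_of_nonneg_left ?_ (by positivity))
          (Real.exp_pos _).le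
        have : 0 < 3072 / c ^ 3 := by positivity
        linarith

theorem ek_sq_le {c C : ℝ} (hc : 0 < c) (K : ℕ) : (K : ℝ) ^ 2 * ek c C K ≤ ev c C K := by
  have h1 := pow_exp_le hc K 3
  have hs := Real.sqrt_nonneg C
  have h2 : Real.exp (-(c * K / 4)) = Real.exp (-(c * K / 8)) * Real.exp (-(c * K / 8)) := by
    rw [← Real.exp_add]
    congr 1
    ring
  have h3 : Real.exp (-(c * K / 8)) ≤ Real.exp (-(c * K / 32)) := by
    refine Real.exp_le_exp.2 ?_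
    have : 0 ≤ c * K := by positivity
    linarith
  have h4 : ((3 : ℕ).factorial : ℝ) * (8 / c) ^ 3 = 3072 / c ^ 3 := by
    rw [div_pow]
    norm_num [Nat.factorial]
    ring
  rw [h4] at h1
  unfold ek ev VC
  rw [h2]
  calc (K : ℝ) ^ 2 * (√C * K * Real.exp c * (Real.exp (-(c * K / 8)) * Real.exp (-(c * K / 8))))
      = √C * Real.exp c * ((K : ℝ) ^ 3 * Real.exp (-(c * K / 8))) * Real.exp (-(c * K / 8)) := by
        ring
    _ ≤ √C * Real.exp c * (3072 / c ^ 3) * Real.exp (-(c * K / 32)) := by gcongr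
    _ ≤ √C * Real.exp c * (1 + 8 / c + 3072 / c ^ 3) * Real.exp (-(c * K / 32)) := by
        refine mul_le_mul_of_nonneg_right (mul_le_mul_of_nonneg_left ?_ (by positivity))
          (Real.exp_pos _).le
        have : 0 < 8 / c := by positivity
        linarith

/-- tori of side at most `ξ e^{cK/32}` -/
theorem et_le {c C : ℝ} (hc : 0 < c) {K n : ℕ} (hn1 : 1 ≤ n)
    (hn : (n : ℝ) ≤ Real.exp (c * K / 32)) : (n : ℝ) ^ 2 * et c C K n ≤ ev c C K ∧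
      et c C K n ≤ ev c C K := by
  have hs := Real.sqrt_nonneg C
  have hn0 : (1 : ℝ) ≤ (n : ℝ) := by exact_mod_cast hn1
  have h1 : (n : ℝ) ^ 2 * et c C K n ≤ ev c C K := by
    have h3 : (n : ℝ) ^ 3 ≤ Real.exp (c * K / 32) ^ 3 := pow_le_pow_left₀ (by positivity) hn 3
    have h4 : Real.exp (c * K / 32) ^ 3 * Real.exp (-(c * K / 8)) =
        Real.exp (-(c * K / 32)) := by
      rw [← Real.exp_nat_mul, ← Real.exp_add]
      congr 1
      push_cast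
      ring
    unfold et ev VC
    calc (n : ℝ) ^ 2 * (√C * n * Real.exp c * Real.exp (-(c * K / 8)))
        = √C * Real.exp c * ((n : ℝ) ^ 3 * Real.exp (-(c * K / 8))) := by ring
      _ ≤ √C * Real.exp c * (Real.exp (c * K / 32) ^ 3 * Real.exp (-(c * K / 8))) := by gcongr
      _ = √C * Real.exp c * 1 * Real.exp (-(c * K / 32)) := by rw [h4]; ring
      _ ≤ √C * Real.exp c * (1 + 8 / c + 3072 / c ^ 3) * Real.exp (-(c * K / 32)) := by
          refine mul_le_mul_of_nonneg_right (mul_le_mul_of_nonneg_left ?_ (by positivity))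
            (Real.exp_pos _).le
          have : 0 < 8 / c := by positivity
          have : 0 < 3072 / c ^ 3 := by positivity
          linarith
  refine ⟨h1, le_trans ?_ h1⟩
  have h5 : 0 ≤ et c C K n := et_nonneg
  nlinarith [one_le_pow₀ (n := 2) hn0]

/-! ### the model -/

variable {b : ℝ} {ξ : ℕ} {y y' c C : ℝ}

/-- the hypotheses of the volume transfer, one torus: Theorem A (1), `K ξ ≤ N = n ξ ≤ ξ e^{cK/32}` -/
structure VT (N : ℕ) [NeZero N] (b : ℝ) (ξ : ℕ) (hb : 0 ≤ b) (c C : ℝ) (K : ℕ) (y : ℝ) (n : ℕ) :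
    Prop where
  hy : 0 ≤ y
  hA : HA N b ξ hb y c C
  hN : N = n * ξ
  hKn : K ≤ n
  hn : (n : ℝ) ≤ Real.exp (c * K / 32)
  hKy : (K : ℝ) * y ≤ 2 * c

theorem VT.KN {hb : 0 ≤ b} {K n : ℕ} (h : VT N b ξ hb c C K y n) : K * ξ ≤ N := by
  rw [h.hN]
  exact Nat.mul_le_mul_right ξ h.hKn

/-- **(VOL1)** near part, one constant -/
theorem vol1' {hb : 0 ≤ b} (hξ : 1 ≤ ξ) (hc : 0 < c) (hC : 0 ≤ C) {K n m : ℕ} (hK : 8 ≤ K)
    (h : VT N b ξ hb c C K y n) (h' : VT M b ξ hb c C K y' m) :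
    ∑ z ∈ Wd (K * ξ / 4), |kz (H41.G b N (ξ : ℝ)) z - kz (H41.G b M (ξ : ℝ)) z| ≤
      (ξ : ℝ) ^ 2 * (2 * ev c C K) := by
  refine (vol1 hb hξ hc.le hC h.hy h'.hy h.hA h'.hA hK h.KN h'.KN h.hKy h'.hKy).trans ?_
  have := ek_le (C := C) hc K
  gcongr

/-- **(VOL2)** general form: bounded test functions -/
theorem vol2 {hb : 0 ≤ b} (hξ : 1 ≤ ξ) (hc : 0 < c) (hC : 0 ≤ C) {K n m : ℕ} (hK : 8 ≤ K)
    (h : VT N b ξ hb c C K y n) (h' : VT M b ξ hb c C K y' m) {φ : ℤ × ℤ → ℝ} {B : ℝ}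
    (hB0 : 0 ≤ B) (hB : ∀ z, |φ z| ≤ B) :
    |full (H41.G b N (ξ : ℝ)) φ - full (H41.G b M (ξ : ℝ)) φ| ≤
      B * (ξ : ℝ) ^ 2 * (4 * ev c C K) := by
  have hξ' : (0 : ℝ) < ξ := by exact_mod_cast hξ
  have h8 : 8 * ξ ≤ K * ξ := Nat.mul_le_mul_right ξ hK
  have hN := h.KN
  have hM := h'.KN
  have k4 : (K : ℝ) * y ≤ 4 * c := by linarith [h.hKy]
  have k4' : (K : ℝ) * y' ≤ 4 * c := by linarith [h'.hKy]
  have t1 := vol_tail hb hξ hc hC h.hy h.hA hK h.hKn h.hN k4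
  have t2 := vol_tail hb hξ hc hC h'.hy h'.hA hK h'.hKn h'.hN k4'
  have e1 := (et_le (C := C) hc (by have := h.hKn; omega) h.hn).2
  have e2 := (et_le (C := C) hc (by have := h'.hKn; omega) h'.hn).2
  have hf := full_cmp (r := K * ξ / 4) (by omega) (by omega) (H41.G_nonneg (N := N) hb hξ')
    (H41.G_nonneg (N := M) hb hξ') φ hB0 hB0 hB0 (fun z _ => hB z) (fun z _ => hB z)
    (fun z _ => hB z) (vol1' hξ hc hC hK h h') t1 t2
  refine hf.trans ?_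
  have hx : 0 ≤ B * (ξ : ℝ) ^ 2 := by positivity
  have a1 := mul_le_mul_of_nonneg_left e1 hx
  have a2 := mul_le_mul_of_nonneg_left e2 hx
  nlinarith

/-- **(VOL2)** the transform at any real wave number -/
theorem vol2_TT {hb : 0 ≤ b} (hξ : 1 ≤ ξ) (hc : 0 < c) (hC : 0 ≤ C) {K n m : ℕ} (hK : 8 ≤ K)
    (h : VT N b ξ hb c C K y n) (h' : VT M b ξ hb c C K y' m) (θ₁ θ₂ : ℝ) :
    |TT (H41.G b N (ξ : ℝ)) θ₁ θ₂ - TT (H41.G b M (ξ : ℝ)) θ₁ θ₂| ≤
      (ξ : ℝ) ^ 2 * (4 * ev c C K) := by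
  rw [TT_full, TT_full]
  have := vol2 hξ hc hC hK h h' (φ := fun z => Real.cos (θ₁ * z.1 + θ₂ * z.2)) (B := 1)
    zero_le_one fun z => Real.abs_cos_le_one _
  rwa [one_mul] at this

/-- **(VOL2)** second order form -/
theorem vol2_sec {hb : 0 ≤ b} (hξ : 1 ≤ ξ) (hc : 0 < c) (hC : 0 ≤ C) {K n m : ℕ} (hK : 8 ≤ K)
    (h : VT N b ξ hb c C K y n) (h' : VT M b ξ hb c C K y' m) (θ₁ θ₂ : ℝ) :
    |(TT (H41.G b N (ξ : ℝ)) 0 0 - TT (H41.G b N (ξ : ℝ)) θ₁ θ₂) -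
      (TT (H41.G b M (ξ : ℝ)) 0 0 - TT (H41.G b M (ξ : ℝ)) θ₁ θ₂)| ≤
      (|θ₁| + |θ₂|) ^ 2 * (ξ : ℝ) ^ 4 * ev c C K := by
  have hξ' : (0 : ℝ) < ξ := by exact_mod_cast hξ
  have h8 : 8 * ξ ≤ K * ξ := Nat.mul_le_mul_right ξ hK
  have hN := h.KN
  have hM := h'.KN
  have k4 : (K : ℝ) * y ≤ 4 * c := by linarith [h.hKy]
  have k4' : (K : ℝ) * y' ≤ 4 * c := by linarith [h'.hKy]
  have t1 := vol_tail hb hξ hc hC h.hy h.hA hK h.hKn h.hN k4
  have t2 := vol_tail hb hξ hc hC h'.hy h'.hA hK h'.hKn h'.hN k4'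
  have e0 := ek_sq_le (C := C) hc K
  have e1 := (et_le (C := C) hc (by have := h.hKn; omega) h.hn).1
  have e2 := (et_le (C := C) hc (by have := h'.hKn; omega) h'.hn).1
  have hs := vol1 hb hξ hc.le hC h.hy h'.hy h.hA h'.hA hK h.KN h'.KN h.hKy h'.hKy
  set s := (|θ₁| + |θ₂|) ^ 2 with hs0
  have hsn : 0 ≤ s := sq_nonneg _
  have hphi : ∀ (L : ℝ) (z : ℤ × ℤ), (nz z : ℝ) ≤ L →
      |1 - Real.cos (θ₁ * z.1 + θ₂ * z.2)| ≤ s * L ^ 2 / 2 := by
    intro L z hz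
    refine (one_sub_cos_le_nz θ₁ θ₂ z).trans ?_
    have : (nz z : ℝ) ^ 2 ≤ L ^ 2 := pow_le_pow_left₀ (Nat.cast_nonneg _) hz 2
    have := mul_le_mul_of_nonneg_left this hsn
    linarith
  have hf := full_cmp (r := K * ξ / 4) (by omega) (by omega) (H41.G_nonneg (N := N) hb hξ')
    (H41.G_nonneg (N := M) hb hξ') (fun z => 1 - Real.cos (θ₁ * z.1 + θ₂ * z.2))
    (B := s * (K * ξ / 4 : ℝ) ^ 2 / 2) (BN := s * (N / 2 : ℝ) ^ 2 / 2)
    (BM := s * (M / 2 : ℝ) ^ 2 / 2) (by positivity) (by positivity) (by positivity)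
    (fun z hz => hphi _ z (by
      have h1 : (nz z : ℝ) ≤ ((K * ξ / 4 : ℕ) : ℝ) := by exact_mod_cast hz
      have h2 : ((K * ξ / 4 : ℕ) : ℝ) ≤ ((K * ξ : ℕ) : ℝ) / 4 := Nat.cast_div_le
      push_cast at h2
      linarith))
    (fun z hz => hphi _ z (by
      have h1 : (2 : ℝ) * (nz z : ℝ) ≤ (N : ℝ) := by exact_mod_cast hz
      linarith))
    (fun z hz => hphi _ z (by
      have h1 : (2 : ℝ) * (nz z : ℝ) ≤ (M : ℝ) := by exact_mod_cast hz
      linarith)) hs t1 t2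
  rw [TT_zero_sub, TT_zero_sub]
  refine hf.trans ?_
  have hNr : (N : ℝ) = n * ξ := by rw [h.hN]; push_cast; ring
  have hMr : (M : ℝ) = m * ξ := by rw [h'.hN]; push_cast; ring
  rw [hNr, hMr]
  have hx : 0 ≤ s * (ξ : ℝ) ^ 4 := by positivity
  have a0 := mul_le_mul_of_nonneg_left e0 hx
  have a1 := mul_le_mul_of_nonneg_left e1 hx
  have a2 := mul_le_mul_of_nonneg_left e2 hx
  have hev := mul_nonneg hx (ev_nonneg (C := C) hc K)
  calc s * (K * ξ / 4 : ℝ) ^ 2 / 2 * ((ξ : ℝ) ^ 2 * (2 * ek c C K)) +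
        s * (n * ξ / 2 : ℝ) ^ 2 / 2 * ((ξ : ℝ) ^ 2 * et c C K n) +
        s * (m * ξ / 2 : ℝ) ^ 2 / 2 * ((ξ : ℝ) ^ 2 * et c C K m)
      = s * (ξ : ℝ) ^ 4 * ((K : ℝ) ^ 2 * ek c C K) / 16 +
        s * (ξ : ℝ) ^ 4 * ((n : ℝ) ^ 2 * et c C K n) / 8 +
        s * (ξ : ℝ) ^ 4 * ((m : ℝ) ^ 2 * et c C K m) / 8 := by ring
    _ ≤ s * (ξ : ℝ) ^ 4 * ev c C K := by nlinarith

end

end Vale.Agent.P159.H767
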