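import Vale.Agent.P159.H767.Vol2
import Vale.Agent.P159.H767.Bridge

/-!
P159, module VOL, exponential form. Test functions with values in a normed space and growth
`e^{(c/16) |z| / ξ}` on tori with `N y ≤ c ξ`: error `e^{-cK/64}`. Input: Theorem A (1) (`HA`) only.
Then: self energy `Π(k) = 1/Ĝ(k) - t` at equal real wave numbers.
-/

set_option linter.unusedSectionVars false

namespace Vale.Agent.P159.H767

open Finset
open Vale.Agent.P159.TM
open Vale.Agent.P159.TM.H459 (sn sd ball)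
open Vale.Agent.P159.TM.H705 (TT tsn)
open Vale.Agent.P159.TM.H764 (pw Gh)
open Vale.Agent.P159.TM.H265 (HA K2 K2_pos)

noncomputable section

variable {N M : ℕ} [NeZero N] [NeZero M]
variable {E : Type*} [NormedAddCommGroup E] [NormedSpace ℝ E]

/-- sum of the kernel against a vector valued function of the representative -/
def fulE (G : ZMod N × ZMod N → ℝ) (φ : ℤ × ℤ → E) : E :=
  ∑ w, G w • φ (w.1.valMinAbs, w.2.valMinAbs)

theorem sum_WdE {r : ℕ} (hN : 2 * (r + 1) ≤ N) (H : ℤ × ℤ → E) :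
    ∑ w ∈ univ.filter (fun w : ZMod N × ZMod N => sn w ≤ r), H (w.1.valMinAbs, w.2.valMinAbs) =
      ∑ z ∈ Wd r, H z := by
  refine sum_bij (fun w _ => (w.1.valMinAbs, w.2.valMinAbs)) ?_ ?_ ?_ (fun _ _ => rfl)
  · intro w hw
    exact mem_Wd.2 (mem_filter.1 hw).2
  · intro w _ w' _ h
    exact Prod.ext (ZMod.injective_valMinAbs (congrArg Prod.fst h))
      (ZMod.injective_valMinAbs (congrArg Prod.snd h))
  · intro z hz
    have hz' := mem_Wd.1 hz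
    unfold nz at hz'
    rw [max_le_iff] at hz'
    have h1 := H705.vma_cast (r := r + 1) hN (m := z.1) (by omega)
    have h2 := H705.vma_cast (r := r + 1) hN (m := z.2) (by omega)
    refine ⟨((z.1 : ZMod N), (z.2 : ZMod N)), ?_, ?_⟩
    · rw [mem_filter]
      refine ⟨mem_univ _, ?_⟩
      unfold sn
      rw [h1, h2, max_le_iff]
      exact hz'
    · simp only [h1, h2]

theorem kz_vma (G : ZMod N × ZMod N → ℝ) (w : ZMod N × ZMod N) :
    kz G (w.1.valMinAbs, w.2.valMinAbs) = G w := by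
  unfold kz
  simp only [ZMod.coe_valMinAbs]

theorem fulE_split {r : ℕ} (hN : 2 * (r + 1) ≤ N) (G : ZMod N × ZMod N → ℝ) (φ : ℤ × ℤ → E) :
    fulE G φ = ∑ z ∈ Wd r, kz G z • φ z +
      ∑ w ∈ univ.filter (fun w : ZMod N × ZMod N => r < sn w),
        G w • φ (w.1.valMinAbs, w.2.valMinAbs) := by
  unfold fulE
  rw [← sum_WdE hN fun z => kz G z • φ z,
    ← sum_filter_add_sum_filter_not univ (fun w : ZMod N × ZMod N => sn w ≤ r)]
  simp only [not_le, kz_vma]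

/-- comparison of two full sums -/
theorem fulE_cmp {r : ℕ} (hN : 2 * (r + 1) ≤ N) (hM : 2 * (r + 1) ≤ M)
    {G : ZMod N × ZMod N → ℝ} {G' : ZMod M × ZMod M → ℝ} (pos : ∀ w, 0 ≤ G w)
    (pos' : ∀ w, 0 ≤ G' w) (φ : ℤ × ℤ → E) (ψ : ℤ × ℤ → ℝ) (hψ : ∀ z, ‖φ z‖ ≤ ψ z) {d e e' : ℝ}
    (hd : ∑ z ∈ Wd r, |kz G z - kz G' z| * ψ z ≤ d)
    (he : ∑ w ∈ univ.filter (fun w : ZMod N × ZMod N => r < sn w),
      G w * ψ (w.1.valMinAbs, w.2.valMinAbs) ≤ e)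
    (he' : ∑ w ∈ univ.filter (fun w : ZMod M × ZMod M => r < sn w),
      G' w * ψ (w.1.valMinAbs, w.2.valMinAbs) ≤ e') :
    ‖fulE G φ - fulE G' φ‖ ≤ d + e + e' := by
  rw [fulE_split hN, fulE_split hM]
  have h1 : ‖∑ z ∈ Wd r, kz G z • φ z - ∑ z ∈ Wd r, kz G' z • φ z‖ ≤ d := by
    rw [← sum_sub_distrib]
    refine (norm_sum_le _ _).trans (le_trans (sum_le_sum fun z _ => ?_) hd)
    rw [← sub_smul, norm_smul, Real.norm_eq_abs]
    exact mul_le_mul_of_nonneg_left (hψ z) (abs_nonneg _)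
  have h2 : ‖∑ w ∈ univ.filter (fun w : ZMod N × ZMod N => r < sn w),
      G w • φ (w.1.valMinAbs, w.2.valMinAbs)‖ ≤ e := by
    refine (norm_sum_le _ _).trans (le_trans (sum_le_sum fun w _ => ?_) he)
    rw [norm_smul, Real.norm_eq_abs, abs_of_nonneg (pos w)]
    exact mul_le_mul_of_nonneg_left (hψ _) (pos w)
  have h3 : ‖∑ w ∈ univ.filter (fun w : ZMod M × ZMod M => r < sn w),
      G' w • φ (w.1.valMinAbs, w.2.valMinAbs)‖ ≤ e' := by
    refine (norm_sum_le _ _).trans (le_trans (sum_le_sum fun w _ => ?_) he')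
    rw [norm_smul, Real.norm_eq_abs, abs_of_nonneg (pos' w)]
    exact mul_le_mul_of_nonneg_left (hψ _) (pos' w)
  set A := ∑ z ∈ Wd r, kz G z • φ z
  set A' := ∑ z ∈ Wd r, kz G' z • φ z
  set T := ∑ w ∈ univ.filter (fun w : ZMod N × ZMod N => r < sn w),
      G w • φ (w.1.valMinAbs, w.2.valMinAbs)
  set T' := ∑ w ∈ univ.filter (fun w : ZMod M × ZMod M => r < sn w),
      G' w • φ (w.1.valMinAbs, w.2.valMinAbs)
  have h4 : A + T - (A' + T') = (A - A') + T - T' := by abel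
  rw [h4]
  calc ‖(A - A') + T - T'‖ ≤ ‖(A - A') + T‖ + ‖T'‖ := norm_sub_le _ _
    _ ≤ ‖A - A'‖ + ‖T‖ + ‖T'‖ := by linarith [norm_add_le (A - A') T]
    _ ≤ d + e + e' := by linarith

/-! ### the model -/

variable {b : ℝ} {ξ : ℕ} {y y' c C : ℝ}

/-- the hypotheses of the volume transfer, one torus: Theorem A (1), `K ξ ≤ N`, `N y ≤ c ξ` -/
structure VX (N : ℕ) [NeZero N] (b : ℝ) (ξ : ℕ) (hb : 0 ≤ b) (c C : ℝ) (K : ℕ) (y : ℝ) :
    Prop where
  hy : 0 ≤ y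
  hA : HA N b ξ hb y c C
  hK : K * ξ ≤ N
  hNy : (N : ℝ) * y ≤ c * ξ

theorem VX.hKy {hb : 0 ≤ b} {K : ℕ} (hξ : 1 ≤ ξ) (h : VX N b ξ hb c C K y) : (K : ℝ) * y ≤ c := by
  have hξ' : (0 : ℝ) < ξ := by exact_mod_cast hξ
  have h1 : (K : ℝ) * ξ ≤ N := by exact_mod_cast h.hK
  have h2 := mul_le_mul_of_nonneg_right h1 h.hy
  have h3 := h2.trans h.hNy
  have h4 : (K : ℝ) * y * ξ ≤ c * ξ := by linarith
  exact le_of_mul_le_mul_right h4 hξ'

/-- full exponential moment -/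
theorem VX.mom {hb : 0 ≤ b} {K : ℕ} (hξ : 1 ≤ ξ) (hc : 0 < c) (hC : 0 ≤ C) (hK : 8 ≤ K)
    (h : VX N b ξ hb c C K y) :
    ∑ w : ZMod N × ZMod N, H41.G b N (ξ : ℝ) w * Real.exp (c / 8 * sn w / ξ) ≤
      K2 c C * (ξ : ℝ) ^ 2 := by
  have h8 : 8 * ξ ≤ K * ξ := Nat.mul_le_mul_right ξ hK
  have hN := h.hK
  have h1 := H265.v2 (R := N) hb hξ (by omega) hc hC h.hy h.hA h.hNy
  have h2 : univ.filter (fun w : ZMod N × ZMod N => sn w ≤ N) = univ := by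
    refine filter_true_of_mem fun w _ => ?_
    have := sn_le_half w
    omega
  rwa [h2] at h1

/-- the constant of the volume transfer -/
def EC (c C : ℝ) : ℝ := 16 / c * √C * Real.exp c + 2 * K2 c C

/-- the error of the volume transfer -/
def ex (c C : ℝ) (K : ℕ) : ℝ := EC c C * Real.exp (-(c * K / 64))

theorem EC_pos (hc : 0 < c) : 0 < EC c C := by
  unfold EC
  have := Real.sqrt_nonneg C
  have := K2_pos (C := C) hc
  positivity

theorem ex_pos (hc : 0 < c) (K : ℕ) : 0 < ex c C K := mul_pos (EC_pos hc) (Real.exp_pos _)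

theorem near_le (hc : 0 < c) (K : ℕ) :
    Real.exp (c * K / 64) * (2 * ek c C K) ≤
      16 / c * √C * Real.exp c * Real.exp (-(c * K / 64)) := by
  have h1 := pow_exp_le hc K 1
  simp only [pow_one, Nat.factorial_one, Nat.cast_one, one_mul] at h1
  have hs := Real.sqrt_nonneg C
  have h2 : Real.exp (-(c * K / 4)) = Real.exp (-(c * K / 8)) * Real.exp (-(c * K / 8)) := by
    rw [← Real.exp_add]
    congr 1
    ring
  have h3 : Real.exp (c * K / 64) * Real.exp (-(c * K / 8)) ≤ Real.exp (-(c * K / 64)) := by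
    rw [← Real.exp_add]
    refine Real.exp_le_exp.2 ?_
    have : 0 ≤ c * K := by positivity
    linarith
  unfold ek
  rw [h2]
  calc Real.exp (c * K / 64) *
        (2 * (√C * K * Real.exp c * (Real.exp (-(c * K / 8)) * Real.exp (-(c * K / 8)))))
      = 2 * √C * Real.exp c * (K * Real.exp (-(c * K / 8))) *
        (Real.exp (c * K / 64) * Real.exp (-(c * K / 8))) := by ring
    _ ≤ 2 * √C * Real.exp c * (8 / c) * Real.exp (-(c * K / 64)) := by gcongr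
    _ = _ := by ring

/-- **(VOL)** general form -/
theorem vol3 {hb : 0 ≤ b} (hξ : 1 ≤ ξ) (hc : 0 < c) (hC : 0 ≤ C) {K : ℕ} (hK : 8 ≤ K)
    (h : VX N b ξ hb c C K y) (h' : VX M b ξ hb c C K y') {φ : ℤ × ℤ → E} {B : ℝ} (hB : 0 ≤ B)
    (hφ : ∀ z, ‖φ z‖ ≤ B * Real.exp (c / 16 * nz z / ξ)) :
    ‖fulE (H41.G b N (ξ : ℝ)) φ - fulE (H41.G b M (ξ : ℝ)) φ‖ ≤ B * (ξ : ℝ) ^ 2 * ex c C K := by
  have hξ' : (0 : ℝ) < ξ := by exact_mod_cast hξ
  have h8 : 8 * ξ ≤ K * ξ := Nat.mul_le_mul_right ξ hK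
  have hN := h.hK
  have hM := h'.hK
  have k2 : (K : ℝ) * y ≤ 2 * c := by linarith [h.hKy hξ]
  have k2' : (K : ℝ) * y' ≤ 2 * c := by linarith [h'.hKy hξ]
  have hnear := vol1 hb hξ hc.le hC h.hy h'.hy h.hA h'.hA hK hN hM k2 k2'
  -- near part
  have hd : ∑ z ∈ Wd (K * ξ / 4), |kz (H41.G b N (ξ : ℝ)) z - kz (H41.G b M (ξ : ℝ)) z| *
      (B * Real.exp (c / 16 * nz z / ξ)) ≤
      B * (ξ : ℝ) ^ 2 * (Real.exp (c * K / 64) * (2 * ek c C K)) := by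
    calc ∑ z ∈ Wd (K * ξ / 4), |kz (H41.G b N (ξ : ℝ)) z - kz (H41.G b M (ξ : ℝ)) z| *
          (B * Real.exp (c / 16 * nz z / ξ))
        ≤ ∑ z ∈ Wd (K * ξ / 4), |kz (H41.G b N (ξ : ℝ)) z - kz (H41.G b M (ξ : ℝ)) z| *
          (B * Real.exp (c * K / 64)) := by
          refine sum_le_sum fun z hz => mul_le_mul_of_nonneg_left ?_ (abs_nonneg _)
          refine mul_le_mul_of_nonneg_left (Real.exp_le_exp.2 ?_) hB
          have h1 : (nz z : ℝ) ≤ ((K * ξ / 4 : ℕ) : ℝ) := by exact_mod_cast mem_Wd.1 hz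
          have h2 : ((K * ξ / 4 : ℕ) : ℝ) ≤ ((K * ξ : ℕ) : ℝ) / 4 := Nat.cast_div_le
          push_cast at h2
          rw [div_le_iff₀ hξ']
          nlinarith
      _ = (B * Real.exp (c * K / 64)) *
          ∑ z ∈ Wd (K * ξ / 4), |kz (H41.G b N (ξ : ℝ)) z - kz (H41.G b M (ξ : ℝ)) z| := by
          rw [← sum_mul, mul_comm]
      _ ≤ (B * Real.exp (c * K / 64)) * ((ξ : ℝ) ^ 2 * (2 * ek c C K)) :=
          mul_le_mul_of_nonneg_left hnear (by positivity)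
      _ = _ := by ring
  -- tails
  have tail : ∀ (L : ℕ) [NeZero L] (v : ℝ), VX L b ξ hb c C K v →
      ∑ w ∈ univ.filter (fun w : ZMod L × ZMod L => K * ξ / 4 < sn w),
        H41.G b L (ξ : ℝ) w * (B * Real.exp (c / 16 * nz (w.1.valMinAbs, w.2.valMinAbs) / ξ)) ≤
        B * (ξ : ℝ) ^ 2 * (K2 c C * Real.exp (-(c * K / 64))) := by
    intro L _ v hL
    have hm := hL.mom hξ hc hC hK
    calc ∑ w ∈ univ.filter (fun w : ZMod L × ZMod L => K * ξ / 4 < sn w),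
        H41.G b L (ξ : ℝ) w * (B * Real.exp (c / 16 * nz (w.1.valMinAbs, w.2.valMinAbs) / ξ))
        ≤ ∑ w ∈ univ.filter (fun w : ZMod L × ZMod L => K * ξ / 4 < sn w),
          (B * Real.exp (-(c * K / 64))) *
            (H41.G b L (ξ : ℝ) w * Real.exp (c / 8 * sn w / ξ)) := by
          refine sum_le_sum fun w hw => ?_
          have hG := H41.G_nonneg (N := L) hb hξ' w
          have h1 : K * ξ / 4 < sn w := (mem_filter.1 hw).2
          have h2 : K * ξ ≤ 4 * sn w := by omega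
          have h3 : (K : ℝ) * ξ ≤ 4 * (sn w : ℝ) := by exact_mod_cast h2
          have h4 : Real.exp (c / 16 * nz (w.1.valMinAbs, w.2.valMinAbs) / ξ) ≤
              Real.exp (-(c * K / 64)) * Real.exp (c / 8 * sn w / ξ) := by
            rw [← Real.exp_add, nz_vma]
            refine Real.exp_le_exp.2 ?_
            have h5 : (K : ℝ) / 4 ≤ sn w / ξ := by
              rw [le_div_iff₀ hξ']
              linarith
            have h6 : c / 16 * (K / 4 : ℝ) ≤ c / 16 * (sn w / ξ) :=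
              mul_le_mul_of_nonneg_left h5 (by positivity)
            have h7 : c / 16 * (sn w : ℝ) / ξ = c / 16 * (sn w / ξ) := by ring
            have h8 : c / 8 * (sn w : ℝ) / ξ = 2 * (c / 16 * (sn w / ξ)) := by ring
            rw [h7, h8]
            linarith
          calc H41.G b L (ξ : ℝ) w *
                (B * Real.exp (c / 16 * nz (w.1.valMinAbs, w.2.valMinAbs) / ξ))
              ≤ H41.G b L (ξ : ℝ) w *
                (B * (Real.exp (-(c * K / 64)) * Real.exp (c / 8 * sn w / ξ))) := by gcongr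
            _ = _ := by ring
      _ = (B * Real.exp (-(c * K / 64))) *
          ∑ w ∈ univ.filter (fun w : ZMod L × ZMod L => K * ξ / 4 < sn w),
            H41.G b L (ξ : ℝ) w * Real.exp (c / 8 * sn w / ξ) := by rw [mul_sum]
      _ ≤ (B * Real.exp (-(c * K / 64))) * (K2 c C * (ξ : ℝ) ^ 2) := by
          refine mul_le_mul_of_nonneg_left (le_trans ?_ hm) (by positivity)
          exact sum_le_sum_of_subset_of_nonneg (subset_univ _) fun w _ _ =>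
            mul_nonneg (H41.G_nonneg (N := L) hb hξ' w) (Real.exp_pos _).le
      _ = _ := by ring
  have hf := fulE_cmp (r := K * ξ / 4) (by omega) (by omega) (H41.G_nonneg (N := N) hb hξ')
    (H41.G_nonneg (N := M) hb hξ') φ (fun z => B * Real.exp (c / 16 * nz z / ξ)) hφ hd
    (tail N y h) (tail M y' h')
  refine hf.trans ?_
  have hn := mul_le_mul_of_nonneg_left (near_le (C := C) hc K)
    (show 0 ≤ B * (ξ : ℝ) ^ 2 by positivity)
  unfold ex EC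
  calc B * (ξ : ℝ) ^ 2 * (Real.exp (c * K / 64) * (2 * ek c C K)) +
        B * (ξ : ℝ) ^ 2 * (K2 c C * Real.exp (-(c * K / 64))) +
        B * (ξ : ℝ) ^ 2 * (K2 c C * Real.exp (-(c * K / 64)))
      ≤ B * (ξ : ℝ) ^ 2 * (16 / c * √C * Real.exp c * Real.exp (-(c * K / 64))) +
        B * (ξ : ℝ) ^ 2 * (K2 c C * Real.exp (-(c * K / 64))) +
        B * (ξ : ℝ) ^ 2 * (K2 c C * Real.exp (-(c * K / 64))) := by linarith
    _ = _ := by ring

/-! ### transforms -/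

theorem fulE_real (G : ZMod N × ZMod N → ℝ) (φ : ℤ × ℤ → ℝ) : fulE G φ = full G φ := by
  unfold fulE full
  exact sum_congr rfl fun w _ => by rw [smul_eq_mul, mul_comm]

/-- the transform at any real wave number -/
theorem vol3_TT {hb : 0 ≤ b} (hξ : 1 ≤ ξ) (hc : 0 < c) (hC : 0 ≤ C) {K : ℕ} (hK : 8 ≤ K)
    (h : VX N b ξ hb c C K y) (h' : VX M b ξ hb c C K y') (θ₁ θ₂ : ℝ) :
    |TT (H41.G b N (ξ : ℝ)) θ₁ θ₂ - TT (H41.G b M (ξ : ℝ)) θ₁ θ₂| ≤ (ξ : ℝ) ^ 2 * ex c C K := by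
  rw [TT_full, TT_full, ← fulE_real, ← fulE_real]
  have := vol3 hξ hc hC hK h h' (φ := fun z => Real.cos (θ₁ * z.1 + θ₂ * z.2)) (B := 1)
    zero_le_one fun z => by
      rw [Real.norm_eq_abs, one_mul]
      exact (Real.abs_cos_le_one _).trans (Real.one_le_exp (by positivity))
  rwa [one_mul, Real.norm_eq_abs] at this

theorem sq_le_exp {x : ℝ} (hx : 0 ≤ x) : x ^ 2 / 2 ≤ Real.exp x := by
  have h := Real.pow_div_factorial_le_exp x hx 2
  have : ((2 : ℕ).factorial : ℝ) = 2 := by norm_num [Nat.factorial]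
  rwa [this] at h

/-- second order weights against exponential weights -/
theorem nz_sq_le {l : ℝ} (hl : 0 < l) (hξ : 1 ≤ ξ) (x : ℕ) :
    (x : ℝ) ^ 2 / 2 ≤ (ξ / l : ℝ) ^ 2 * Real.exp (l * x / ξ) := by
  have hξ' : (0 : ℝ) < ξ := by exact_mod_cast hξ
  have h := sq_le_exp (x := l * x / ξ) (by positivity)
  have h1 : (x : ℝ) ^ 2 / 2 = (ξ / l : ℝ) ^ 2 * ((l * x / ξ) ^ 2 / 2) := by
    field_simp
  rw [h1]
  exact mul_le_mul_of_nonneg_left h (sq_nonneg _)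

/-- second order form -/
theorem vol3_sec {hb : 0 ≤ b} (hξ : 1 ≤ ξ) (hc : 0 < c) (hC : 0 ≤ C) {K : ℕ} (hK : 8 ≤ K)
    (h : VX N b ξ hb c C K y) (h' : VX M b ξ hb c C K y') (θ₁ θ₂ : ℝ) :
    |(TT (H41.G b N (ξ : ℝ)) 0 0 - TT (H41.G b N (ξ : ℝ)) θ₁ θ₂) -
      (TT (H41.G b M (ξ : ℝ)) 0 0 - TT (H41.G b M (ξ : ℝ)) θ₁ θ₂)| ≤
      (|θ₁| + |θ₂|) ^ 2 * (ξ : ℝ) ^ 4 * (256 / c ^ 2 * ex c C K) := by
  rw [TT_zero_sub, TT_zero_sub, ← fulE_real, ← fulE_real]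
  have h1 := vol3 hξ hc hC hK h h' (φ := fun z => 1 - Real.cos (θ₁ * z.1 + θ₂ * z.2))
    (B := (|θ₁| + |θ₂|) ^ 2 * (ξ / (c / 16) : ℝ) ^ 2) (by positivity) fun z => by
      rw [Real.norm_eq_abs]
      refine (one_sub_cos_le_nz θ₁ θ₂ z).trans ?_
      have := mul_le_mul_of_nonneg_left (nz_sq_le (l := c / 16) (by positivity) hξ (nz z))
        (sq_nonneg (|θ₁| + |θ₂|))
      linarith
  rw [Real.norm_eq_abs] at h1
  refine h1.trans (le_of_eq ?_)
  field_simp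
  ring

/-- the second moment bound -/
theorem VX.sec {hb : 0 ≤ b} (hξ : 1 ≤ ξ) (hc : 0 < c) (hC : 0 ≤ C) {K : ℕ} (hK : 8 ≤ K)
    (h : VX N b ξ hb c C K y) (θ₁ θ₂ : ℝ) :
    0 ≤ TT (H41.G b N (ξ : ℝ)) 0 0 - TT (H41.G b N (ξ : ℝ)) θ₁ θ₂ ∧
    TT (H41.G b N (ξ : ℝ)) 0 0 - TT (H41.G b N (ξ : ℝ)) θ₁ θ₂ ≤
      (|θ₁| + |θ₂|) ^ 2 * (ξ : ℝ) ^ 4 * (64 / c ^ 2 * K2 c C) := by
  have hξ' : (0 : ℝ) < ξ := by exact_mod_cast hξ
  rw [TT_zero_sub]
  unfold full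
  have hG := H41.G_nonneg (N := N) hb hξ'
  constructor
  · exact sum_nonneg fun w _ => mul_nonneg (sub_nonneg.2 (Real.cos_le_one _)) (hG w)
  · have hm := h.mom hξ hc hC hK
    calc ∑ w : ZMod N × ZMod N, (1 - Real.cos (θ₁ * (w.1.valMinAbs, w.2.valMinAbs).1 +
          θ₂ * (w.1.valMinAbs, w.2.valMinAbs).2)) * H41.G b N (ξ : ℝ) w
        ≤ ∑ w : ZMod N × ZMod N, ((|θ₁| + |θ₂|) ^ 2 * (ξ / (c / 8) : ℝ) ^ 2) *
          (H41.G b N (ξ : ℝ) w * Real.exp (c / 8 * sn w / ξ)) := by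
          refine sum_le_sum fun w _ => ?_
          have h1 := (le_abs_self _).trans
            (one_sub_cos_le_nz θ₁ θ₂ (w.1.valMinAbs, w.2.valMinAbs))
          rw [nz_vma] at h1
          have h2 := mul_le_mul_of_nonneg_left
            (nz_sq_le (l := c / 8) (by positivity) hξ (sn w)) (sq_nonneg (|θ₁| + |θ₂|))
          have h3 : 1 - Real.cos (θ₁ * (w.1.valMinAbs, w.2.valMinAbs).1 +
              θ₂ * (w.1.valMinAbs, w.2.valMinAbs).2) ≤
              ((|θ₁| + |θ₂|) ^ 2 * (ξ / (c / 8) : ℝ) ^ 2) * Real.exp (c / 8 * sn w / ξ) := by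
            linarith
          calc (1 - Real.cos (θ₁ * (w.1.valMinAbs, w.2.valMinAbs).1 +
                θ₂ * (w.1.valMinAbs, w.2.valMinAbs).2)) * H41.G b N (ξ : ℝ) w
              ≤ (((|θ₁| + |θ₂|) ^ 2 * (ξ / (c / 8) : ℝ) ^ 2) *
                Real.exp (c / 8 * sn w / ξ)) * H41.G b N (ξ : ℝ) w :=
                mul_le_mul_of_nonneg_right h3 (hG w)
            _ = _ := by ring
      _ = ((|θ₁| + |θ₂|) ^ 2 * (ξ / (c / 8) : ℝ) ^ 2) *
          ∑ w : ZMod N × ZMod N, H41.G b N (ξ : ℝ) w * Real.exp (c / 8 * sn w / ξ) := by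
          rw [mul_sum]
      _ ≤ ((|θ₁| + |θ₂|) ^ 2 * (ξ / (c / 8) : ℝ) ^ 2) * (K2 c C * (ξ : ℝ) ^ 2) :=
          mul_le_mul_of_nonneg_left hm (by positivity)
      _ = _ := by
          field_simp
          ring

/-! ### inverses -/

theorem inv_sub_le {m g g' d : ℝ} (hm : 0 < m) (hg : m ≤ g) (hg' : m ≤ g') (hd : |g - g'| ≤ d) :
    |g⁻¹ - g'⁻¹| ≤ d / m ^ 2 := by
  have h1 : 0 < g := hm.trans_le hg
  have h2 : 0 < g' := hm.trans_le hg'
  have hd0 : 0 ≤ d := (abs_nonneg _).trans hd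
  have h3 : g⁻¹ - g'⁻¹ = (g' - g) / (g * g') := by field_simp
  rw [h3, abs_div, abs_of_pos (mul_pos h1 h2), abs_sub_comm]
  refine div_le_div₀ hd0 hd (by positivity) ?_
  rw [pow_two]
  exact mul_le_mul hg hg' hm.le h1.le

theorem quot_sub_le {m A A' g0 gk g0' gk' s d a : ℝ} (hm : 0 < m) (h0 : m ≤ g0) (hk : m ≤ gk)
    (h0' : m ≤ g0') (hk' : m ≤ gk') (hd0 : |g0 - g0'| ≤ d) (hdk : |gk - gk'| ≤ d)
    (hA0 : 0 ≤ A') (hA : A' ≤ a) (hs : |A - A'| ≤ s) :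
    |A / (g0 * gk) - A' / (g0' * gk')| ≤ s / m ^ 2 + 2 * (a * d) / m ^ 3 := by
  have p0 : 0 < g0 := hm.trans_le h0
  have pk : 0 < gk := hm.trans_le hk
  have p0' : 0 < g0' := hm.trans_le h0'
  have pk' : 0 < gk' := hm.trans_le hk'
  have ha : 0 ≤ a := hA0.trans hA
  have hd : 0 ≤ d := (abs_nonneg _).trans hd0
  have hs0 : 0 ≤ s := (abs_nonneg _).trans hs
  have i1 := inv_sub_le hm h0 h0' hd0
  have i2 := inv_sub_le hm hk hk' hdk
  have e : A / (g0 * gk) - A' / (g0' * gk') =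
      (A - A') / (g0 * gk) + A' * ((g0⁻¹ - g0'⁻¹) * gk⁻¹ + (gk⁻¹ - gk'⁻¹) * g0'⁻¹) := by
    field_simp
    ring
  have im : 0 < m⁻¹ := inv_pos.2 hm
  have q1 : gk⁻¹ ≤ m⁻¹ := inv_anti₀ hm hk
  have q2 : g0'⁻¹ ≤ m⁻¹ := inv_anti₀ hm h0'
  have b1 : |(A - A') / (g0 * gk)| ≤ s / m ^ 2 := by
    rw [abs_div, abs_of_pos (mul_pos p0 pk)]
    refine div_le_div₀ hs0 hs (by positivity) ?_
    rw [pow_two]
    exact mul_le_mul h0 hk hm.le p0.le
  have b2 : |(g0⁻¹ - g0'⁻¹) * gk⁻¹ + (gk⁻¹ - gk'⁻¹) * g0'⁻¹| ≤ 2 * (d / m ^ 2 * m⁻¹) := by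
    refine (abs_add_le _ _).trans ?_
    rw [abs_mul, abs_mul, abs_of_pos (inv_pos.2 pk), abs_of_pos (inv_pos.2 p0')]
    have t1 : |g0⁻¹ - g0'⁻¹| * gk⁻¹ ≤ d / m ^ 2 * m⁻¹ :=
      mul_le_mul i1 q1 (inv_pos.2 pk).le (by positivity)
    have t2 : |gk⁻¹ - gk'⁻¹| * g0'⁻¹ ≤ d / m ^ 2 * m⁻¹ :=
      mul_le_mul i2 q2 (inv_pos.2 p0').le (by positivity)
    linarith
  rw [e]
  refine (abs_add_le _ _).trans ?_
  rw [abs_mul, abs_of_nonneg hA0]
  have b3 : A' * |(g0⁻¹ - g0'⁻¹) * gk⁻¹ + (gk⁻¹ - gk'⁻¹) * g0'⁻¹| ≤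
      a * (2 * (d / m ^ 2 * m⁻¹)) := mul_le_mul hA b2 (abs_nonneg _) ha
  have e3 : a * (2 * (d / m ^ 2 * m⁻¹)) = 2 * (a * d) / m ^ 3 := by
    field_simp
  linarith

end

end Vale.Agent.P159.H767
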