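import Vale.Agent.P159.H767.Vol3
import Vale.Agent.P159.TM.H352.ThmA

/-!
P159, module VOL, final form in the standing range `Spec.Rng` with universal constants:

`vol_range`: tori `N, M ≥ K ξ` with `N y ≤ c ξ`, `M y' ≤ c ξ`, same `b`, same mass `t = ξ⁻²`:
(1) all test functions of growth `e^{c |z| / ξ}`; (2) self energies at equal wave numbers in the
window `|k_i| ≤ W / ξ`, error `C t e^{-cK}`; (3) `Π(k) - Π(0)`, error `C |k|² e^{-cK}`.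
-/

set_option linter.unusedSectionVars false

namespace Vale.Agent.P159.H767

open Finset
open Vale.Agent.P159.TM
open Vale.Agent.P159.TM.H459 (sn sd ball)
open Vale.Agent.P159.TM.H705 (TT tsn)
open Vale.Agent.P159.TM.H764 (pw Gh)
open Vale.Agent.P159.TM.H265 (HA K2 K2_pos)
open Vale.Agent.P159.H37 (Gt Ght Pik)

noncomputable section

variable {N M : ℕ} [NeZero N] [NeZero M]

/-- lower bound of `Ĝ` in the window -/
theorem low_of_H2 {W : ℝ} {ξ : ℕ} (hξ : 1 ≤ ξ) {G : ZMod N × ZMod N → ℝ}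
    (h : H764.H2 10 W (ξ : ℝ) G) (k : ZMod N × ZMod N) (h1 : |pw k.1| ≤ W / ξ)
    (h2 : |pw k.2| ≤ W / ξ) : (ξ : ℝ) ^ 2 / (10 * (1 + 2 * W ^ 2)) ≤ Gh G k := by
  have hξ' : (0 : ℝ) < ξ := by exact_mod_cast hξ
  have h3 := h k h1 h2
  have h4 := (h.pos (by norm_num) k h1 h2).le
  have w1 : pw k.1 ^ 2 ≤ W ^ 2 / (ξ : ℝ) ^ 2 := by
    rw [← sq_abs, ← div_pow]
    exact pow_le_pow_left₀ (abs_nonneg _) h1 2
  have w2 : pw k.2 ^ 2 ≤ W ^ 2 / (ξ : ℝ) ^ 2 := by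
    rw [← sq_abs, ← div_pow]
    exact pow_le_pow_left₀ (abs_nonneg _) h2 2
  have w3 : 1 / (ξ : ℝ) ^ 2 + pw k.1 ^ 2 + pw k.2 ^ 2 ≤ (1 + 2 * W ^ 2) / (ξ : ℝ) ^ 2 := by
    have : (1 + 2 * W ^ 2) / (ξ : ℝ) ^ 2 = 1 / (ξ : ℝ) ^ 2 + W ^ 2 / (ξ : ℝ) ^ 2 +
      W ^ 2 / (ξ : ℝ) ^ 2 := by ring
    linarith
  have w4 : 1 ≤ 10 * ((1 + 2 * W ^ 2) / (ξ : ℝ) ^ 2) * Gh G k := h3.trans (by gcongr)
  rw [div_le_iff₀ (by positivity)]
  have w5 : (ξ : ℝ) ^ 2 * 1 ≤ (ξ : ℝ) ^ 2 * (10 * ((1 + 2 * W ^ 2) / (ξ : ℝ) ^ 2) * Gh G k) :=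
    mul_le_mul_of_nonneg_left w4 (by positivity)
  have w6 : (ξ : ℝ) ^ 2 * (10 * ((1 + 2 * W ^ 2) / (ξ : ℝ) ^ 2) * Gh G k) =
      Gh G k * (10 * (1 + 2 * W ^ 2)) := by
    field_simp
  linarith

/-- the constant of the second order form -/
def PC (W c C : ℝ) : ℝ :=
  (10 * (1 + 2 * W ^ 2)) ^ 2 * (256 / c ^ 2) +
    2 * (10 * (1 + 2 * W ^ 2)) ^ 3 * (64 / c ^ 2 * K2 c C)

theorem PC_pos {W c C : ℝ} (hc : 0 < c) : 0 < PC W c C := by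
  unfold PC
  have := K2_pos (C := C) hc
  positivity

/-- self energies at equal wave numbers -/
theorem vol_pi {b : ℝ} {hb : 0 ≤ b} {ξ : ℕ} {y y' c C W : ℝ} (hξ : 1 ≤ ξ) (hc : 0 < c)
    (hC : 0 ≤ C) {K : ℕ} (hK : 8 ≤ K) (h : VX N b ξ hb c C K y) (h' : VX M b ξ hb c C K y')
    (hW : 0 ≤ W) (hH : H764.H2 10 W (ξ : ℝ) (H41.G b N (ξ : ℝ)))
    (hH' : H764.H2 10 W (ξ : ℝ) (H41.G b M (ξ : ℝ)))
    (k : ZMod N × ZMod N) (k' : ZMod M × ZMod M) (e1 : pw k.1 = pw k'.1) (e2 : pw k.2 = pw k'.2)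
    (h1 : |pw k.1| ≤ W / ξ) (h2 : |pw k.2| ≤ W / ξ) :
    |Pik N b (1 / (ξ : ℝ) ^ 2) k - Pik M b (1 / (ξ : ℝ) ^ 2) k'| ≤
      (10 * (1 + 2 * W ^ 2)) ^ 2 * (1 / (ξ : ℝ) ^ 2) * ex c C K ∧
    |(Pik N b (1 / (ξ : ℝ) ^ 2) k - Pik N b (1 / (ξ : ℝ) ^ 2) 0) -
      (Pik M b (1 / (ξ : ℝ) ^ 2) k' - Pik M b (1 / (ξ : ℝ) ^ 2) 0)| ≤
      PC W c C * (|pw k.1| + |pw k.2|) ^ 2 * ex c C K := by
  have hξ' : (0 : ℝ) < ξ := by exact_mod_cast hξ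
  have hx := ex_pos (C := C) hc K
  have hz : ∀ (L : ℕ) [NeZero L], pw (0 : ZMod L) = 0 := by
    intro L _
    unfold pw
    simp
  have hW0 : (0 : ℝ) ≤ W / ξ := by positivity
  have lk := low_of_H2 hξ hH k h1 h2
  have lk' := low_of_H2 hξ hH' k' (by rwa [← e1]) (by rwa [← e2])
  have l0 := low_of_H2 hξ hH (0 : ZMod N × ZMod N) (by simp [hz, hW0]) (by simp [hz, hW0])
  have l0' := low_of_H2 hξ hH' (0 : ZMod M × ZMod M) (by simp [hz, hW0]) (by simp [hz, hW0])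
  rw [H705.Gh_TT] at lk lk' l0 l0'
  rw [← e1, ← e2] at lk'
  simp only [Prod.fst_zero, Prod.snd_zero, hz] at l0 l0'
  have d0 := vol3_TT hξ hc hC hK h h' 0 0
  have dk := vol3_TT hξ hc hC hK h h' (pw k.1) (pw k.2)
  have ds := vol3_sec hξ hc hC hK h h' (pw k.1) (pw k.2)
  obtain ⟨a0, a1⟩ := h'.sec hξ hc hC hK (pw k.1) (pw k.2)
  set m := (ξ : ℝ) ^ 2 / (10 * (1 + 2 * W ^ 2)) with hm
  have hm0 : 0 < m := by positivity
  unfold Pik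
  rw [Ght_eq, Ght_eq, Ght_eq, Ght_eq, H705.Gh_TT, H705.Gh_TT, H705.Gh_TT, H705.Gh_TT, ← e1, ← e2]
  simp only [Prod.fst_zero, Prod.snd_zero, hz]
  set gk := TT (H41.G b N (ξ : ℝ)) (pw k.1) (pw k.2)
  set gk' := TT (H41.G b M (ξ : ℝ)) (pw k.1) (pw k.2)
  set g0 := TT (H41.G b N (ξ : ℝ)) 0 0
  set g0' := TT (H41.G b M (ξ : ℝ)) 0 0
  constructor
  · have h3 := inv_sub_le hm0 lk lk' dk
    have e : gk⁻¹ - 1 / (ξ : ℝ) ^ 2 - (gk'⁻¹ - 1 / (ξ : ℝ) ^ 2) = gk⁻¹ - gk'⁻¹ := by ring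
    rw [e]
    refine h3.trans (le_of_eq ?_)
    rw [hm]
    field_simp
  · have pk : 0 < gk := hm0.trans_le lk
    have pk' : 0 < gk' := hm0.trans_le lk'
    have p0 : 0 < g0 := hm0.trans_le l0
    have p0' : 0 < g0' := hm0.trans_le l0'
    have h3 := quot_sub_le (A := g0 - gk) (A' := g0' - gk') hm0 l0 lk l0' lk' d0 dk a0 a1 ds
    have e : gk⁻¹ - 1 / (ξ : ℝ) ^ 2 - (g0⁻¹ - 1 / (ξ : ℝ) ^ 2) -
        (gk'⁻¹ - 1 / (ξ : ℝ) ^ 2 - (g0'⁻¹ - 1 / (ξ : ℝ) ^ 2)) =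
        (g0 - gk) / (g0 * gk) - (g0' - gk') / (g0' * gk') := by
      field_simp
      ring
    rw [e]
    refine h3.trans (le_of_eq ?_)
    rw [hm]
    unfold PC
    field_simp

/-! ### the standing range -/

/-- **(VOL)** in the standing range, universal constants -/
theorem vol_range {b1 : ℝ} (hb1 : 0 < b1) (b2 a : ℝ) :
    ∃ W₀ : ℝ, 0 ≤ W₀ ∧ ∀ W : ℝ, W₀ ≤ W → ∃ c C ys : ℝ, ∃ X : ℕ, 0 < c ∧ 0 < C ∧ 0 < ys ∧
      1 ≤ X ∧ ∀ (N M : ℕ) [NeZero N] [NeZero M] (b : ℝ) (ξ K : ℕ) (y y' : ℝ),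
      Spec.Rng b1 b2 a W ys X N b ξ y → Spec.Rng b1 b2 a W ys X M b ξ y' →
      8 ≤ K → K * ξ ≤ N → K * ξ ≤ M → (N : ℝ) * y ≤ c * ξ → (M : ℝ) * y' ≤ c * ξ →
      (∀ (φ : ℤ × ℤ → ℂ) (B : ℝ), 0 ≤ B → (∀ z, ‖φ z‖ ≤ B * Real.exp (c * nz z / ξ)) →
        ‖fulE (Gt N b (1 / (ξ : ℝ) ^ 2)) φ - fulE (Gt M b (1 / (ξ : ℝ) ^ 2)) φ‖ ≤
          C * B * (ξ : ℝ) ^ 2 * Real.exp (-(c * K))) ∧
      ∀ (k : ZMod N × ZMod N) (k' : ZMod M × ZMod M), pw k.1 = pw k'.1 → pw k.2 = pw k'.2 →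
        |pw k.1| ≤ W / ξ → |pw k.2| ≤ W / ξ →
        |Pik N b (1 / (ξ : ℝ) ^ 2) k - Pik M b (1 / (ξ : ℝ) ^ 2) k'| ≤
          C * (1 / (ξ : ℝ) ^ 2) * Real.exp (-(c * K)) ∧
        |(Pik N b (1 / (ξ : ℝ) ^ 2) k - Pik N b (1 / (ξ : ℝ) ^ 2) 0) -
          (Pik M b (1 / (ξ : ℝ) ^ 2) k' - Pik M b (1 / (ξ : ℝ) ^ 2) 0)| ≤
          C * (|pw k.1| + |pw k.2|) ^ 2 * Real.exp (-(c * K)) := by
  obtain ⟨W0, hA⟩ := H352.thmA hb1 b2 a
  refine ⟨max W0 0, le_max_right _ _, fun W hW => ?_⟩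
  obtain ⟨c, C, ys, X, hc, hC, hys, hX, hA⟩ := hA W ((le_max_left _ _).trans hW)
  have hW0 : 0 ≤ W := (le_max_right _ _).trans hW
  have hE := EC_pos (C := C) hc
  have hP := PC_pos (W := W) (C := C) hc
  refine ⟨c / 64, EC c C + (10 * (1 + 2 * W ^ 2)) ^ 2 * EC c C + PC W c C * EC c C, ys, X,
    by positivity, by positivity, hys, hX, ?_⟩
  intro N M _ _ b ξ K y y' hR hR' hK hKN hKM hNy hMy
  have hb : 0 ≤ b := hb1.le.trans hR.hb1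
  have hξ : 1 ≤ ξ := hX.trans hR.hX
  have hξ' : (0 : ℝ) < ξ := by exact_mod_cast hξ
  have hNy' : (N : ℝ) * y ≤ c * ξ := hNy.trans (by
    have : 0 < c * ξ := by positivity
    linarith)
  have hMy' : (M : ℝ) * y' ≤ c * ξ := hMy.trans (by
    have : 0 < c * ξ := by positivity
    linarith)
  have v : VX N b ξ hb c C K y := ⟨hR.y0, fun x0 n hn => (hA N b hb ξ y hR x0 n hn).1, hKN, hNy'⟩
  have v' : VX M b ξ hb c C K y' :=
    ⟨hR'.y0, fun x0 n hn => (hA M b hb ξ y' hR' x0 n hn).1, hKM, hMy'⟩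
  have ee : Real.exp (-(c * K / 64)) = Real.exp (-(c / 64 * K)) := by
    congr 1
    ring
  have g1 : Gt N b (1 / (ξ : ℝ) ^ 2) = H41.G b N (ξ : ℝ) := funext fun z => Gt_eq N b ξ z
  have g2 : Gt M b (1 / (ξ : ℝ) ^ 2) = H41.G b M (ξ : ℝ) := funext fun z => Gt_eq M b ξ z
  have hexp := (Real.exp_pos (-(c / 64 * K))).le
  constructor
  · intro φ B hB hφ
    rw [g1, g2]
    have h1 := vol3 hξ hc hC.le hK v v' hB (φ := φ) fun z => by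
      refine (hφ z).trans (mul_le_mul_of_nonneg_left (Real.exp_le_exp.2 ?_) hB)
      have : 0 ≤ c * nz z / ξ := by positivity
      have e1 : c / 64 * nz z / ξ = c * nz z / ξ / 64 := by ring
      have e2 : c / 16 * nz z / ξ = c * nz z / ξ / 16 := by ring
      rw [e1, e2]
      linarith
    refine h1.trans ?_
    unfold ex
    rw [ee]
    have h2 : EC c C ≤ EC c C + (10 * (1 + 2 * W ^ 2)) ^ 2 * EC c C + PC W c C * EC c C := by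
      have : 0 ≤ (10 * (1 + 2 * W ^ 2)) ^ 2 * EC c C := by positivity
      have : 0 ≤ PC W c C * EC c C := by positivity
      linarith
    calc B * (ξ : ℝ) ^ 2 * (EC c C * Real.exp (-(c / 64 * K)))
        = EC c C * (B * (ξ : ℝ) ^ 2 * Real.exp (-(c / 64 * K))) := by ring
      _ ≤ (EC c C + (10 * (1 + 2 * W ^ 2)) ^ 2 * EC c C + PC W c C * EC c C) *
          (B * (ξ : ℝ) ^ 2 * Real.exp (-(c / 64 * K))) :=
          mul_le_mul_of_nonneg_right h2 (by positivity)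
      _ = _ := by ring
  · intro k k' e1 e2 w1 w2
    obtain ⟨h1, h2⟩ := vol_pi hξ hc hC.le hK v v' hW0 hR.hyp.h2 hR'.hyp.h2 k k' e1 e2 w1 w2
    unfold ex at h1 h2
    rw [ee] at h1 h2
    constructor
    · refine h1.trans ?_
      have h3 : (10 * (1 + 2 * W ^ 2)) ^ 2 * EC c C ≤
          EC c C + (10 * (1 + 2 * W ^ 2)) ^ 2 * EC c C + PC W c C * EC c C := by
        have : 0 ≤ PC W c C * EC c C := by positivity
        linarith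
      calc (10 * (1 + 2 * W ^ 2)) ^ 2 * (1 / (ξ : ℝ) ^ 2) * (EC c C * Real.exp (-(c / 64 * K)))
          = ((10 * (1 + 2 * W ^ 2)) ^ 2 * EC c C) *
            (1 / (ξ : ℝ) ^ 2 * Real.exp (-(c / 64 * K))) := by ring
        _ ≤ (EC c C + (10 * (1 + 2 * W ^ 2)) ^ 2 * EC c C + PC W c C * EC c C) *
            (1 / (ξ : ℝ) ^ 2 * Real.exp (-(c / 64 * K))) :=
            mul_le_mul_of_nonneg_right h3 (by positivity)
        _ = _ := by ring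
    · refine h2.trans ?_
      have h3 : PC W c C * EC c C ≤
          EC c C + (10 * (1 + 2 * W ^ 2)) ^ 2 * EC c C + PC W c C * EC c C := by
        have : 0 ≤ (10 * (1 + 2 * W ^ 2)) ^ 2 * EC c C := by positivity
        linarith
      calc PC W c C * (|pw k.1| + |pw k.2|) ^ 2 * (EC c C * Real.exp (-(c / 64 * K)))
          = (PC W c C * EC c C) *
            ((|pw k.1| + |pw k.2|) ^ 2 * Real.exp (-(c / 64 * K))) := by ring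
        _ ≤ (EC c C + (10 * (1 + 2 * W ^ 2)) ^ 2 * EC c C + PC W c C * EC c C) *
            ((|pw k.1| + |pw k.2|) ^ 2 * Real.exp (-(c / 64 * K))) :=
            mul_le_mul_of_nonneg_right h3 (by positivity)
        _ = _ := by ring

end

end Vale.Agent.P159.H767
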