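import Vale.Agent.P159.H767.Vol3
import Vale.Agent.P159.H864.Cel1

/-!
P159, module VOL, cell level. `l ∣ N`; `Gc l A` the cell matrix of a translation invariant `A`.
Its symbol at a wave number `k` of the cell torus is a sum of the kernel against a bounded function
`PhiC` of the integer displacement which does not depend on the torus (`sym_Gc`). Hence the volume
transfer of `Vol3` applies for ALL `k`.
-/

set_option linter.unusedSectionVars false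

namespace Vale.Agent.P159.H767

open Finset
open Vale.Agent.P159.TM
open Vale.Agent.P159.TM.H459 (sn sd ball)
open Vale.Agent.P159.TM.H764 (pw Gh cN dt)
open Vale.Agent.P159.TM.H265 (HA K2 K2_pos)
open Vale.Agent.P159.H37 (Gt Ght Pik Gm wt)
open Vale.Agent.P159.TM.Spec (V)
open Vale.Agent.P159.H864 (cl cl1 Gc sym TI)

noncomputable section

/-! ### cells and integers -/

section cells

variable {N l : ℕ} [NeZero N] [NeZero (N / l)]

theorem cl1_int (hl : l ∣ N) (m : ℤ) :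
    (cl1 ((m : ℤ) : ZMod N) : ZMod (N / l)) = ((m / (l : ℤ) : ℤ) : ZMod (N / l)) := by
  have hl0 : (0 : ℤ) < l := by exact_mod_cast H864.l_pos hl
  have hNl : (l : ℤ) * ((N / l : ℕ) : ℤ) = (N : ℤ) := by exact_mod_cast Nat.mul_div_cancel' hl
  have h1 : ((((m : ℤ) : ZMod N).val : ℕ) : ℤ) = m % (N : ℤ) := ZMod.val_intCast m
  have h2 : m / (l : ℤ) = ((N / l : ℕ) : ℤ) * (m / (N : ℤ)) + (m % (N : ℤ)) / (l : ℤ) := by
    conv_lhs => rw [← Int.mul_ediv_add_emod m (N : ℤ), ← hNl, mul_assoc]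
    rw [Int.add_comm, Int.add_mul_ediv_left _ _ hl0.ne', hNl]
    ring
  unfold cl1
  rw [h2, Int.cast_add, Int.cast_mul, Int.cast_natCast, ZMod.natCast_self, zero_mul, zero_add,
    ← h1, ← Int.natCast_div, Int.cast_natCast]

theorem cl1_add_nat (hl : l ∣ N) (p : ℕ) (z : ZMod N) :
    (cl1 (z + (p : ZMod N)) : ZMod (N / l)) =
      ((((p : ℤ) + z.valMinAbs) / (l : ℤ) : ℤ) : ZMod (N / l)) := by
  rw [← cl1_int hl]
  congr 1
  push_cast
  exact add_comm _ _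

theorem cl_eq_zero (hl : l ∣ N) (x : V N) :
    (cl x : V (N / l)) = 0 ↔ x.1.val < l ∧ x.2.val < l := by
  have h1 : ∀ z : ZMod N, (cl1 z : ZMod (N / l)) = 0 ↔ z.val < l := by
    intro z
    rw [← ZMod.val_eq_zero, H864.cl1_val hl, Nat.div_eq_zero_iff]
    have := H864.l_pos hl
    omega
  unfold cl
  rw [← Prod.mk_zero_zero, Prod.mk.injEq, h1, h1]

theorem sum_cell_zero (hl : l ∣ N) (f : V N → ℝ) :
    ∑ x ∈ univ.filter (fun x : V N => (cl x : V (N / l)) = 0), f x =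
      ∑ p ∈ range l ×ˢ range l, f ((p.1 : ZMod N), (p.2 : ZMod N)) := by
  have hlN : l ≤ N := Nat.le_of_dvd (NeZero.pos N) hl
  refine sum_bij' (fun x _ => (x.1.val, x.2.val)) (fun p _ => ((p.1 : ZMod N), (p.2 : ZMod N)))
    ?_ ?_ ?_ ?_ ?_
  · intro x hx
    have := (cl_eq_zero hl x).1 (mem_filter.1 hx).2
    simp only [mem_product, mem_range]
    exact this
  · intro p hp
    simp only [mem_product, mem_range] at hp
    rw [mem_filter]
    refine ⟨mem_univ _, (cl_eq_zero hl _).2 ?_⟩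
    simp only
    rw [ZMod.val_natCast, ZMod.val_natCast, Nat.mod_eq_of_lt (hp.1.trans_le hlN),
      Nat.mod_eq_of_lt (hp.2.trans_le hlN)]
    exact hp
  · intro x _
    exact Prod.ext (ZMod.natCast_zmod_val _) (ZMod.natCast_zmod_val _)
  · intro p hp
    simp only [mem_product, mem_range] at hp
    simp only
    rw [ZMod.val_natCast, ZMod.val_natCast, Nat.mod_eq_of_lt (hp.1.trans_le hlN),
      Nat.mod_eq_of_lt (hp.2.trans_le hlN)]
  · intro x _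
    simp only [ZMod.natCast_zmod_val]

end cells

theorem cN_dt_int {n : ℕ} [NeZero n] (k : V n) (a b : ℤ) :
    cN (dt k ((a : ZMod n), (b : ZMod n))) = Real.cos (pw k.1 * a + pw k.2 * b) := by
  have h : dt k ((a : ZMod n), (b : ZMod n)) =
      (((k.1.valMinAbs * a + k.2.valMinAbs * b : ℤ)) : ZMod n) := by
    unfold dt
    push_cast
    simp only
  rw [h, H764.cN_int]
  congr 1
  unfold pw
  push_cast
  ring

/-- the cell average of the plane wave: displacement `z`, cells of side `l`, wave number `θ` of the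
cell lattice -/
def PhiC (l : ℕ) (θ₁ θ₂ : ℝ) (z : ℤ × ℤ) : ℝ :=
  ((l : ℝ) ^ 2)⁻¹ * ∑ p ∈ range l ×ˢ range l,
    Real.cos (θ₁ * (((p.1 : ℤ) + z.1) / (l : ℤ) : ℤ) + θ₂ * (((p.2 : ℤ) + z.2) / (l : ℤ) : ℤ))

section symbol

variable {N l : ℕ} [NeZero N] [NeZero (N / l)]

/-- **the symbol of the cell matrix** -/
theorem sym_Gc (hl : l ∣ N) {A : Matrix (V N) (V N) ℝ} (hA : TI A) (k : V (N / l)) :
    sym (Gc l A) k = fulE (A 0) (PhiC l (pw k.1) (pw k.2)) := by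
  have h1 : sym (Gc l A) k = ((l : ℝ) ^ 2)⁻¹ *
      ∑ x ∈ univ.filter (fun x : V N => (cl x : V (N / l)) = 0),
        ∑ y : V N, A x y * cN (dt k (cl y)) := by
    rw [H864.sym_def]
    calc ∑ c, Gc l A 0 c * cN (dt k c)
        = ∑ c, ((l : ℝ) ^ 2)⁻¹ * ∑ x ∈ univ.filter (fun x : V N => (cl x : V (N / l)) = 0),
            ∑ y ∈ univ.filter (fun y : V N => (cl y : V (N / l)) = c),
              A x y * cN (dt k (cl y)) := by
          refine sum_congr rfl fun c _ => ?_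
          rw [H864.Gc_apply, mul_assoc, sum_mul]
          congr 1
          refine sum_congr rfl fun x _ => ?_
          rw [sum_mul]
          refine sum_congr rfl fun y hy => ?_
          rw [(mem_filter.1 hy).2]
      _ = _ := by
          rw [← mul_sum, sum_comm]
          congr 1
          refine sum_congr rfl fun x _ => ?_
          exact sum_fiberwise univ (fun y : V N => (cl y : V (N / l)))
            fun y => A x y * cN (dt k (cl y))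
  rw [h1, sum_cell_zero hl]
  unfold fulE PhiC
  simp only [smul_eq_mul]
  rw [mul_sum]
  have h2 : ∀ p ∈ range l ×ˢ range l,
      ∑ y : V N, A ((p.1 : ZMod N), (p.2 : ZMod N)) y * cN (dt k (cl y)) =
        ∑ z : V N, A 0 z * Real.cos (pw k.1 * (((p.1 : ℤ) + z.1.valMinAbs) / (l : ℤ) : ℤ) +
          pw k.2 * (((p.2 : ℤ) + z.2.valMinAbs) / (l : ℤ) : ℤ)) := by
    intro p _
    rw [← Equiv.sum_comp (Equiv.addRight (((p.1 : ZMod N), (p.2 : ZMod N)) : V N))]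
    refine sum_congr rfl fun z _ => ?_
    simp only [Equiv.coe_addRight]
    have e1 : A ((p.1 : ZMod N), (p.2 : ZMod N)) (z + ((p.1 : ZMod N), (p.2 : ZMod N))) = A 0 z := by
      have := hA.tr ((p.1 : ZMod N), (p.2 : ZMod N)) 0 z
      rwa [zero_add] at this
    have e2 : (cl (z + ((p.1 : ZMod N), (p.2 : ZMod N))) : V (N / l)) =
        ((((((p.1 : ℤ) + z.1.valMinAbs) / (l : ℤ) : ℤ)) : ZMod (N / l)),
          (((((p.2 : ℤ) + z.2.valMinAbs) / (l : ℤ) : ℤ)) : ZMod (N / l))) := by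
      exact Prod.ext (cl1_add_nat hl _ _) (cl1_add_nat hl _ _)
    rw [e1, e2, cN_dt_int]
  rw [sum_congr rfl fun p hp => by rw [h2 p hp]]
  rw [← mul_sum, sum_comm, mul_sum]
  refine sum_congr rfl fun z _ => ?_
  rw [← mul_sum]
  ring

end symbol

/-! ### bounds of the test function -/

theorem abs_PhiC_le {l : ℕ} (hl : 1 ≤ l) (θ₁ θ₂ : ℝ) (z : ℤ × ℤ) : |PhiC l θ₁ θ₂ z| ≤ 1 := by
  have hl' : (0 : ℝ) < l := by exact_mod_cast hl
  unfold PhiC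
  rw [abs_mul, abs_of_pos (by positivity : (0 : ℝ) < ((l : ℝ) ^ 2)⁻¹), inv_mul_le_iff₀ (by positivity),
    mul_one]
  refine (abs_sum_le_sum_abs _ _).trans ?_
  refine (sum_le_sum fun p _ => Real.abs_cos_le_one _).trans (le_of_eq ?_)
  rw [sum_const, card_product, card_range, nsmul_eq_mul, mul_one]
  push_cast
  ring

theorem div_cell_le {l p : ℕ} (hl : 1 ≤ l) (hp : p < l) (m : ℤ) {r : ℝ} (hr : |(m : ℝ)| ≤ r) :
    |((((p : ℤ) + m) / (l : ℤ) : ℤ) : ℝ)| ≤ r / l + 1 := by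
  have hl' : (0 : ℝ) < l := by exact_mod_cast hl
  have hl0 : (0 : ℤ) < l := by exact_mod_cast hl
  obtain ⟨r1, r2⟩ := abs_le.1 hr
  have hp0 : (0 : ℝ) ≤ p := Nat.cast_nonneg _
  have hp1 : (p : ℝ) ≤ l := by exact_mod_cast hp.le
  set q := ((p : ℤ) + m) / (l : ℤ) with hq
  have h1 : q * (l : ℤ) ≤ (p : ℤ) + m := Int.ediv_mul_le _ hl0.ne'
  have h2 : (p : ℤ) + m < (q + 1) * (l : ℤ) := Int.lt_ediv_add_one_mul_self _ hl0
  have h1' : (q : ℝ) * l ≤ p + m := by exact_mod_cast h1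
  have h2' : (p : ℝ) + m < (q + 1) * l := by exact_mod_cast h2
  rw [abs_le]
  constructor
  · have : -(r / l + 1) * l ≤ q * l := by
      have e : -(r / l + 1) * l = -r - l := by field_simp; ring
      rw [e]
      nlinarith
    exact le_of_mul_le_mul_right this hl'
  · have : (q : ℝ) * l ≤ (r / l + 1) * l := by
      have e : (r / l + 1) * l = r + l := by field_simp
      rw [e]
      linarith
    exact le_of_mul_le_mul_right this hl'

theorem abs_fst_le_nz (z : ℤ × ℤ) : |(z.1 : ℝ)| ≤ (nz z : ℝ) := by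
  have : |(z.1 : ℝ)| = (z.1.natAbs : ℝ) := by rw [Nat.cast_natAbs, Int.cast_abs]
  rw [this]
  exact_mod_cast le_max_left _ _

theorem abs_snd_le_nz (z : ℤ × ℤ) : |(z.2 : ℝ)| ≤ (nz z : ℝ) := by
  have : |(z.2 : ℝ)| = (z.2.natAbs : ℝ) := by rw [Nat.cast_natAbs, Int.cast_abs]
  rw [this]
  exact_mod_cast le_max_right _ _

theorem one_sub_PhiC {l : ℕ} (hl : 1 ≤ l) (θ₁ θ₂ : ℝ) (z : ℤ × ℤ) :
    0 ≤ 1 - PhiC l θ₁ θ₂ z ∧
      1 - PhiC l θ₁ θ₂ z ≤ (|θ₁| + |θ₂|) ^ 2 * ((nz z : ℝ) / l + 1) ^ 2 / 2 := by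
  have hl' : (0 : ℝ) < l := by exact_mod_cast hl
  refine ⟨sub_nonneg.2 ((le_abs_self _).trans (abs_PhiC_le hl θ₁ θ₂ z)), ?_⟩
  have hc : ((l : ℝ) ^ 2)⁻¹ * ∑ _p ∈ range l ×ˢ range l, (1 : ℝ) = 1 := by
    rw [sum_const, card_product, card_range, nsmul_eq_mul, mul_one]
    push_cast
    field_simp
  have e : 1 - PhiC l θ₁ θ₂ z = ((l : ℝ) ^ 2)⁻¹ * ∑ p ∈ range l ×ˢ range l,
      (1 - Real.cos (θ₁ * (((p.1 : ℤ) + z.1) / (l : ℤ) : ℤ) +
        θ₂ * (((p.2 : ℤ) + z.2) / (l : ℤ) : ℤ))) := by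
    rw [sum_sub_distrib, mul_sub, hc]
    rfl
  rw [e]
  have h1 : ∀ p ∈ range l ×ˢ range l,
      1 - Real.cos (θ₁ * (((p.1 : ℤ) + z.1) / (l : ℤ) : ℤ) +
        θ₂ * (((p.2 : ℤ) + z.2) / (l : ℤ) : ℤ)) ≤
      (|θ₁| + |θ₂|) ^ 2 * ((nz z : ℝ) / l + 1) ^ 2 / 2 := by
    intro p hp
    simp only [mem_product, mem_range] at hp
    have d1 := div_cell_le hl hp.1 z.1 (abs_fst_le_nz z)
    have d2 := div_cell_le hl hp.2 z.2 (abs_snd_le_nz z)
    set u := ((((p.1 : ℤ) + z.1) / (l : ℤ) : ℤ) : ℝ)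
    set v := ((((p.2 : ℤ) + z.2) / (l : ℤ) : ℤ) : ℝ)
    have h2 := Real.one_sub_sq_div_two_le_cos (x := θ₁ * u + θ₂ * v)
    have h3 : |θ₁ * u + θ₂ * v| ≤ (|θ₁| + |θ₂|) * ((nz z : ℝ) / l + 1) := by
      refine (abs_add_le _ _).trans ?_
      rw [abs_mul, abs_mul, add_mul]
      gcongr
    have h4 : (θ₁ * u + θ₂ * v) ^ 2 ≤ ((|θ₁| + |θ₂|) * ((nz z : ℝ) / l + 1)) ^ 2 := by
      rw [← sq_abs]
      exact pow_le_pow_left₀ (abs_nonneg _) h3 2
    rw [mul_pow] at h4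
    linarith
  calc ((l : ℝ) ^ 2)⁻¹ * ∑ p ∈ range l ×ˢ range l,
        (1 - Real.cos (θ₁ * (((p.1 : ℤ) + z.1) / (l : ℤ) : ℤ) +
          θ₂ * (((p.2 : ℤ) + z.2) / (l : ℤ) : ℤ)))
      ≤ ((l : ℝ) ^ 2)⁻¹ * ∑ _p ∈ range l ×ˢ range l,
        ((|θ₁| + |θ₂|) ^ 2 * ((nz z : ℝ) / l + 1) ^ 2 / 2) :=
        mul_le_mul_of_nonneg_left (sum_le_sum h1) (by positivity)
    _ = ((|θ₁| + |θ₂|) ^ 2 * ((nz z : ℝ) / l + 1) ^ 2 / 2) *
        (((l : ℝ) ^ 2)⁻¹ * ∑ _p ∈ range l ×ˢ range l, (1 : ℝ)) := by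
        rw [sum_const, sum_const, nsmul_eq_mul, nsmul_eq_mul]
        ring
    _ = _ := by rw [hc, mul_one]

/-- weight of the second order form, `l ≤ ξ`: `|z| / l + 1` against exponentials -/
theorem cell_sq_le {l ξ : ℕ} (hl : 1 ≤ l) (hlξ : l ≤ ξ) {r : ℝ} (hr : 0 < r) (x : ℕ) :
    ((x : ℝ) / l + 1) ^ 2 / 2 ≤ (ξ / l : ℝ) ^ 2 * (2 / r ^ 2 + 1) * Real.exp (r * x / ξ) := by
  have hl' : (0 : ℝ) < l := by exact_mod_cast hl
  have hξ : 1 ≤ ξ := hl.trans hlξ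
  have hξ' : (0 : ℝ) < ξ := by exact_mod_cast hξ
  have h0 := nz_sq_le (ξ := ξ) hr hξ x
  have h1 : ((x : ℝ) / l + 1) ^ 2 / 2 ≤ ((x : ℝ) / l) ^ 2 + 1 := by
    nlinarith [sq_nonneg ((x : ℝ) / l - 1)]
  have h2 : (1 : ℝ) ≤ (ξ / l : ℝ) ^ 2 := by
    refine one_le_pow₀ ?_
    rw [le_div_iff₀ hl', one_mul]
    exact_mod_cast hlξ
  have h3 : (1 : ℝ) ≤ Real.exp (r * x / ξ) := Real.one_le_exp (by positivity)
  have h4 : ((x : ℝ) / l) ^ 2 ≤ (ξ / l : ℝ) ^ 2 * (2 / r ^ 2) * Real.exp (r * x / ξ) := by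
    have e1 : ((x : ℝ) / l) ^ 2 = 2 / (l : ℝ) ^ 2 * ((x : ℝ) ^ 2 / 2) := by
      field_simp
    have e2 : (ξ / l : ℝ) ^ 2 * (2 / r ^ 2) * Real.exp (r * x / ξ) =
        2 / (l : ℝ) ^ 2 * ((ξ / r : ℝ) ^ 2 * Real.exp (r * x / ξ)) := by
      field_simp
    rw [e1, e2]
    exact mul_le_mul_of_nonneg_left h0 (by positivity)
  have h5 : (1 : ℝ) ≤ (ξ / l : ℝ) ^ 2 * Real.exp (r * x / ξ) := by nlinarith
  calc ((x : ℝ) / l + 1) ^ 2 / 2 ≤ ((x : ℝ) / l) ^ 2 + 1 := h1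
    _ ≤ (ξ / l : ℝ) ^ 2 * (2 / r ^ 2) * Real.exp (r * x / ξ) +
        (ξ / l : ℝ) ^ 2 * Real.exp (r * x / ξ) := add_le_add h4 h5
    _ = _ := by ring

/-! ### transfer -/

section transfer

variable {N M l : ℕ} [NeZero N] [NeZero M] [NeZero (N / l)] [NeZero (M / l)]
variable {b : ℝ} {ξ : ℕ} {y y' c C : ℝ}

theorem ti_G (b : ℝ) (ξ : ℕ) : TI (Gm (wt N b (1 / (ξ : ℝ) ^ 2))) := H864.ti_Gm_wt _

theorem Gm_zero (b : ℝ) (ξ : ℕ) :
    (Gm (wt N b (1 / (ξ : ℝ) ^ 2))) 0 = H41.G b N (ξ : ℝ) :=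
  funext fun z => Gt_eq N b ξ z

/-- **(VOL, cell level)**: the symbols -/
theorem volc (hlN : l ∣ N) (hlM : l ∣ M) {hb : 0 ≤ b} (hξ : 1 ≤ ξ) (hc : 0 < c) (hC : 0 ≤ C)
    {K : ℕ} (hK : 8 ≤ K) (h : VX N b ξ hb c C K y) (h' : VX M b ξ hb c C K y')
    (k : V (N / l)) (k' : V (M / l)) (e1 : pw k.1 = pw k'.1) (e2 : pw k.2 = pw k'.2) :
    |sym (Gc l (Gm (wt N b (1 / (ξ : ℝ) ^ 2)))) k -
      sym (Gc l (Gm (wt M b (1 / (ξ : ℝ) ^ 2)))) k'| ≤ (ξ : ℝ) ^ 2 * ex c C K := by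
  have hl : 1 ≤ l := H864.l_pos hlN
  rw [sym_Gc hlN (ti_G b ξ), sym_Gc hlM (ti_G b ξ), Gm_zero, Gm_zero, ← e1, ← e2]
  have := vol3 hξ hc hC hK h h' (φ := PhiC l (pw k.1) (pw k.2)) (B := 1) zero_le_one fun z => by
      rw [Real.norm_eq_abs, one_mul]
      exact (abs_PhiC_le hl _ _ z).trans (Real.one_le_exp (by positivity))
  rwa [one_mul, Real.norm_eq_abs] at this

theorem fulE_sub_one {n : ℕ} [NeZero n] (G : ZMod n × ZMod n → ℝ) (φ : ℤ × ℤ → ℝ) :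
    fulE G (fun _ => (1 : ℝ)) - fulE G φ = fulE G fun z => 1 - φ z := by
  unfold fulE
  rw [← sum_sub_distrib]
  exact sum_congr rfl fun w _ => by simp only [smul_eq_mul]; ring

theorem PhiC_zero {l : ℕ} (hl : 1 ≤ l) : PhiC l 0 0 = fun _ => (1 : ℝ) := by
  have hl' : (0 : ℝ) < l := by exact_mod_cast hl
  funext z
  unfold PhiC
  simp only [zero_mul, add_zero, Real.cos_zero, sum_const, card_product, card_range, nsmul_eq_mul,
    mul_one]
  push_cast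
  field_simp

theorem sym_Gc_zero {n : ℕ} [NeZero n] [NeZero (n / l)] (hl : l ∣ n) {A : Matrix (V n) (V n) ℝ}
    (hA : TI A) : sym (Gc l A) 0 = fulE (A 0) fun _ => (1 : ℝ) := by
  have hz : pw (0 : ZMod (n / l)) = 0 := by
    unfold pw
    simp
  rw [sym_Gc hl hA]
  simp only [Prod.fst_zero, Prod.snd_zero, hz, PhiC_zero (H864.l_pos hl)]

/-- the constant of the second order form at cell level -/
def CS (c : ℝ) : ℝ := 2 / (c / 16) ^ 2 + 1

theorem CS_pos (c : ℝ) : 0 < CS c := by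
  unfold CS
  positivity

/-- **(VOL, cell level)**: second order form, `l ≤ ξ`; `θ / l` is the physical wave number -/
theorem volc_sec (hlN : l ∣ N) (hlM : l ∣ M) (hlξ : l ≤ ξ) {hb : 0 ≤ b} (hc : 0 < c)
    (hC : 0 ≤ C) {K : ℕ} (hK : 8 ≤ K) (h : VX N b ξ hb c C K y) (h' : VX M b ξ hb c C K y')
    (k : V (N / l)) (k' : V (M / l)) (e1 : pw k.1 = pw k'.1) (e2 : pw k.2 = pw k'.2) :
    |(sym (Gc l (Gm (wt N b (1 / (ξ : ℝ) ^ 2)))) 0 -
        sym (Gc l (Gm (wt N b (1 / (ξ : ℝ) ^ 2)))) k) -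
      (sym (Gc l (Gm (wt M b (1 / (ξ : ℝ) ^ 2)))) 0 -
        sym (Gc l (Gm (wt M b (1 / (ξ : ℝ) ^ 2)))) k')| ≤
      ((|pw k.1| + |pw k.2|) / l) ^ 2 * (ξ : ℝ) ^ 4 * (CS c * ex c C K) := by
  have hl : 1 ≤ l := H864.l_pos hlN
  have hl' : (0 : ℝ) < l := by exact_mod_cast hl
  have hξ : 1 ≤ ξ := hl.trans hlξ
  rw [sym_Gc_zero hlN (ti_G b ξ), sym_Gc_zero hlM (ti_G b ξ), sym_Gc hlN (ti_G b ξ),
    sym_Gc hlM (ti_G b ξ), Gm_zero, Gm_zero, ← e1, ← e2, fulE_sub_one, fulE_sub_one]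
  have h1 := vol3 hξ hc hC hK h h' (φ := fun z => 1 - PhiC l (pw k.1) (pw k.2) z)
    (B := (|pw k.1| + |pw k.2|) ^ 2 * ((ξ / l : ℝ) ^ 2 * CS c))
    (mul_nonneg (sq_nonneg _) (mul_nonneg (sq_nonneg _) (CS_pos c).le)) fun z => by
      obtain ⟨p0, p1⟩ := one_sub_PhiC hl (pw k.1) (pw k.2) z
      rw [Real.norm_eq_abs, abs_of_nonneg p0]
      refine p1.trans ?_
      have := mul_le_mul_of_nonneg_left (cell_sq_le hl hlξ (r := c / 16) (by positivity) (nz z))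
        (sq_nonneg (|pw k.1| + |pw k.2|))
      unfold CS
      linarith
  rw [Real.norm_eq_abs] at h1
  refine h1.trans (le_of_eq ?_)
  field_simp

/-- second moment bound at cell level -/
theorem VX.secc (hlN : l ∣ N) (hlξ : l ≤ ξ) {hb : 0 ≤ b} (hc : 0 < c) (hC : 0 ≤ C) {K : ℕ}
    (hK : 8 ≤ K) (h : VX N b ξ hb c C K y) (k : V (N / l)) :
    0 ≤ sym (Gc l (Gm (wt N b (1 / (ξ : ℝ) ^ 2)))) 0 -
        sym (Gc l (Gm (wt N b (1 / (ξ : ℝ) ^ 2)))) k ∧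
    sym (Gc l (Gm (wt N b (1 / (ξ : ℝ) ^ 2)))) 0 -
        sym (Gc l (Gm (wt N b (1 / (ξ : ℝ) ^ 2)))) k ≤
      ((|pw k.1| + |pw k.2|) / l) ^ 2 * (ξ : ℝ) ^ 4 * (CS c * K2 c C) := by
  have hl : 1 ≤ l := H864.l_pos hlN
  have hl' : (0 : ℝ) < l := by exact_mod_cast hl
  have hξ : 1 ≤ ξ := hl.trans hlξ
  have hξ' : (0 : ℝ) < ξ := by exact_mod_cast hξ
  have hG := H41.G_nonneg (N := N) hb hξ'
  have hm := h.mom hξ hc hC hK
  rw [sym_Gc_zero hlN (ti_G b ξ), sym_Gc hlN (ti_G b ξ), Gm_zero, fulE_sub_one]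
  unfold fulE
  simp only [smul_eq_mul]
  constructor
  · exact sum_nonneg fun w _ => mul_nonneg (hG w) (one_sub_PhiC hl _ _ _).1
  · calc ∑ w : ZMod N × ZMod N, H41.G b N (ξ : ℝ) w *
          (1 - PhiC l (pw k.1) (pw k.2) (w.1.valMinAbs, w.2.valMinAbs))
        ≤ ∑ w : ZMod N × ZMod N, ((|pw k.1| + |pw k.2|) ^ 2 * ((ξ / l : ℝ) ^ 2 * CS c)) *
          (H41.G b N (ξ : ℝ) w * Real.exp (c / 8 * sn w / ξ)) := by
          refine sum_le_sum fun w _ => ?_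
          have h1 := (one_sub_PhiC hl (pw k.1) (pw k.2) (w.1.valMinAbs, w.2.valMinAbs)).2
          rw [nz_vma] at h1
          have h2 := mul_le_mul_of_nonneg_left
            (cell_sq_le hl hlξ (r := c / 16) (by positivity) (sn w))
            (sq_nonneg (|pw k.1| + |pw k.2|))
          have h3 : Real.exp (c / 16 * sn w / ξ) ≤ Real.exp (c / 8 * sn w / ξ) := by
            refine Real.exp_le_exp.2 ?_
            have e1 : c / 16 * (sn w : ℝ) / ξ = c * sn w / ξ / 16 := by ring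
            have e2 : c / 8 * (sn w : ℝ) / ξ = c * sn w / ξ / 8 := by ring
            have : 0 ≤ c * (sn w : ℝ) / ξ := by positivity
            rw [e1, e2]
            linarith
          have h4 : 1 - PhiC l (pw k.1) (pw k.2) (w.1.valMinAbs, w.2.valMinAbs) ≤
              ((|pw k.1| + |pw k.2|) ^ 2 * ((ξ / l : ℝ) ^ 2 * CS c)) *
                Real.exp (c / 8 * sn w / ξ) := by
            have hCS := CS_pos c
            calc _ ≤ (|pw k.1| + |pw k.2|) ^ 2 * ((sn w : ℝ) / l + 1) ^ 2 / 2 := h1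
              _ ≤ (|pw k.1| + |pw k.2|) ^ 2 *
                  ((ξ / l : ℝ) ^ 2 * (2 / (c / 16) ^ 2 + 1) * Real.exp (c / 16 * sn w / ξ)) := by
                  linarith
              _ = ((|pw k.1| + |pw k.2|) ^ 2 * ((ξ / l : ℝ) ^ 2 * CS c)) *
                  Real.exp (c / 16 * sn w / ξ) := by
                  unfold CS
                  ring
              _ ≤ _ := mul_le_mul_of_nonneg_left h3 (by positivity)
          calc H41.G b N (ξ : ℝ) w *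
                (1 - PhiC l (pw k.1) (pw k.2) (w.1.valMinAbs, w.2.valMinAbs))
              ≤ H41.G b N (ξ : ℝ) w * (((|pw k.1| + |pw k.2|) ^ 2 * ((ξ / l : ℝ) ^ 2 * CS c)) *
                Real.exp (c / 8 * sn w / ξ)) := mul_le_mul_of_nonneg_left h4 (hG w)
            _ = _ := by ring
      _ = ((|pw k.1| + |pw k.2|) ^ 2 * ((ξ / l : ℝ) ^ 2 * CS c)) *
          ∑ w : ZMod N × ZMod N, H41.G b N (ξ : ℝ) w * Real.exp (c / 8 * sn w / ξ) := by
          rw [mul_sum]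
      _ ≤ ((|pw k.1| + |pw k.2|) ^ 2 * ((ξ / l : ℝ) ^ 2 * CS c)) * (K2 c C * (ξ : ℝ) ^ 2) := by
          have hCS := CS_pos c
          exact mul_le_mul_of_nonneg_left hm (by positivity)
      _ = _ := by
          field_simp

/-- the cell self energy at the wave number `k` of the cell torus, scalar mass `t` -/
def PiCk (N l : ℕ) [NeZero N] [NeZero (N / l)] (b t : ℝ) (k : V (N / l)) : ℝ :=
  (sym (Gc l (Gm (wt N b t))) k)⁻¹ - t

/-- **(VOL, cell level)**: cell self energies, given a lower bound `m` of the symbols -/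
theorem volc_pi (hlN : l ∣ N) (hlM : l ∣ M) (hlξ : l ≤ ξ) {hb : 0 ≤ b} (hc : 0 < c)
    (hC : 0 ≤ C) {K : ℕ} (hK : 8 ≤ K) (h : VX N b ξ hb c C K y) (h' : VX M b ξ hb c C K y')
    (k : V (N / l)) (k' : V (M / l)) (e1 : pw k.1 = pw k'.1) (e2 : pw k.2 = pw k'.2) {m : ℝ}
    (hm : 0 < m) (mk : m ≤ sym (Gc l (Gm (wt N b (1 / (ξ : ℝ) ^ 2)))) k)
    (mk' : m ≤ sym (Gc l (Gm (wt M b (1 / (ξ : ℝ) ^ 2)))) k') :
    |PiCk N l b (1 / (ξ : ℝ) ^ 2) k - PiCk M l b (1 / (ξ : ℝ) ^ 2) k'| ≤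
      (ξ : ℝ) ^ 2 * ex c C K / m ^ 2 ∧
    |(PiCk N l b (1 / (ξ : ℝ) ^ 2) k - PiCk N l b (1 / (ξ : ℝ) ^ 2) 0) -
      (PiCk M l b (1 / (ξ : ℝ) ^ 2) k' - PiCk M l b (1 / (ξ : ℝ) ^ 2) 0)| ≤
      ((|pw k.1| + |pw k.2|) / l) ^ 2 * CS c * ((ξ : ℝ) ^ 4 / m ^ 2 +
        2 * K2 c C * (ξ : ℝ) ^ 6 / m ^ 3) * ex c C K := by
  have hl : 1 ≤ l := H864.l_pos hlN
  have hξ : 1 ≤ ξ := hl.trans hlξ
  have hz : pw (0 : ZMod (N / l)) = pw (0 : ZMod (M / l)) := by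
    unfold pw
    simp
  have s := volc_sec hlN hlM hlξ hc hC hK h h' k k' e1 e2
  have d := volc hlN hlM hξ hc hC hK h h' k k' e1 e2
  have d0 := volc hlN hlM hξ hc hC hK h h' (0 : V (N / l)) (0 : V (M / l)) hz hz
  obtain ⟨a0, a1⟩ := h'.secc hlM hlξ hc hC hK k'
  obtain ⟨c0, -⟩ := h.secc hlN hlξ hc hC hK k
  rw [← e1, ← e2] at a1
  unfold PiCk
  set gk := sym (Gc l (Gm (wt N b (1 / (ξ : ℝ) ^ 2)))) k
  set gk' := sym (Gc l (Gm (wt M b (1 / (ξ : ℝ) ^ 2)))) k'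
  set g0 := sym (Gc l (Gm (wt N b (1 / (ξ : ℝ) ^ 2)))) 0
  set g0' := sym (Gc l (Gm (wt M b (1 / (ξ : ℝ) ^ 2)))) 0
  have m0 : m ≤ g0 := by linarith
  have m0' : m ≤ g0' := by linarith
  constructor
  · have e : gk⁻¹ - 1 / (ξ : ℝ) ^ 2 - (gk'⁻¹ - 1 / (ξ : ℝ) ^ 2) = gk⁻¹ - gk'⁻¹ := by ring
    rw [e]
    exact inv_sub_le hm mk mk' d
  · have pk : 0 < gk := hm.trans_le mk
    have pk' : 0 < gk' := hm.trans_le mk'
    have p0 : 0 < g0 := hm.trans_le m0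
    have p0' : 0 < g0' := hm.trans_le m0'
    have h3 := quot_sub_le (A := g0 - gk) (A' := g0' - gk') hm m0 mk m0' mk' d0 d a0 a1 s
    have e : gk⁻¹ - 1 / (ξ : ℝ) ^ 2 - (g0⁻¹ - 1 / (ξ : ℝ) ^ 2) -
        (gk'⁻¹ - 1 / (ξ : ℝ) ^ 2 - (g0'⁻¹ - 1 / (ξ : ℝ) ^ 2)) =
        (g0 - gk) / (g0 * gk) - (g0' - gk') / (g0' * gk') := by
      field_simp
      ring
    rw [e]
    refine h3.trans (le_of_eq ?_)
    ring

end transfer

end

end Vale.Agent.P159.H767
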